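import Vale.Agent.Lib.P322.Flow

/-!
P322 (Courtade-Kumar): averaged forms (L) and (S) of the pointwise inequality.
-/

namespace P322

open Real Set Filter Topology

lemma sub_mul_dh {z : ℝ} : binEntropy z - z * dh z = - log (1 - z) := by
  rw [binEntropy_eq']; unfold dh; ring

lemma Nu_self (m η r : ℝ) : Nu m η m η r = LL m η r := by
  unfold Nu LL
  have h1 := sub_mul_dh (z := m - r * η)
  have h2 := sub_mul_dh (z := m + r * η)
  linarith

lemma LL_pos {m η r : ℝ} (hη : 0 < η) (hηm : η ≤ m) (hm : m ≤ 1 / 2) (hr : 0 < r) (hr1 : r ≤ 1)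
    (h1 : m + r * η < 1) : 0 < LL m η r := by
  unfold LL
  have a1 := Real.log_neg (x := 1 - (m + r * η)) (by nlinarith) (by nlinarith)
  have a2 := Real.log_nonpos (x := 1 - (m - r * η)) (by nlinarith) (by nlinarith)
  linarith

variable {ι : Type*} [Fintype ι]

/-- (L) for `η < m`. -/
theorem L_form_aux (w u v : ι → ℝ) (hw : ∀ i, 0 ≤ w i) (hw1 : ∑ i, w i = 1)
    (hu : ∀ i, u i ∈ Icc (0 : ℝ) 1) (hv : ∀ i, v i ∈ Icc (0 : ℝ) 1) {m η ρ : ℝ}
    (hρ : 0 < ρ) (hρ1 : ρ ≤ 1) (hη0 : 0 < η) (hηm : η < m) (hm2 : m ≤ 1 / 2)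
    (hm : ∑ i, w i * ((u i + v i) / 2) = m) (hη : ∑ i, w i * ((v i - u i) / 2) = η) :
    (binEntropy (m - ρ * η) + binEntropy (m + ρ * η)) / 2
      - LL m η ρ / LL m η 1 * ((binEntropy (m - η) + binEntropy (m + η)) / 2
          - ∑ i, w i * ((binEntropy (u i) + binEntropy (v i)) / 2)) ≤
    ∑ i, w i * ((binEntropy ((u i + v i) / 2 - ρ * ((v i - u i) / 2)) +
      binEntropy ((u i + v i) / 2 + ρ * ((v i - u i) / 2))) / 2) := by
  have hL1 : 0 < LL m η 1 := LL_pos hη0 hηm.le hm2 one_pos le_rfl (by linarith)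
  have key : ∑ i, w i * (LL m η ρ / LL m η 1 * Nu ((u i + v i) / 2) ((v i - u i) / 2) m η 1) ≤
      ∑ i, w i * Nu ((u i + v i) / 2) ((v i - u i) / 2) m η ρ := by
    apply Finset.sum_le_sum
    intro i _
    exact mul_le_mul_of_nonneg_left (pw_closed hρ hρ1 hη0 hηm hm2 (hu i) (hv i)) (hw i)
  have hsum : ∀ r : ℝ, ∑ i, w i * Nu ((u i + v i) / 2) ((v i - u i) / 2) m η r =
      2 * ∑ i, w i * ((binEntropy ((u i + v i) / 2 - r * ((v i - u i) / 2)) +
        binEntropy ((u i + v i) / 2 + r * ((v i - u i) / 2))) / 2)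
      - (m - r * η) * dh (m - r * η) - (m + r * η) * dh (m + r * η) := by
    intro r
    have e : ∀ i, w i * Nu ((u i + v i) / 2) ((v i - u i) / 2) m η r =
      2 * (w i * ((binEntropy ((u i + v i) / 2 - r * ((v i - u i) / 2)) +
        binEntropy ((u i + v i) / 2 + r * ((v i - u i) / 2))) / 2))
      - (w i * ((u i + v i) / 2) - r * (w i * ((v i - u i) / 2))) * dh (m - r * η)
      - (w i * ((u i + v i) / 2) + r * (w i * ((v i - u i) / 2))) * dh (m + r * η) := by
      intro i; unfold Nu; ring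
    rw [Finset.sum_congr rfl (fun i _ => e i), Finset.sum_sub_distrib, Finset.sum_sub_distrib,
      ← Finset.mul_sum, ← Finset.sum_mul, ← Finset.sum_mul, Finset.sum_sub_distrib,
      Finset.sum_add_distrib, ← Finset.mul_sum, hm, hη]
  have e1 : ∑ i, w i * (LL m η ρ / LL m η 1 * Nu ((u i + v i) / 2) ((v i - u i) / 2) m η 1) =
      LL m η ρ / LL m η 1 * ∑ i, w i * Nu ((u i + v i) / 2) ((v i - u i) / 2) m η 1 := by
    rw [Finset.mul_sum]
    apply Finset.sum_congr rfl
    intro i _; ring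
  rw [e1, hsum, hsum] at key
  have e2 : ∑ i, w i * ((binEntropy ((u i + v i) / 2 - 1 * ((v i - u i) / 2)) +
        binEntropy ((u i + v i) / 2 + 1 * ((v i - u i) / 2))) / 2) =
      ∑ i, w i * ((binEntropy (u i) + binEntropy (v i)) / 2) := by
    apply Finset.sum_congr rfl
    intro i _
    have a1 : (u i + v i) / 2 - 1 * ((v i - u i) / 2) = u i := by ring
    have a2 : (u i + v i) / 2 + 1 * ((v i - u i) / 2) = v i := by ring
    rw [a1, a2]
  rw [e2] at key
  have s1 := sub_mul_dh (z := m - ρ * η)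
  have s2 := sub_mul_dh (z := m + ρ * η)
  have s3 := sub_mul_dh (z := m - η)
  have s4 := sub_mul_dh (z := m + η)
  simp only [one_mul] at key
  set c := LL m η ρ / LL m η 1 with hc
  have hcL : c * LL m η 1 = LL m η ρ := by rw [hc]; field_simp
  have hL1e : LL m η 1 = - log (1 - (m - η)) - log (1 - (m + η)) := by unfold LL; simp
  have hLρe : LL m η ρ = - log (1 - (m - ρ * η)) - log (1 - (m + ρ * η)) := rfl
  set H1 := ∑ i, w i * ((binEntropy (u i) + binEntropy (v i)) / 2)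
  set Hρ := ∑ i, w i * ((binEntropy ((u i + v i) / 2 - ρ * ((v i - u i) / 2)) +
      binEntropy ((u i + v i) / 2 + ρ * ((v i - u i) / 2))) / 2)
  have t1 : (m - η) * dh (m - η) + (m + η) * dh (m + η) =
    binEntropy (m - η) + binEntropy (m + η) - LL m η 1 := by rw [hL1e]; linarith
  have t2 : (m - ρ * η) * dh (m - ρ * η) + (m + ρ * η) * dh (m + ρ * η) =
    binEntropy (m - ρ * η) + binEntropy (m + ρ * η) - LL m η ρ := by rw [hLρe]; linarith
  have key2 : c * (2 * H1 - (binEntropy (m - η) + binEntropy (m + η) - LL m η 1)) ≤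
      2 * Hρ - (binEntropy (m - ρ * η) + binEntropy (m + ρ * η) - LL m η ρ) := by
    rw [← t1, ← t2]; linarith
  have key3 : c * (2 * H1 - (binEntropy (m - η) + binEntropy (m + η) - LL m η 1)) =
     c * (2 * H1 - (binEntropy (m - η) + binEntropy (m + η))) + LL m η ρ := by
    rw [← hcL]; ring
  rw [key3] at key2
  linarith

/-- **(L)**, including the boundary case `η = m < 1/2`. -/
theorem L_form (w u v : ι → ℝ) (hw : ∀ i, 0 ≤ w i) (hw1 : ∑ i, w i = 1)
    (hu : ∀ i, u i ∈ Icc (0 : ℝ) 1) (hv : ∀ i, v i ∈ Icc (0 : ℝ) 1) {m η ρ : ℝ}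
    (hρ : 0 < ρ) (hρ1 : ρ ≤ 1) (hη0 : 0 < η) (hηm : η ≤ m) (hm2 : m ≤ 1 / 2) (hmη : m + η < 1)
    (hm : ∑ i, w i * ((u i + v i) / 2) = m) (hη : ∑ i, w i * ((v i - u i) / 2) = η) :
    (binEntropy (m - ρ * η) + binEntropy (m + ρ * η)) / 2
      - LL m η ρ / LL m η 1 * ((binEntropy (m - η) + binEntropy (m + η)) / 2
          - ∑ i, w i * ((binEntropy (u i) + binEntropy (v i)) / 2)) ≤
    ∑ i, w i * ((binEntropy ((u i + v i) / 2 - ρ * ((v i - u i) / 2)) +
      binEntropy ((u i + v i) / 2 + ρ * ((v i - u i) / 2))) / 2) := by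
  -- the perturbed quantities
  let ut : ℝ → ι → ℝ := fun t i => (1 - t) * u i + t / 2
  let vt : ℝ → ι → ℝ := fun t i => (1 - t) * v i + t / 2
  let mt : ℝ → ℝ := fun t => (1 - t) * m + t / 2
  let ηt : ℝ → ℝ := fun t => (1 - t) * η
  let A : ℝ → ℝ := fun t => (binEntropy (mt t - ρ * ηt t) + binEntropy (mt t + ρ * ηt t)) / 2
      - LL (mt t) (ηt t) ρ / LL (mt t) (ηt t) 1 *
        ((binEntropy (mt t - ηt t) + binEntropy (mt t + ηt t)) / 2
          - ∑ i, w i * ((binEntropy (ut t i) + binEntropy (vt t i)) / 2))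
  let Bf : ℝ → ℝ := fun t => ∑ i, w i * ((binEntropy ((ut t i + vt t i) / 2 - ρ * ((vt t i - ut t i) / 2)) +
      binEntropy ((ut t i + vt t i) / 2 + ρ * ((vt t i - ut t i) / 2))) / 2)
  have hle : ∀ t ∈ Ioo (0 : ℝ) 1, A t ≤ Bf t := by
    intro t ht
    have ht0 := ht.1
    have ht1 := ht.2
    apply L_form_aux w (ut t) (vt t) hw hw1 _ _ hρ hρ1
    · show 0 < (1 - t) * η
      apply mul_pos (by linarith) hη0
    · show (1 - t) * η < (1 - t) * m + t / 2
      nlinarith
    · show (1 - t) * m + t / 2 ≤ 1 / 2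
      nlinarith
    · have : ∀ i, w i * ((ut t i + vt t i) / 2) = (1 - t) * (w i * ((u i + v i) / 2)) + (t / 2) * w i := by
        intro i; simp only [ut, vt]; ring
      rw [Finset.sum_congr rfl (fun i _ => this i), Finset.sum_add_distrib, ← Finset.mul_sum,
        ← Finset.mul_sum, hm, hw1]
      simp only [mt]; ring
    · have : ∀ i, w i * ((vt t i - ut t i) / 2) = (1 - t) * (w i * ((v i - u i) / 2)) := by
        intro i; simp only [ut, vt]; ring
      rw [Finset.sum_congr rfl (fun i _ => this i), ← Finset.mul_sum, hη]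
    · intro i
      have h1 := (hu i).1
      have h2 := (hu i).2
      constructor
      · show 0 ≤ (1 - t) * u i + t / 2
        have : 0 ≤ (1 - t) * u i := mul_nonneg (by linarith) h1
        linarith
      · show (1 - t) * u i + t / 2 ≤ 1
        nlinarith
    · intro i
      have h1 := (hv i).1
      have h2 := (hv i).2
      constructor
      · show 0 ≤ (1 - t) * v i + t / 2
        have : 0 ≤ (1 - t) * v i := mul_nonneg (by linarith) h1
        linarith
      · show (1 - t) * v i + t / 2 ≤ 1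
        nlinarith
  have hbc := binEntropy_continuous
  have cut : ∀ i, Continuous (fun t => ut t i) := fun i => by simp only [ut]; fun_prop
  have cvt : ∀ i, Continuous (fun t => vt t i) := fun i => by simp only [vt]; fun_prop
  have cmt : Continuous mt := by simp only [mt]; fun_prop
  have cηt : Continuous ηt := by simp only [ηt]; fun_prop
  have hm0 : mt 0 = m := by simp [mt]
  have hη0' : ηt 0 = η := by simp [ηt]
  have hu0 : ∀ i, ut 0 i = u i := fun i => by simp [ut]
  have hv0 : ∀ i, vt 0 i = v i := fun i => by simp [vt]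
  have cLL : ∀ r : ℝ, 0 < r → r ≤ 1 → ContinuousAt (fun t => LL (mt t) (ηt t) r) 0 := by
    intro r hr0 hr1
    unfold LL
    apply ContinuousAt.sub
    · apply ContinuousAt.neg
      apply ContinuousAt.log
      · exact (continuous_const.sub (cmt.sub (continuous_const.mul cηt))).continuousAt
      · rw [hm0, hη0']
        have : 0 < 1 - (m - r * η) := by nlinarith
        exact this.ne'
    · apply ContinuousAt.log
      · exact (continuous_const.sub (cmt.add (continuous_const.mul cηt))).continuousAt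
      · rw [hm0, hη0']
        have : 0 < 1 - (m + r * η) := by nlinarith
        exact this.ne'
  have hA : ContinuousAt A 0 := by
    apply ContinuousAt.sub
    · exact (((hbc.comp (cmt.sub (continuous_const.mul cηt))).add
        (hbc.comp (cmt.add (continuous_const.mul cηt)))).div_const 2).continuousAt
    · apply ContinuousAt.mul
      · apply ContinuousAt.div (cLL ρ hρ hρ1) (cLL 1 one_pos le_rfl)
        rw [hm0, hη0']
        exact (LL_pos hη0 hηm hm2 one_pos le_rfl (by linarith)).ne'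
      · apply Continuous.continuousAt
        apply Continuous.sub
        · exact (((hbc.comp (cmt.sub cηt)).add (hbc.comp (cmt.add cηt))).div_const 2)
        · apply continuous_finsetSum
          intro i _
          exact continuous_const.mul (((hbc.comp (cut i)).add (hbc.comp (cvt i))).div_const 2)
  have hB : ContinuousAt Bf 0 := by
    apply Continuous.continuousAt
    apply continuous_finsetSum
    intro i _
    apply continuous_const.mul
    apply Continuous.div_const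
    apply Continuous.add
    · exact hbc.comp ((((cut i).add (cvt i)).div_const 2).sub
        (continuous_const.mul (((cvt i).sub (cut i)).div_const 2)))
    · exact hbc.comp ((((cut i).add (cvt i)).div_const 2).add
        (continuous_const.mul (((cvt i).sub (cut i)).div_const 2)))
  have hA' : Tendsto A (𝓝[>] 0) (𝓝 (A 0)) := hA.tendsto.mono_left nhdsWithin_le_nhds
  have hB' : Tendsto Bf (𝓝[>] 0) (𝓝 (Bf 0)) := hB.tendsto.mono_left nhdsWithin_le_nhds
  have hev : ∀ᶠ t in 𝓝[>] (0 : ℝ), A t ≤ Bf t := by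
    have : Ioo (0 : ℝ) 1 ∈ 𝓝[>] (0 : ℝ) := Ioo_mem_nhdsGT one_pos
    exact Filter.mem_of_superset this hle
  have hfin := le_of_tendsto_of_tendsto hA' hB' hev
  simp only [A, Bf, hm0, hη0', hu0, hv0] at hfin
  exact hfin

/-- **(L)** with a lower bound `K` on the average entropy. -/
theorem L_form' (w u v : ι → ℝ) (hw : ∀ i, 0 ≤ w i) (hw1 : ∑ i, w i = 1)
    (hu : ∀ i, u i ∈ Icc (0 : ℝ) 1) (hv : ∀ i, v i ∈ Icc (0 : ℝ) 1) {m η ρ K : ℝ}
    (hρ : 0 < ρ) (hρ1 : ρ ≤ 1) (hη0 : 0 < η) (hηm : η ≤ m) (hm2 : m ≤ 1 / 2) (hmη : m + η < 1)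
    (hm : ∑ i, w i * ((u i + v i) / 2) = m) (hη : ∑ i, w i * ((v i - u i) / 2) = η)
    (hK : K ≤ ∑ i, w i * ((binEntropy (u i) + binEntropy (v i)) / 2)) :
    (binEntropy (m - ρ * η) + binEntropy (m + ρ * η)) / 2
      - LL m η ρ / LL m η 1 * ((binEntropy (m - η) + binEntropy (m + η)) / 2 - K) ≤
    ∑ i, w i * ((binEntropy ((u i + v i) / 2 - ρ * ((v i - u i) / 2)) +
      binEntropy ((u i + v i) / 2 + ρ * ((v i - u i) / 2))) / 2) := by
  have h := L_form w u v hw hw1 hu hv hρ hρ1 hη0 hηm hm2 hmη hm hη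
  have h1 : 0 < LL m η 1 := LL_pos hη0 hηm hm2 one_pos le_rfl (by linarith)
  have h2 : 0 < LL m η ρ := LL_pos hη0 hηm hm2 hρ hρ1 (by nlinarith)
  have h3 : 0 ≤ LL m η ρ / LL m η 1 := by positivity
  have h4 := mul_le_mul_of_nonneg_left hK h3
  linarith

/-- **(S)** symmetric contact. -/
theorem S_form (w u v : ι → ℝ) (hw : ∀ i, 0 ≤ w i)
    (hu : ∀ i, u i ∈ Icc (0 : ℝ) 1) (hv : ∀ i, v i ∈ Icc (0 : ℝ) 1) {t η ρ K : ℝ}
    (hρ : 0 < ρ) (hρ1 : ρ ≤ 1) (ht0 : 0 < t) (ht1 : t < 1)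
    (hη : ∑ i, w i * ((v i - u i) / 2) = η)
    (hK : K ≤ ∑ i, w i * ((binEntropy (u i) + binEntropy (v i)) / 2)) :
    (log 4 - log (1 - ρ ^ 2 * t ^ 2)) / (log 4 - log (1 - t ^ 2)) * K
      + 2 * η / t * (binEntropy ((1 - ρ * t) / 2) -
        (log 4 - log (1 - ρ ^ 2 * t ^ 2)) / (log 4 - log (1 - t ^ 2)) * binEntropy ((1 - t) / 2)) ≤
    ∑ i, w i * ((binEntropy ((u i + v i) / 2 - ρ * ((v i - u i) / 2)) +
      binEntropy ((u i + v i) / 2 + ρ * ((v i - u i) / 2))) / 2) := by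
  have hLr : ∀ r : ℝ, 0 < r → r ≤ 1 → LL (1 / 2) (t / 2) r = log 4 - log (1 - r ^ 2 * t ^ 2) ∧
      0 < LL (1 / 2) (t / 2) r := by
    intro r hr0 hr1
    have hrt : r * t < 1 := by nlinarith
    have hrt0 : 0 < r * t := by positivity
    constructor
    · unfold LL
      have e1 : 1 - (1 / 2 - r * (t / 2)) = (1 + r * t) / 2 := by ring
      have e2 : 1 - (1 / 2 + r * (t / 2)) = (1 - r * t) / 2 := by ring
      have e3 : 1 - r ^ 2 * t ^ 2 = (1 + r * t) * (1 - r * t) := by ring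
      rw [e1, e2, e3, log_mul (by linarith) (by linarith), log_div (by linarith) (by norm_num),
        log_div (by linarith) (by norm_num)]
      have : log 4 = log 2 + log 2 := by
        rw [← log_mul (by norm_num) (by norm_num)]; norm_num
      rw [this]; ring
    · apply LL_pos (by positivity) (by linarith) le_rfl hr0 hr1
      nlinarith
  obtain ⟨hL1, hL1p⟩ := hLr 1 one_pos le_rfl
  obtain ⟨hLρ, hLρp⟩ := hLr ρ hρ hρ1
  have e1t : (1 : ℝ) ^ 2 * t ^ 2 = t ^ 2 := by ring
  rw [e1t] at hL1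
  rw [← hL1, ← hLρ]
  set c := LL (1 / 2) (t / 2) ρ / LL (1 / 2) (t / 2) 1 with hc
  have hc0 : 0 ≤ c := by positivity
  have key : ∑ i, w i * (c * Nu ((u i + v i) / 2) ((v i - u i) / 2) (1 / 2) (t / 2) 1) ≤
      ∑ i, w i * Nu ((u i + v i) / 2) ((v i - u i) / 2) (1 / 2) (t / 2) ρ := by
    apply Finset.sum_le_sum
    intro i _
    exact mul_le_mul_of_nonneg_left (pw_closed hρ hρ1 (by positivity) (by linarith) le_rfl (hu i) (hv i)) (hw i)
  have hdh : ∀ r : ℝ, dh (1 / 2 + r * (t / 2)) = - dh (1 / 2 - r * (t / 2)) := by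
    intro r
    unfold dh
    have e1 : 1 - (1 / 2 + r * (t / 2)) = 1 / 2 - r * (t / 2) := by ring
    have e2 : 1 - (1 / 2 - r * (t / 2)) = 1 / 2 + r * (t / 2) := by ring
    rw [e1, e2]; ring
  have hsum : ∀ r : ℝ, ∑ i, w i * Nu ((u i + v i) / 2) ((v i - u i) / 2) (1 / 2) (t / 2) r =
      2 * ∑ i, w i * ((binEntropy ((u i + v i) / 2 - r * ((v i - u i) / 2)) +
        binEntropy ((u i + v i) / 2 + r * ((v i - u i) / 2))) / 2)
      + 2 * r * η * dh (1 / 2 - r * (t / 2)) := by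
    intro r
    have e : ∀ i, w i * Nu ((u i + v i) / 2) ((v i - u i) / 2) (1 / 2) (t / 2) r =
      2 * (w i * ((binEntropy ((u i + v i) / 2 - r * ((v i - u i) / 2)) +
        binEntropy ((u i + v i) / 2 + r * ((v i - u i) / 2))) / 2))
      + (2 * r * dh (1 / 2 - r * (t / 2))) * (w i * ((v i - u i) / 2)) := by
      intro i; unfold Nu; rw [hdh]; ring
    rw [Finset.sum_congr rfl (fun i _ => e i), Finset.sum_add_distrib, ← Finset.mul_sum,
      ← Finset.mul_sum, hη]
    ring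
  have e1 : ∑ i, w i * (c * Nu ((u i + v i) / 2) ((v i - u i) / 2) (1 / 2) (t / 2) 1) =
      c * ∑ i, w i * Nu ((u i + v i) / 2) ((v i - u i) / 2) (1 / 2) (t / 2) 1 := by
    rw [Finset.mul_sum]
    apply Finset.sum_congr rfl
    intro i _; ring
  rw [e1, hsum, hsum] at key
  have e2 : ∑ i, w i * ((binEntropy ((u i + v i) / 2 - 1 * ((v i - u i) / 2)) +
        binEntropy ((u i + v i) / 2 + 1 * ((v i - u i) / 2))) / 2) =
      ∑ i, w i * ((binEntropy (u i) + binEntropy (v i)) / 2) := by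
    apply Finset.sum_congr rfl
    intro i _
    have a1 : (u i + v i) / 2 - 1 * ((v i - u i) / 2) = u i := by ring
    have a2 : (u i + v i) / 2 + 1 * ((v i - u i) / 2) = v i := by ring
    rw [a1, a2]
  rw [e2] at key
  -- the identity `r (t/2) dh = L/2 - kap`
  have hid : ∀ r : ℝ, r * t * dh (1 / 2 - r * (t / 2)) =
      LL (1 / 2) (t / 2) r - 2 * binEntropy ((1 - r * t) / 2) := by
    intro r
    have e3 : (1 - r * t) / 2 = 1 / 2 - r * (t / 2) := by ring
    rw [e3, binEntropy_eq']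
    unfold LL dh
    have e4 : 1 - (1 / 2 + r * (t / 2)) = 1 / 2 - r * (t / 2) := by ring
    rw [e4]
    ring
  have h1 := hid 1
  have hρ' := hid ρ
  simp only [one_mul] at h1
  set H1 := ∑ i, w i * ((binEntropy (u i) + binEntropy (v i)) / 2)
  set Hρ := ∑ i, w i * ((binEntropy ((u i + v i) / 2 - ρ * ((v i - u i) / 2)) +
      binEntropy ((u i + v i) / 2 + ρ * ((v i - u i) / 2))) / 2)
  have hcL : c * LL (1 / 2) (t / 2) 1 = LL (1 / 2) (t / 2) ρ := by rw [hc]; field_simp
  have f1 : dh (1 / 2 - t / 2) = (LL (1 / 2) (t / 2) 1 - 2 * binEntropy ((1 - t) / 2)) / t := by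
    rw [eq_div_iff ht0.ne']; linarith
  have f2 : ρ * dh (1 / 2 - ρ * (t / 2)) =
      (LL (1 / 2) (t / 2) ρ - 2 * binEntropy ((1 - ρ * t) / 2)) / t := by
    rw [eq_div_iff ht0.ne']; linarith
  have key2 : c * (2 * H1 + 2 * η * dh (1 / 2 - t / 2)) ≤ 2 * Hρ + 2 * η * (ρ * dh (1 / 2 - ρ * (t / 2))) := by
    calc c * (2 * H1 + 2 * η * dh (1 / 2 - t / 2)) = c * (2 * H1 + 2 * 1 * η * dh (1 / 2 - 1 * (t / 2))) := by
          rw [one_mul]; ring
      _ ≤ _ := key
      _ = _ := by ring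
  rw [f1, f2] at key2
  have key3 : c * (2 * H1 + 2 * η * ((LL (1 / 2) (t / 2) 1 - 2 * binEntropy ((1 - t) / 2)) / t)) =
      c * (2 * H1) + 2 * η / t * (LL (1 / 2) (t / 2) ρ - 2 * c * binEntropy ((1 - t) / 2)) := by
    rw [← hcL]; ring
  rw [key3] at key2
  have hcK := mul_le_mul_of_nonneg_left hK hc0
  have key4 : 2 * η * ((LL (1 / 2) (t / 2) ρ - 2 * binEntropy ((1 - ρ * t) / 2)) / t) =
     2 * η / t * (LL (1 / 2) (t / 2) ρ - 2 * binEntropy ((1 - ρ * t) / 2)) := by ring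
  rw [key4] at key2
  nlinarith

end P322
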