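import Vale.Agent.Lib.P322.Closed

/-!
P322 (Courtade-Kumar): the conditional theorem for one value of the crossover probability.
-/

namespace P322

open Real Set

/-- **Conditional Courtade-Kumar theorem, one value of `ε`.** -/
theorem ck_of_goodPot_at (n : ℕ)
    (f : (Fin n → ℤˣ) → ℤˣ) (ε : ℝ) (h0 : 0 ≤ ε) (h1 : ε ≤ 1 / 2)
    (hB : 0 < ε → ε < 1 / 2 → ∃ ψ : ℝ → ℝ, GoodPot (1 - 2 * ε) ψ) :
    mutualInfo (pXZ n ε) (fun ω => f ω.1) (fun ω => ω.1 * ω.2) ≤ 1 - h2 ε := by
  apply mi_le h0 (by linarith) f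
  set g : (Fin n → ℤˣ) → ℝ := fun x => if f x = 1 then (1 : ℝ) else 0 with hg
  have h2n : (0 : ℝ) < 2 ^ n := by positivity
  have hgI : ∀ x, g x ∈ Icc (0 : ℝ) 1 := by
    intro x; simp only [hg]; split_ifs <;> constructor <;> norm_num
  have hcard : ((Finset.univ : Finset (Fin n → ℤˣ)).card : ℝ) = 2 ^ n := by
    rw [Finset.card_univ, Fintype.card_fun, Fintype.card_units_int, Fintype.card_fin]
    push_cast; ring
  have hp0 : 0 ≤ (∑ x, g x) / 2 ^ n :=
    div_nonneg (Finset.sum_nonneg (fun x _ => (hgI x).1)) h2n.le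
  have hp1 : (∑ x, g x) / 2 ^ n ≤ 1 := by
    rw [div_le_one h2n, ← hcard]
    calc ∑ x, g x ≤ ∑ x : Fin n → ℤˣ, (1 : ℝ) := Finset.sum_le_sum (fun x _ => (hgI x).2)
      _ = _ := by simp
  rcases h0.eq_or_lt with h | h
  · -- ε = 0
    rw [← h]
    have a1 : binEntropy ((∑ x, g x) / 2 ^ n) ≤ log 2 := binEntropy_le_log_two
    have a2 : 0 ≤ (∑ y, binEntropy (TT 0 g y)) / 2 ^ n := by
      apply div_nonneg _ h2n.le
      apply Finset.sum_nonneg
      intro y _
      have := TT_mem le_rfl zero_le_one g hgI y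
      exact binEntropy_nonneg this.1 this.2
    simp only [binEntropy_zero]
    linarith
  · rcases h1.eq_or_lt with h' | h'
    · -- ε = 1/2
      rw [h']
      have a1 : ∀ y, TT (1 / 2) g y = (∑ x, g x) / 2 ^ n := by
        intro y
        unfold TT
        have : ∀ x : Fin n → ℤˣ, ker (1 / 2) x y = 1 / 2 ^ n := by
          intro x
          unfold ker
          have : ∀ i, (if x i = y i then 1 - (1 / 2 : ℝ) else 1 / 2) = 1 / 2 := by
            intro i; split_ifs <;> norm_num
          rw [Finset.prod_congr rfl (fun i _ => this i)]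
          simp
        rw [Finset.sum_congr rfl (fun x _ => by rw [this x]), ← Finset.mul_sum]
        ring
      have hh : binEntropy (1 / 2 : ℝ) = log 2 := by
        rw [one_div]; exact binEntropy_two_inv
      simp only [a1]
      rw [Finset.sum_const, nsmul_eq_mul, hcard, hh]
      apply le_of_eq
      field_simp
      ring
    · obtain ⟨ψ, hψ⟩ := hB h h'
      have e : (1 - (1 - 2 * ε)) / 2 = ε := by ring
      have hhalf := hψ.half
      rw [e] at hhalf
      have hmain := gmain_ind h h' hψ.symm hψ.zero hhalf hψ.closed n g (by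
        intro x; simp only [hg]; split_ifs <;> simp)
      refine le_trans ?_ hmain
      have := hψ.dom _ hp0 hp1
      rw [e] at this
      exact this

end P322
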