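import Vale.Agent.Lib.P322.Info

/-!
P322 (Courtade-Kumar): coordinate functions attain the bound.
-/

namespace P322

open Real Set

/-- exact formula for the mutual information. -/
theorem mi_eq {n : ℕ} {ε : ℝ} (h0 : 0 ≤ ε) (h1 : ε ≤ 1) (f : (Fin n → ℤˣ) → ℤˣ) :
    mutualInfo (pXZ n ε) (fun ω => f ω.1) (fun ω => ω.1 * ω.2) =
      (1 / log 2) * (binEntropy ((∑ x, (if f x = 1 then (1 : ℝ) else 0)) / 2 ^ n) -
      (∑ y, binEntropy (TT ε (fun x => if f x = 1 then (1 : ℝ) else 0) y)) / 2 ^ n) := by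
  set g : (Fin n → ℤˣ) → ℝ := fun x => if f x = 1 then (1 : ℝ) else 0 with hg
  have hg' : (fun x => if f x = -1 then (1 : ℝ) else 0) = fun x => 1 - g x := by
    funext x
    rcases Int.units_eq_one_or (f x) with h | h
    · simp [hg, h]
    · simp [hg, h]
  have hlog2 : 0 < log 2 := Real.log_pos (by norm_num)
  have h2n : (0 : ℝ) < 2 ^ n := by positivity
  have hq : ((1 : ℝ) / 2) ^ n = 1 / 2 ^ n := by rw [div_pow, one_pow]
  set T : (Fin n → ℤˣ) → ℝ := TT ε g with hT
  set p : ℝ := (∑ x, g x) / 2 ^ n with hp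
  have hgI : ∀ x, g x ∈ Icc (0 : ℝ) 1 := by
    intro x; simp only [hg]; split_ifs <;> constructor <;> norm_num
  have hTm : ∀ y, T y ∈ Icc (0 : ℝ) 1 := TT_mem h0 h1 g hgI
  have hTp : (∑ y, T y) / 2 ^ n = p := by rw [hT, sum_TT]
  -- expand the mutual information
  have hjoint : ∀ a y, prob (pXZ n ε) {ω | f ω.1 = a ∧ ω.1 * ω.2 = y} =
      (1 / 2 : ℝ) ^ n * TT ε (fun x => if f x = a then (1 : ℝ) else 0) y := fun a y =>
    prob_joint ε (fun x => f x = a) y
  have hA : ∀ a, prob (pXZ n ε) {ω | f ω.1 = a} = (1 / 2 : ℝ) ^ n * ∑ x, (if f x = a then (1 : ℝ) else 0) :=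
    fun a => prob_S ε (fun x => f x = a)
  have hMI : mutualInfo (pXZ n ε) (fun ω => f ω.1) (fun ω => ω.1 * ω.2) =
      ∑ y, ((1 / 2 : ℝ) ^ n * T y * Real.logb 2 ((1 / 2 : ℝ) ^ n * T y / (p * (1 / 2 : ℝ) ^ n))) +
      ∑ y, ((1 / 2 : ℝ) ^ n * (1 - T y) * Real.logb 2 ((1 / 2 : ℝ) ^ n * (1 - T y) / ((1 - p) * (1 / 2 : ℝ) ^ n))) := by
    unfold mutualInfo
    rw [sum_units]
    congr 1
    · apply Finset.sum_congr rfl
      intro y _
      rw [hjoint, hA, prob_Y]
      have : (1 / 2 : ℝ) ^ n * ∑ x, (if f x = 1 then (1 : ℝ) else 0) = p := by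
        rw [hp, hq]; simp only [hg]; ring
      rw [this]
    · apply Finset.sum_congr rfl
      intro y _
      rw [hjoint, hA, prob_Y]
      have : (1 / 2 : ℝ) ^ n * ∑ x, (if f x = -1 then (1 : ℝ) else 0) = 1 - p := by
        have h3 : ∑ x, (if f x = -1 then (1 : ℝ) else 0) = ∑ x, (1 - g x) := by
          apply Finset.sum_congr rfl
          intro x _
          exact congrFun hg' x
        rw [h3, Finset.sum_sub_distrib, hp, hq]
        have : ∑ x : Fin n → ℤˣ, (1 : ℝ) = 2 ^ n := by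
          rw [Finset.sum_const, nsmul_eq_mul, mul_one, Finset.card_univ, Fintype.card_fun,
            Fintype.card_units_int, Fintype.card_fin]
          push_cast; ring
        rw [this]
        field_simp
      rw [this, hg', TT_compl]
  have hterm : ∀ (t q : ℝ), (q = 0 → t = 0) → (1 / 2 : ℝ) ^ n * t * Real.logb 2 ((1 / 2 : ℝ) ^ n * t / (q * (1 / 2 : ℝ) ^ n)) =
      (1 / 2 ^ n) * ((t * log t - t * log q) / log 2) := by
    intro t q hqt
    by_cases ht : t = 0
    · rw [ht]; simp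
    · have hq0 : q ≠ 0 := fun h => ht (hqt h)
      have : (1 / 2 : ℝ) ^ n * t / (q * (1 / 2 : ℝ) ^ n) = t / q := by
        have : ((1 : ℝ) / 2) ^ n ≠ 0 := by positivity
        field_simp
      rw [this, Real.logb, Real.log_div ht hq0, hq]
      ring
  have hsumz : ∀ (F : (Fin n → ℤˣ) → ℝ), (∀ y, 0 ≤ F y) → (∑ y, F y) / 2 ^ n = 0 → ∀ y, F y = 0 := by
    intro F hF h y
    have h4 : ∑ y, F y = 0 := by
      rcases div_eq_zero_iff.mp h with h | h
      · exact h
      · exact absurd h h2n.ne'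
    exact (Finset.sum_eq_zero_iff_of_nonneg (fun i _ => hF i)).mp h4 y (Finset.mem_univ y)
  have hsum1 : (∑ y, (1 - T y)) / 2 ^ n = 1 - p := by
    rw [Finset.sum_sub_distrib, sub_div, hTp]
    have : ∑ x : Fin n → ℤˣ, (1 : ℝ) = 2 ^ n := by
      rw [Finset.sum_const, nsmul_eq_mul, mul_one, Finset.card_univ, Fintype.card_fun,
        Fintype.card_units_int, Fintype.card_fin]
      push_cast; ring
    rw [this, div_self h2n.ne']
  rw [hMI]
  rw [Finset.sum_congr rfl (fun y _ => hterm (T y) p (fun h => hsumz T (fun y => (hTm y).1) (by rw [hTp, h]) y)),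
    Finset.sum_congr rfl (fun y _ => hterm (1 - T y) (1 - p) (fun h => hsumz (fun y => 1 - T y) (fun y => by linarith [(hTm y).2]) (by rw [hsum1, h]) y)),
    ← Finset.sum_add_distrib]
  have e3 : ∀ y, (1 / 2 ^ n) * ((T y * log (T y) - T y * log p) / log 2) +
      (1 / 2 ^ n) * (((1 - T y) * log (1 - T y) - (1 - T y) * log (1 - p)) / log 2) =
      (1 / log 2) * (- (binEntropy (T y) / 2 ^ n) - (T y / 2 ^ n) * log p - ((1 - T y) / 2 ^ n) * log (1 - p)) := by
    intro y
    rw [binEntropy_eq']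
    field_simp
    ring
  rw [Finset.sum_congr rfl (fun y _ => e3 y), ← Finset.mul_sum, Finset.sum_sub_distrib,
    Finset.sum_sub_distrib, ← Finset.sum_mul, ← Finset.sum_mul, Finset.sum_neg_distrib,
    ← Finset.sum_div, ← Finset.sum_div, ← Finset.sum_div, hTp, hsum1]
  congr 1
  rw [binEntropy_eq' p]
  ring

/-- product form of sums over the cube. -/
lemma sum_prod_cube {n : ℕ} (F : Fin n → ℤˣ → ℝ) :
    ∑ x : Fin n → ℤˣ, ∏ j, F j (x j) = ∏ j, (F j 1 + F j (-1)) := by
  have h := Finset.prod_univ_sum (fun _ : Fin n => (Finset.univ : Finset ℤˣ)) F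
  rw [Fintype.piFinset_univ] at h
  rw [← h]
  apply Finset.prod_congr rfl
  intro j _
  exact sum_units (F j)

lemma TT_dict {n : ℕ} (ε : ℝ) (i : Fin n) (y : Fin n → ℤˣ) :
    TT ε (fun x => if x i = 1 then (1 : ℝ) else 0) y = if y i = 1 then 1 - ε else ε := by
  unfold TT ker
  have h1 : ∀ x : Fin n → ℤˣ, (∏ j, if x j = y j then 1 - ε else ε) * (if x i = 1 then (1 : ℝ) else 0) =
      ∏ j, ((if x j = y j then 1 - ε else ε) * (if j = i then (if x j = 1 then (1 : ℝ) else 0) else 1)) := by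
    intro x
    rw [Finset.prod_mul_distrib]
    congr 1
    rw [Finset.prod_eq_single i]
    · simp
    · intro b _ hb
      simp [hb]
    · intro h; exact absurd (Finset.mem_univ i) h
  rw [Finset.sum_congr rfl (fun x _ => h1 x)]
  rw [sum_prod_cube (fun j b => (if b = y j then 1 - ε else ε) * (if j = i then (if b = 1 then (1 : ℝ) else 0) else 1))]
  rw [Finset.prod_eq_single i]
  · have a1 : ((-1 : ℤˣ) = 1) = False := by simp
    simp only [if_true, a1, if_false, mul_zero, add_zero, mul_one]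
    by_cases h : y i = 1
    · simp [h]
    · rw [if_neg h, if_neg (fun h' => h h'.symm)]
  · intro b _ hb
    simp only [hb, if_false, mul_one]
    rcases Int.units_eq_one_or (y b) with h | h
    · have a1 : ((-1 : ℤˣ) = 1) = False := by simp
      simp only [h, if_true, a1, if_false]; ring
    · have a1 : ((1 : ℤˣ) = -1) = False := by simp
      simp only [h, if_true, a1, if_false]; ring
  · intro h; exact absurd (Finset.mem_univ i) h

/-- coordinate functions have mutual information `1 - h2 ε`. -/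
theorem mi_dict {n : ℕ} {ε : ℝ} (h0 : 0 ≤ ε) (h1 : ε ≤ 1) (i : Fin n) :
    mutualInfo (pXZ n ε) (fun ω => ω.1 i) (fun ω => ω.1 * ω.2) = 1 - h2 ε := by
  have hlog2 : 0 < log 2 := Real.log_pos (by norm_num)
  have h2n : (0 : ℝ) < 2 ^ n := by positivity
  have h := mi_eq h0 h1 (fun x : Fin n → ℤˣ => x i)
  rw [h]
  have e1 : ∀ y : Fin n → ℤˣ, binEntropy (TT ε (fun x => if x i = 1 then (1 : ℝ) else 0) y) = binEntropy ε := by
    intro y
    rw [TT_dict]
    split_ifs
    · exact binEntropy_one_sub ε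
    · rfl
  rw [Finset.sum_congr rfl (fun y _ => e1 y)]
  have hcard : ((Finset.univ : Finset (Fin n → ℤˣ)).card : ℝ) = 2 ^ n := by
    rw [Finset.card_univ, Fintype.card_fun, Fintype.card_units_int, Fintype.card_fin]
    push_cast; ring
  have e2 : (∑ x : Fin n → ℤˣ, (if x i = 1 then (1 : ℝ) else 0)) / 2 ^ n = 1 / 2 := by
    have h3 := sum_TT ε (fun x : Fin n → ℤˣ => if x i = 1 then (1 : ℝ) else 0)
    have h4 := sum_TT (1 / 2 : ℝ) (fun x : Fin n → ℤˣ => if x i = 1 then (1 : ℝ) else 0)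
    have h5 : ∀ y : Fin n → ℤˣ, TT (1 / 2 : ℝ) (fun x : Fin n → ℤˣ => if x i = 1 then (1 : ℝ) else 0) y = 1 / 2 := by
      intro y
      rw [TT_dict]
      split_ifs <;> norm_num
    rw [Finset.sum_congr rfl (fun y _ => h5 y), Finset.sum_const, nsmul_eq_mul, hcard] at h4
    rw [← h4]
    field_simp
  rw [e2, Finset.sum_const, nsmul_eq_mul, hcard, h2_eq]
  have e3 : binEntropy (1 / 2 : ℝ) = log 2 := by rw [one_div]; exact binEntropy_two_inv
  rw [e3]
  field_simp

end P322
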