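import Vale.Agent.Lib.P322.SmallC
import Vale.Agent.Lib.P322.Dictator

/-!
P322 (Courtade-Kumar): assembly.
-/

namespace P322

open Real Set

/-- assembly of the full theorem from the two ranges of `ρ` treated with the potential `psi`. -/
theorem ck_assemble (r1 : ℝ) (hA : ∀ ρ : ℝ, 0 < ρ → ρ ≤ r1 → Closed ρ (psi ρ))
    (hB : ∀ ρ : ℝ, 0 < ρ → r1 ≤ ρ → ρ ≤ 49 / 50 → Closed ρ (psi ρ)) (n : ℕ)
    (f : (Fin n → ℤˣ) → ℤˣ) (ε : ℝ) (h0 : 0 ≤ ε) (h1 : ε ≤ 1 / 2) :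
    mutualInfo (pXZ n ε) (fun ω => f ω.1) (fun ω => ω.1 * ω.2) ≤ 1 - h2 ε := by
  apply ck_of_goodPot _ n f ε h0 h1
  intro ρ hρ0 hρ1
  rcases le_total ρ r1 with h | h
  · exact ⟨psi ρ, goodPot_psi hρ0 hρ1 (hA ρ hρ0 h)⟩
  · rcases le_total ρ (49 / 50) with h' | h'
    · exact ⟨psi ρ, goodPot_psi hρ0 hρ1 (hB ρ hρ0 h h')⟩
    · exact goodPot_small' h' hρ1

end P322
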