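import Vale.Agent.Lib.P322.LeafS

/-!
P322 (Courtade-Kumar): the two ends of the `(m, e)` triangle: small `m`, and `e` near `1/2`.
-/

namespace P322.H19

open Real

lemma neg_log_ge2 {y : ℝ} (h0 : 0 ≤ y) (h1 : y < 1) : y + y ^ 2 / 2 ≤ - log (1 - y) := by
  have h := Real.hasSum_pow_div_log_of_abs_lt_one (x := y) (by rw [abs_of_nonneg h0]; exact h1)
  have h2 := sum_le_hasSum (Finset.range 2) (fun i _ => by positivity) h
  simp [Finset.sum_range_succ] at h2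
  norm_num at h2 ⊢
  linarith

lemma binEntropy_ge_small {y : ℝ} (h0 : 0 ≤ y) (h1 : y < 1) :
    - (y * log y) + y - y ^ 2 / 2 - y ^ 3 / 2 ≤ binEntropy y := by
  rw [binEntropy_eq_neg]
  have h := mul_le_mul_of_nonneg_left (neg_log_ge2 h0 h1) (by linarith : 0 ≤ 1 - y)
  nlinarith

lemma binEntropy_le_small {y : ℝ} (h1 : y < 1) : binEntropy y ≤ - (y * log y) + y := by
  rw [binEntropy_eq_neg]
  have h := Real.one_sub_inv_le_log_of_pos (by linarith : 0 < 1 - y)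
  have h2 := mul_le_mul_of_nonneg_left h (by linarith : 0 ≤ 1 - y)
  have h3 : (1 - y) * (1 - (1 - y)⁻¹) = - y := by
    have : (1 : ℝ) - y ≠ 0 := by linarith
    field_simp
    ring
  rw [h3] at h2
  linarith

lemma binEntropy_ge_one_sub {y : ℝ} (h0 : 0 ≤ y) (h1 : y < 1) :
    - (y * log y) + y * (1 - y) ≤ binEntropy y := by
  rw [binEntropy_eq_neg]
  have h := neg_log_ge2 h0 h1
  have h2 : y ≤ - log (1 - y) := by nlinarith [sq_nonneg y]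
  have h3 := mul_le_mul_of_nonneg_left h2 (by linarith : 0 ≤ 1 - y)
  nlinarith

/-- lower bound of `kk` at the edge `ξ = 1`. -/
lemma kk_edge_ge {ρ x : ℝ} (h0 : 0 ≤ ρ) (h1 : ρ < 1) (hx : 0 < x) (hx2 : x ≤ 1 / 2) :
    x * (- log x - kap ρ + 1 - x * (1 + ρ ^ 2) / 2 - 2 * x ^ 2) ≤ kk ρ x (1 * x) := by
  have ha : 0 < 1 - ρ := by linarith
  have hb : 0 < 1 + ρ := by linarith
  have h2 := binEntropy_ge_small (y := x * (1 - ρ)) (by positivity) (by nlinarith)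
  have h3 := binEntropy_ge_small (y := x * (1 + ρ)) (by positivity) (by nlinarith)
  have hk : kk ρ x (1 * x) = (binEntropy (x * (1 - ρ)) + binEntropy (x * (1 + ρ))) / 2 := by
    unfold kk
    have e1 : x - ρ * (1 * x) = x * (1 - ρ) := by ring
    have e2 : x + ρ * (1 * x) = x * (1 + ρ) := by ring
    rw [e1, e2]
  rw [hk, kap_eq]
  rw [log_mul hx.ne' ha.ne'] at h2
  rw [log_mul hx.ne' hb.ne'] at h3
  have h4 : x ^ 3 * (1 + 3 * ρ ^ 2) ≤ x ^ 3 * 4 := by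
    have : ρ ^ 2 ≤ 1 := by nlinarith
    exact mul_le_mul_of_nonneg_left (by linarith) (by positivity)
  linarith [h2, h3, h4]

lemma psi_le_small {ρ m : ℝ} (h0 : 0 ≤ ρ) (h1 : ρ ≤ 1) (hm : 0 ≤ m) (hm1 : m < 1) :
    psi ρ m ≤ m * ((1 - ρ ^ 2) * (- log m + 1) + 4 * bb ρ) := by
  rw [psi_eq_bb]
  have h := mul_le_mul_of_nonneg_left (binEntropy_le_small hm1) (by nlinarith : 0 ≤ 1 - ρ ^ 2)
  have hb := bb_nonneg h0 h1
  have h3 : bb ρ * (4 * m * (1 - m)) ≤ bb ρ * (4 * m) := by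
    apply mul_le_mul_of_nonneg_left _ hb
    nlinarith
  nlinarith

/-- small `m`. -/
theorem small_m {ρL ρH r mR : ℝ} (hL : 0 ≤ ρL) (hLH : ρL ≤ ρH) (hH : ρH < 1) (hr0 : 0 < r) (hr1 : r ≤ 1)
    (hcm : mR / r ≤ 1 / 2)
    (A2 : 8 * bb ρH * r ≤ (1 - ρH ^ 2) * (1 - r))
    (A1 : - log r + kap ρL + mR / r * (1 + ρL ^ 2) / 2 + 2 * (mR / r) ^ 2 + 4 * bb ρL ≤
      ρL ^ 2 * (- log mR + 1))
    {ρ m e : ℝ} (hρ0 : 0 < ρ) (hρL : ρL ≤ ρ) (hρH : ρ ≤ ρH) (hm : m ≤ mR) (he0 : 0 < e) (hem : e ≤ m) :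
    Good ρ m e := by
  have hm0 : 0 < m := by linarith
  have hmc0 : 0 < m / r := by positivity
  have hmcR : m / r ≤ mR / r := div_le_div_of_nonneg_right hm hr0.le
  have hmc2 : m / r ≤ 1 / 2 := hmcR.trans hcm
  have hmmc : m ≤ m / r := by rw [le_div_iff₀ hr0]; nlinarith
  have key := leafR0 (ρL := ρL) (ρH := ρH) (m1 := m) (m2 := m) (ξ2 := 1) (mc := m / r) hL hH hm0 hmmc hmc2
    le_rfl ?_ ?_ (ρ := ρ) (m := m) (ξ := e / m) hρ0 hρL hρH le_rfl le_rfl (by positivity)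
    (by rw [div_le_one hm0]; exact hem)
  · have e1 : e / m * m = e := by field_simp
    rwa [e1] at key
  · have k1 := kk_edge_ge hL (by linarith : ρL < 1) hmc0 hmc2
    have k2 := psi_le_small hL (by linarith : ρL ≤ 1) hm0.le (by linarith : m < 1)
    have e1 : m / (m / r) = r := by field_simp
    rw [e1]
    have k3 := mul_le_mul_of_nonneg_left k1 hr0.le
    refine k2.trans (le_trans ?_ k3)
    have e2 : r * (m / r * (- log (m / r) - kap ρL + 1 - m / r * (1 + ρL ^ 2) / 2 - 2 * (m / r) ^ 2)) =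
      m * (- log (m / r) - kap ρL + 1 - m / r * (1 + ρL ^ 2) / 2 - 2 * (m / r) ^ 2) := by field_simp
    rw [e2]
    apply mul_le_mul_of_nonneg_left _ hm0.le
    rw [log_div hm0.ne' hr0.ne']
    have l1 : log m ≤ log mR := log_le_log hm0 hm
    have l2 : ρL ^ 2 * (- log mR + 1) ≤ ρL ^ 2 * (- log m + 1) :=
      mul_le_mul_of_nonneg_left (by linarith) (sq_nonneg _)
    have l3 : m / r * (1 + ρL ^ 2) / 2 ≤ mR / r * (1 + ρL ^ 2) / 2 := by
      have := mul_le_mul_of_nonneg_right hmcR (by positivity : 0 ≤ 1 + ρL ^ 2)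
      linarith
    have l4 : (m / r) ^ 2 ≤ (mR / r) ^ 2 := pow_le_pow_left₀ hmc0.le hmcR 2
    linarith
  · have h1 : 0 < 1 - m := by linarith
    have h2 : 0 < 1 - m / r := by linarith
    have e1 : m / r / (1 - m / r) - m / (1 - m) = (m / r - m) / ((1 - m / r) * (1 - m)) := by
      rw [div_sub_div _ _ h2.ne' h1.ne']
      congr 1; ring
    have e2 : m / r - m ≤ (m / r - m) / ((1 - m / r) * (1 - m)) := by
      rw [le_div_iff₀ (by positivity)]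
      have : (1 - m / r) * (1 - m) ≤ 1 := by nlinarith
      nlinarith
    rw [e1]
    have s0 : 0 ≤ 1 - ρH ^ 2 := by nlinarith
    refine le_trans ?_ (mul_le_mul_of_nonneg_left e2 (by linarith : 0 ≤ (1 - ρH ^ 2) / 2))
    have e3 : (1 - ρH ^ 2) / 2 * (m / r - m) = (1 - ρH ^ 2) * (1 - r) * (m / (2 * r)) := by
      field_simp
    have e4 : 4 * m * bb ρH = 8 * bb ρH * r * (m / (2 * r)) := by field_simp; ring
    rw [e3, e4]
    exact mul_le_mul_of_nonneg_right A2 (by positivity)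

/-- convexity of `kap` along a segment ending at `ρ`. -/
lemma kap_seg {ρ w0 t : ℝ} (h0 : 0 ≤ ρ) (h1 : ρ ≤ 1) (hw0 : 0 ≤ w0) (hw1 : w0 ≤ 1) (ht0 : 0 ≤ t)
    (ht1 : t ≤ 1) : kap (ρ * (1 - t * (1 - w0))) ≤ kap ρ - t * (kap ρ - kap (ρ * w0)) := by
  have hc := strictConcave_binEntropy.concaveOn
  have hx : (1 - ρ) / 2 ∈ Set.Icc (0 : ℝ) 1 := ⟨by linarith, by linarith⟩
  have hρw : ρ * w0 ≤ 1 := by nlinarith
  have hρw0 : 0 ≤ ρ * w0 := by positivity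
  have hy : (1 - ρ * w0) / 2 ∈ Set.Icc (0 : ℝ) 1 := ⟨by linarith, by linarith⟩
  have h := hc.2 hx hy (by linarith : 0 ≤ 1 - t) ht0 (by ring)
  simp only [smul_eq_mul] at h
  have e : (1 - t) * ((1 - ρ) / 2) + t * ((1 - ρ * w0) / 2) = (1 - ρ * (1 - t * (1 - w0))) / 2 := by ring
  rw [e] at h
  unfold kap
  linarith

lemma psi_subadd {ρ u v : ℝ} (h0 : 0 ≤ ρ) (h1 : ρ ≤ 1) (hu : 0 ≤ u) (hv : 0 < v) (huv : u + v ≤ 1) :
    psi ρ (u + v) ≤ psi ρ u + psi ρ v := by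
  have a := psi_div_antitone h0 h1 hv (by linarith : v ≤ u + v) huv
  rcases hu.eq_or_lt with h | h
  · rw [← h]
    have : psi ρ 0 = 0 := by rw [psi_eq_bb]; simp
    rw [this]; simp
  · have b := psi_div_antitone h0 h1 h (by linarith : u ≤ u + v) huv
    rw [div_le_div_iff₀ (by linarith) (by linarith)] at a b
    have : psi ρ (u + v) * (u + v) ≤ (psi ρ u + psi ρ v) * (u + v) := by nlinarith
    exact le_of_mul_le_mul_right this (by linarith)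

lemma psi_one_sub (ρ p : ℝ) : psi ρ (1 - p) = psi ρ p := by
  rw [psi_eq_bb, psi_eq_bb, binEntropy_one_sub]; ring

lemma psi_half2 (ρ : ℝ) : psi ρ (1 / 2) = log 2 - kap ρ := by
  rw [psi_eq_bb]
  have : binEntropy (1 / 2) = log 2 := by
    rw [one_div]; exact binEntropy_two_inv
  rw [this]; unfold bb; ring

lemma psi_one_eq (p : ℝ) : psi 0 p = binEntropy p := by
  rw [psi_eq_bb]; unfold bb; rw [kap_zero]; ring

/-- the gap in the corner. -/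
lemma GapJ_corner_le {ρ m e : ℝ} (h0 : 0 ≤ ρ) (h1 : ρ ≤ 1) (he0 : 0 ≤ e) (hem : e ≤ m) (hm : m ≤ 1 / 2)
    (hme : m + e < 1) : GapJ ρ m e ≤ log 2 - kap ρ - psi ρ (1 - 2 * e) / 2 := by
  unfold GapJ
  have k1 := psi_mono h0 h1 (by linarith : 0 ≤ m) hm le_rfl
  rw [psi_half2] at k1
  have k2 := psi_subadd h0 h1 (by linarith : 0 ≤ m - e) (by linarith : 0 < 1 - (m + e)) (by linarith)
  rw [psi_one_sub] at k2
  have e1 : m - e + (1 - (m + e)) = 1 - 2 * e := by ring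
  rw [e1] at k2
  linarith

/-- monotone comparison used in the corner: `x ↦ x (coef) ` with `L = -log ε`. -/
lemma corner_aux {S B H D ε0 θ ε : ℝ} (hS0 : 0 ≤ S) (hB : 0 ≤ B) (hD : 0 ≤ D) (hε0 : 0 < ε)
    (hεε : ε ≤ ε0) (hε1 : ε0 < 1) (hθ0 : 0 < θ)
    (hθ : θ ≤ S / 2 * (1 - 2 * θ * ε0))
    (A : (1 - 2 * θ) * H * ε0 + θ * (- log ε0 - log θ + 1) * ε0 ≤ (1 - ε0) * D +
      (1 - 2 * θ * ε0) * (S / 2 * (- log ε0) + (S / 2 + 2 * B) * (1 - ε0)) * ε0)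
    {h1 h2 : ℝ} (hh1 : h1 ≤ - (θ * ε * log (θ * ε)) + θ * ε) (hh10 : 0 ≤ h1)
    (hh2 : S * (- (ε * log ε) + ε * (1 - ε)) + B * (4 * ε * (1 - ε)) ≤ h2) :
    (1 - 2 * θ * ε) * (H - h2 / 2) ≤ (1 - ε) * (H + ε / ε0 * D - h1) := by
  have hε00 : 0 < ε0 := by linarith
  have hl : - log ε0 ≤ - log ε := by
    have := log_le_log hε0 hεε
    linarith
  have hlog : log (θ * ε) = log θ + log ε := log_mul hθ0.ne' hε0.ne'
  rw [hlog] at hh1
  set L := - log ε with hL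
  set L0 := - log ε0 with hL0
  have hlε : log ε = - L := by rw [hL]; ring
  rw [hlε] at hh1 hh2
  have hθε : 2 * θ * ε ≤ 2 * θ * ε0 := by
    have := mul_le_mul_of_nonneg_left hεε hθ0.le
    linarith
  have hθε1 : 2 * θ * ε0 < 1 := by nlinarith
  have hLL0 : 0 ≤ L0 := by
    have := log_nonpos hε00.le hε1.le
    rw [hL0]; linarith
  -- divide A by ε0
  have A' : (1 - 2 * θ) * H + θ * (L0 - log θ + 1) ≤ (1 - ε0) * (D / ε0) +
      (1 - 2 * θ * ε0) * (S / 2 * L0 + (S / 2 + 2 * B) * (1 - ε0)) := by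
    have e1 : (1 - ε0) * (D / ε0) = (1 - ε0) * D / ε0 := by ring
    rw [e1, ← sub_le_iff_le_add, le_div_iff₀ hε00]
    linarith
  have hw : 0 ≤ 1 - 2 * θ * ε0 := by linarith
  have hw' : 0 ≤ 1 - 2 * θ * ε := by linarith
  -- lower bound of the bracket
  have b1 : (1 - 2 * θ * ε0) * (S / 2 * L + (S / 2 + 2 * B) * (1 - ε0)) ≤
      (1 - 2 * θ * ε) * (S / 2 * L + (S / 2 + 2 * B) * (1 - ε)) := by
    apply mul_le_mul
    · linarith
    · have : (S / 2 + 2 * B) * (1 - ε0) ≤ (S / 2 + 2 * B) * (1 - ε) :=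
        mul_le_mul_of_nonneg_left (by linarith) (by linarith)
      linarith
    · have : 0 ≤ L := by linarith
      have : 0 ≤ 1 - ε0 := by linarith
      positivity
    · exact hw'
  have b2 : θ * (L - log θ + 1) - θ * (L0 - log θ + 1) ≤
      (1 - 2 * θ * ε0) * (S / 2 * L + (S / 2 + 2 * B) * (1 - ε0)) -
      (1 - 2 * θ * ε0) * (S / 2 * L0 + (S / 2 + 2 * B) * (1 - ε0)) := by
    have := mul_le_mul_of_nonneg_right hθ (by linarith : 0 ≤ L - L0)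
    linarith
  have b3 : (1 - ε0) * (D / ε0) ≤ (1 - ε) * (D / ε0) :=
    mul_le_mul_of_nonneg_right (by linarith) (by positivity)
  have b4 : (1 - 2 * θ) * H + θ * (L - log θ + 1) ≤ (1 - ε) * (D / ε0) +
      (1 - 2 * θ * ε) * (S / 2 * L + (S / 2 + 2 * B) * (1 - ε)) := by linarith
  have b5 := mul_le_mul_of_nonneg_left b4 hε0.le
  have c1 : (1 - ε) * h1 ≤ - (θ * ε * (log θ + -L)) + θ * ε := by
    have := mul_nonneg hε0.le hh10
    linarith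
  have c2 : (1 - 2 * θ * ε) * ((S * (- (ε * -L) + ε * (1 - ε)) + B * (4 * ε * (1 - ε))) / 2) ≤
      (1 - 2 * θ * ε) * (h2 / 2) := mul_le_mul_of_nonneg_left (by linarith) hw'
  have e2 : ε / ε0 * D = ε * (D / ε0) := by ring
  rw [e2]
  linarith [b5, c1, c2]

lemma kap_seg' {t θ ε ε0 : ℝ} (ht0 : 0 ≤ t) (ht1 : t ≤ 1) (hθ0 : 0 < θ) (hε0 : 0 < ε) (hεε : ε ≤ ε0)
    (hθε1 : 2 * θ * ε0 < 1) :
    kap (t * (1 - 2 * θ * ε)) ≤ kap t - ε / ε0 * (kap t - kap (t * (1 - 2 * θ * ε0))) := by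
  have hε00 : 0 < ε0 := by linarith
  have h2 : 0 < 2 * θ * ε0 := by positivity
  have := kap_seg (w0 := 1 - 2 * θ * ε0) (t := ε / ε0) ht0 ht1 (by linarith) (by linarith) (by positivity)
    (by rw [div_le_one hε00]; exact hεε)
  have e1 : 1 - ε / ε0 * (1 - (1 - 2 * θ * ε0)) = 1 - 2 * θ * ε := by field_simp; ring
  rwa [e1] at this

lemma kap_scale_le {t w : ℝ} (ht0 : 0 ≤ t) (ht1 : t ≤ 1) (hw0 : 0 ≤ w) (hw1 : w ≤ 1) :
    kap (t * w) ≤ kap t := by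
  apply kap_mono (mul_nonneg ht0 hw0) _ ht1
  nlinarith

lemma corner_A1 {ρ ε ε0 θ m e : ℝ} (h0 : 0 ≤ ρ) (h1 : ρ < 1) (hε1 : ε0 < 1) (hθ0 : 0 < θ)
    (hθε1 : 2 * θ * ε0 < 1) (hε0 : 0 < ε) (hεε : ε ≤ ε0) (hee : 2 * e = 1 - ε) (hm0 : 0 < m) (hm : m ≤ 1 / 2)
    (A1 : (1 - 2 * θ) * (log 2 - kap ρ) * ε0 ≤ (1 - ε0) * (kap ρ - kap (ρ * (1 - 2 * θ * ε0)))) :
    psi ρ m ≤ 2 * e / (1 - 2 * θ * ε) * binEntropy ((1 - ρ * (1 - 2 * θ * ε)) / 2) := by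
  have hε00 : 0 < ε0 := by linarith
  have hθε : 2 * θ * ε ≤ 2 * θ * ε0 := by
    have := mul_le_mul_of_nonneg_left hεε hθ0.le
    linarith
  have hw0 : 0 < 1 - 2 * θ * ε := by linarith
  have k1 := psi_mono h0 h1.le hm0.le hm le_rfl
  rw [psi_half2] at k1
  refine k1.trans ?_
  have e1 : binEntropy ((1 - ρ * (1 - 2 * θ * ε)) / 2) = log 2 - kap (ρ * (1 - 2 * θ * ε)) := by
    unfold kap; ring
  rw [e1, div_mul_eq_mul_div, le_div_iff₀ hw0, hee]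
  have k2 := kap_seg' h0 h1.le hθ0 hε0 hεε hθε1
  have h2 : 0 < 2 * θ * ε0 := by positivity
  have k3 : kap (ρ * (1 - 2 * θ * ε0)) ≤ kap ρ := kap_scale_le h0 h1.le (by linarith) (by linarith)
  obtain ⟨D, hD⟩ : ∃ D, D = kap ρ - kap (ρ * (1 - 2 * θ * ε0)) := ⟨_, rfl⟩
  obtain ⟨H, hH⟩ : ∃ H, H = log 2 - kap ρ := ⟨_, rfl⟩
  obtain ⟨K, hK⟩ : ∃ K, K = kap (ρ * (1 - 2 * θ * ε)) := ⟨_, rfl⟩
  rw [← hD, ← hK] at k2
  rw [← hD, ← hH] at A1
  rw [← hH, ← hK]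
  have hD0 : 0 ≤ D := by linarith
  have k4 : (1 - 2 * θ) * H ≤ (1 - ε) * (D / ε0) := by
    have a : (1 - 2 * θ) * H ≤ (1 - ε0) * D / ε0 := by rw [le_div_iff₀ hε00]; exact A1
    have b : (1 - ε0) * D / ε0 ≤ (1 - ε) * D / ε0 := by
      apply div_le_div_of_nonneg_right _ hε00.le
      exact mul_le_mul_of_nonneg_right (by linarith) hD0
    have c : (1 - ε) * D / ε0 = (1 - ε) * (D / ε0) := by ring
    linarith
  have k5 := mul_le_mul_of_nonneg_left k4 hε0.le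
  have e2 : ε / ε0 * D = ε * (D / ε0) := by ring
  rw [e2] at k2
  have k6 : H + ε * (D / ε0) ≤ log 2 - K := by linarith
  have k7 := mul_le_mul_of_nonneg_left k6 (by linarith : 0 ≤ 1 - ε)
  linarith [k5, k7]

lemma corner_J {ε ε0 θ m e : ℝ} (hε1 : ε0 < 1) (hθ0 : 0 < θ) (hθ : θ ≤ 1 / 2 * (1 - 2 * θ * ε0))
    (hε0 : 0 < ε) (hεε : ε ≤ ε0) (hee : 1 - 2 * e = ε) (hem : e ≤ m) (hm : m ≤ 1 / 2)
    (hme : m + e < 1)
    (A3 : (1 - 2 * θ) * log 2 * ε0 + θ * (- log ε0 - log θ + 1) * ε0 ≤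
      (1 - 2 * θ * ε0) * (1 / 2 * (- log ε0) + 1 / 2 * (1 - ε0)) * ε0) :
    J1 m e ≤ 2 * e / (1 - 2 * θ * ε) * kap (1 - 2 * θ * ε) := by
  have hε00 : 0 < ε0 := by linarith
  have hθ1 : θ ≤ 1 / 2 := by
    have : 0 < θ * ε0 := by positivity
    linarith
  have hθε : 2 * θ * ε ≤ 2 * θ * ε0 := by
    have := mul_le_mul_of_nonneg_left hεε hθ0.le
    linarith
  have hw0 : 0 < 1 - 2 * θ * ε := by linarith
  have hkε : kap (1 - 2 * θ * ε) = log 2 - binEntropy (θ * ε) := by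
    unfold kap
    have : (1 - (1 - 2 * θ * ε)) / 2 = θ * ε := by ring
    rw [this]
  have hθε0 : 0 < θ * ε := by positivity
  have hθεu : θ * ε < 1 := by linarith
  have hh1 := binEntropy_le_small hθεu
  have hh10 := binEntropy_nonneg hθε0.le hθεu.le
  have hent := binEntropy_ge_one_sub hε0.le (by linarith : ε < 1)
  rw [div_mul_eq_mul_div, le_div_iff₀ hw0, hkε]
  have he0 : 0 ≤ e := by linarith
  have g := GapJ_corner_le (ρ := 0) le_rfl zero_le_one he0 hem hm hme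
  have g2 : GapJ 0 m e = J1 m e := by
    rw [GapJ_eq]; unfold bb; rw [kap_zero]; ring
  rw [g2, kap_zero, psi_one_eq, hee] at g
  have e3 : 2 * e = 1 - ε := by linarith
  rw [e3]
  have c := corner_aux (S := 1) (B := 0) (H := log 2) (D := 0) (ε0 := ε0) (θ := θ) (ε := ε)
    zero_le_one le_rfl le_rfl hε0 hεε hε1 hθ0 hθ (by linarith) hh1 hh10
    (h2 := binEntropy ε) (by linarith)
  have g' := mul_le_mul_of_nonneg_right g hw0.le
  refine g'.trans ?_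
  have e4 : (log 2 - 0 - binEntropy ε / 2) * (1 - 2 * θ * ε) = (1 - 2 * θ * ε) * (log 2 - binEntropy ε / 2) := by
    ring
  have e5 : (1 - ε) * (log 2 + ε / ε0 * 0 - binEntropy (θ * ε)) = (1 - ε) * (log 2 - binEntropy (θ * ε)) := by
    ring
  rw [e4, ← e5]
  exact c

lemma corner_A2 {ρ ε ε0 θ m e : ℝ} (h0 : 0 ≤ ρ) (h1 : ρ < 1) (hε1 : ε0 < 1) (hθ0 : 0 < θ)
    (hθ : θ ≤ (1 - ρ ^ 2) / 2 * (1 - 2 * θ * ε0)) (hθε1 : 2 * θ * ε0 < 1)
    (hε0 : 0 < ε) (hεε : ε ≤ ε0) (hee : 1 - 2 * e = ε) (hem : e ≤ m) (hm : m ≤ 1 / 2)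
    (hme : m + e < 1)
    (A2 : (1 - 2 * θ) * (log 2 - kap ρ) * ε0 + θ * (- log ε0 - log θ + 1) * ε0 ≤
      (1 - ε0) * (kap ρ - kap (ρ * (1 - 2 * θ * ε0))) +
      (1 - 2 * θ * ε0) * ((1 - ρ ^ 2) / 2 * (- log ε0) + ((1 - ρ ^ 2) / 2 + 2 * bb ρ) * (1 - ε0)) * ε0) :
    GapJ ρ m e ≤ 2 * e / (1 - 2 * θ * ε) *
      (binEntropy ((1 - ρ * (1 - 2 * θ * ε)) / 2) - binEntropy ((1 - (1 - 2 * θ * ε)) / 2)) := by
  have hε00 : 0 < ε0 := by linarith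
  have s0 : 0 ≤ 1 - ρ ^ 2 := by nlinarith
  have hθε : 2 * θ * ε ≤ 2 * θ * ε0 := by
    have := mul_le_mul_of_nonneg_left hεε hθ0.le
    linarith
  have hw0 : 0 < 1 - 2 * θ * ε := by linarith
  have hkε : kap (1 - 2 * θ * ε) = log 2 - binEntropy (θ * ε) := by
    unfold kap
    have : (1 - (1 - 2 * θ * ε)) / 2 = θ * ε := by ring
    rw [this]
  have hθε0 : 0 < θ * ε := by positivity
  have hθεu : θ * ε < 1 := by linarith
  have hh1 := binEntropy_le_small hθεu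
  have hh10 := binEntropy_nonneg hθε0.le hθεu.le
  have hent := binEntropy_ge_one_sub hε0.le (by linarith : ε < 1)
  have h2 : 0 < 2 * θ * ε0 := by positivity
  have e1 : binEntropy ((1 - ρ * (1 - 2 * θ * ε)) / 2) - binEntropy ((1 - (1 - 2 * θ * ε)) / 2) =
    kap (1 - 2 * θ * ε) - kap (ρ * (1 - 2 * θ * ε)) := by unfold kap; ring
  rw [e1, div_mul_eq_mul_div, le_div_iff₀ hw0]
  have he0 : 0 ≤ e := by linarith
  have g := GapJ_corner_le h0 h1.le he0 hem hm hme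
  rw [hee] at g
  have k2 := kap_seg' h0 h1.le hθ0 hε0 hεε hθε1
  have k3 : kap (ρ * (1 - 2 * θ * ε0)) ≤ kap ρ := kap_scale_le h0 h1.le (by linarith) (by linarith)
  have e3 : 2 * e = 1 - ε := by linarith
  rw [e3]
  have c := corner_aux (S := 1 - ρ ^ 2) (B := bb ρ) (H := log 2 - kap ρ)
    (D := kap ρ - kap (ρ * (1 - 2 * θ * ε0))) (ε0 := ε0) (θ := θ) (ε := ε)
    s0 (bb_nonneg h0 h1.le) (by linarith) hε0 hεε hε1 hθ0 hθ A2 hh1 hh10
    (h2 := psi ρ ε) (by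
      rw [psi_eq_bb]
      have := mul_le_mul_of_nonneg_left hent s0
      linarith)
  have g' := mul_le_mul_of_nonneg_right g hw0.le
  have k4 : log 2 - kap ρ + ε / ε0 * (kap ρ - kap (ρ * (1 - 2 * θ * ε0))) - binEntropy (θ * ε) ≤
    kap (1 - 2 * θ * ε) - kap (ρ * (1 - 2 * θ * ε)) := by rw [hkε]; linarith
  have k5 := mul_le_mul_of_nonneg_left k4 (by linarith : 0 ≤ 1 - ε)
  refine g'.trans (le_trans (le_of_eq ?_) (c.trans k5))
  ring

/-- the corner `e` near `1/2`. -/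
theorem corner {ρL ρH ε0 θ : ℝ} (hL : 0 ≤ ρL) (hLH : ρL ≤ ρH) (hH : ρH < 1) (hε1 : ε0 < 1)
    (hθ0 : 0 < θ) (hθ : θ ≤ (1 - ρH ^ 2) / 2 * (1 - 2 * θ * ε0))
    (A1 : (1 - 2 * θ) * (log 2 - kap ρL) * ε0 ≤ (1 - ε0) * (kap ρL - kap (ρL * (1 - 2 * θ * ε0))))
    (A2 : (1 - 2 * θ) * (log 2 - kap ρH) * ε0 + θ * (- log ε0 - log θ + 1) * ε0 ≤
      (1 - ε0) * (kap ρH - kap (ρH * (1 - 2 * θ * ε0))) +
      (1 - 2 * θ * ε0) * ((1 - ρH ^ 2) / 2 * (- log ε0) + ((1 - ρH ^ 2) / 2 + 2 * bb ρH) * (1 - ε0)) * ε0)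
    (A3 : (1 - 2 * θ) * log 2 * ε0 + θ * (- log ε0 - log θ + 1) * ε0 ≤
      (1 - 2 * θ * ε0) * (1 / 2 * (- log ε0) + 1 / 2 * (1 - ε0)) * ε0)
    {ρ m e : ℝ} (hρ0 : 0 < ρ) (hρL : ρL ≤ ρ) (hρH : ρ ≤ ρH) (hem : e ≤ m) (hm : m ≤ 1 / 2)
    (hme : m + e < 1) (he : (1 - ε0) / 2 ≤ e) : Good ρ m e := by
  obtain ⟨ε, hε⟩ : ∃ ε, ε = 1 - 2 * e := ⟨_, rfl⟩
  have hε0 : 0 < ε := by
    rw [hε]
    rcases (hem.trans hm).lt_or_eq with h | h
    · linarith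
    · exfalso
      have : m = 1 / 2 := le_antisymm hm (by linarith)
      linarith
  have hεε : ε ≤ ε0 := by rw [hε]; linarith
  have he0 : 0 < e := by linarith
  have hm0 : 0 < m := by linarith
  have hε00 : 0 < ε0 := by linarith
  have hρH0 : 0 ≤ ρH := by linarith
  have s0 : 0 < 1 - ρH ^ 2 := by nlinarith
  have hpos : 0 < 2 * θ * ε0 := by positivity
  have hw00 : 0 < 1 - 2 * θ * ε0 := by
    by_contra hcon
    push Not at hcon
    have : (1 - ρH ^ 2) / 2 * (1 - 2 * θ * ε0) ≤ 0 := mul_nonpos_of_nonneg_of_nonpos (by linarith) hcon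
    linarith
  have hθ2 : θ ≤ 1 / 2 * (1 - 2 * θ * ε0) := by
    refine hθ.trans (mul_le_mul_of_nonneg_right ?_ hw00.le)
    have := sq_nonneg ρH
    linarith
  have hθε1 : 2 * θ * ε0 < 1 := by linarith
  have hθε : 2 * θ * ε ≤ 2 * θ * ε0 := by
    have := mul_le_mul_of_nonneg_left hεε hθ0.le
    linarith
  have hw0 : 0 < 1 - 2 * θ * ε := by linarith
  have hw1 : 1 - 2 * θ * ε < 1 := by
    have : 0 < 2 * θ * ε := by positivity
    linarith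
  apply good_of_S hρ0 (by linarith) hw0 hw1
  · apply A1S_mono hL hρL (by linarith) he0.le hem hm hw0 hw1.le
    exact corner_A1 hL (by linarith) hε1 hθ0 hθε1 hε0 hεε (by linarith) hm0 hm A1
  · apply A2S_down hρ0.le hρH hH he0 hw0 hw1.le
    · exact corner_J hε1 hθ0 hθ2 hε0 hεε hε.symm hem hm hme A3
    · exact corner_A2 hρH0 hH hε1 hθ0 hθ hθε1 hε0 hεε hε.symm hem hm hme A2

end P322.H19
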