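import Vale.Agent.Lib.P322.Tree
import Vale.Agent.Lib.P322.Ends

/-!
P322 (Courtade-Kumar): kd-tree certificates, soundness.
-/

namespace P322.H19

open Real

/-- certificates; coordinates in units `2^-16`. -/
inductive T where
  | m (k : ℕ) (lo hi : T)
  | e (k : ℕ) (lo hi : T)
  | R (k : ℕ)
  | N (k : ℕ)
  | S (k : ℕ)
  | X

def nmin (a b : ℕ) : ℕ := bif Nat.ble a b then a else b
def nmax (a b : ℕ) : ℕ := bif Nat.ble a b then b else a

lemma nmin_eq (a b : ℕ) : nmin a b = min a b := by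
  unfold nmin
  by_cases h : Nat.ble a b = true
  · rw [h, cond_true]; exact (min_eq_left (Nat.le_of_ble_eq_true h)).symm
  · rw [Bool.eq_false_iff.mpr h, cond_false]
    have : ¬ a ≤ b := fun h' => h (Nat.ble_eq_true_of_le h')
    exact (min_eq_right (by omega)).symm

lemma nmax_eq (a b : ℕ) : nmax a b = max a b := by
  unfold nmax
  by_cases h : Nat.ble a b = true
  · rw [h, cond_true]; exact (max_eq_right (Nat.le_of_ble_eq_true h)).symm
  · rw [Bool.eq_false_iff.mpr h, cond_false]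
    have : ¬ a ≤ b := fun h' => h (Nat.ble_eq_true_of_le h')
    exact (max_eq_left (by omega)).symm

def leafRok (c : Cst) (m1 m2 e1 e2 k : ℕ) : Bool :=
  Nat.ble (nat_lit 1) m1 && (Nat.ble m2 k && (Nat.ble k (nat_lit 549755813888) &&
  (okRa c m1 (bif Nat.ble m1 e2 then (nat_lit 1099511627776) else dHi e2 m1) k &&
  (bif Nat.ble (nat_lit 1) e1 then (Nat.ble e1 m2 && okRb c m2 e1 k) else okRc c m2 k))))

def leafNok (c : Cst) (m1 m2 e1 e2 k : ℕ) : Bool :=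
  Nat.ble (nat_lit 1) m1 && (Nat.ble m2 (nat_lit 549755813888) && (Nat.ble (nat_lit 1099511627776) k &&
  (Nat.blt (Nat.mul e2 k) (Nat.mul m1 (nat_lit 1099511627776)) && (okNa c m1 e2 k &&
  (bif Nat.ble (nat_lit 1) e1 then (Nat.ble e1 m2 && okNb c m2 e1 k) else okNc c m2 k)))))

def leafSok (c : Cst) (m1 m2 e1 e2 k : ℕ) : Bool :=
  Nat.ble (nat_lit 1) e1 && (Nat.ble m2 (nat_lit 549755813888) && (Nat.ble (nat_lit 1) k &&
  (Nat.blt k (nat_lit 1099511627776) && (Nat.ble (nmax m1 e2) (nat_lit 549755813888) &&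
  okS3 c m2 (nmax m1 e2) e1 e2 k))))

def T.ok (c : Cst) : T → ℕ → ℕ → ℕ → ℕ → Bool
  | .m k lo hi, m1, m2, e1, e2 => lo.ok c m1 (Nat.mul k (nat_lit 16777216)) e1 e2 &&
      hi.ok c (Nat.mul k (nat_lit 16777216)) m2 e1 e2
  | .e k lo hi, m1, m2, e1, e2 => lo.ok c m1 m2 e1 (Nat.mul k (nat_lit 16777216)) &&
      hi.ok c m1 m2 (Nat.mul k (nat_lit 16777216)) e2
  | .R k, m1, m2, e1, e2 => leafRok c (nmax m1 e1) m2 e1 (nmin e2 m2) (Nat.mul k (nat_lit 16777216))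
  | .N k, m1, m2, e1, e2 => leafNok c (nmax m1 e1) m2 e1 (nmin e2 m2) (Nat.mul k (nat_lit 16777216))
  | .S k, m1, m2, e1, e2 => leafSok c (nmax m1 e1) m2 e1 (nmin e2 m2) (Nat.mul k (nat_lit 16777216))
  | .X, _, m2, e1, _ => Nat.ble m2 e1 && Nat.blt m2 (nat_lit 549755813888)

lemma le_of_rv_le {a b : ℕ} (h : rv a ≤ rv b) : a ≤ b := by
  by_contra hcon
  push Not at hcon
  have := rv_lt hcon
  linarith

section leaves

variable {c : Cst} {m1 m2 e1 e2 k : ℕ} {ρ m e : ℝ}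

theorem leafRok_sound (hc : CstOk c) (h : leafRok c m1 m2 e1 e2 k = true) (hρ0 : 0 < ρ)
    (hρL : rv c.rL ≤ ρ) (hρH : ρ ≤ rv c.rH) (hm1 : rv m1 ≤ m) (hm2 : m ≤ rv m2) (he1 : rv e1 ≤ e)
    (he2 : e ≤ rv e2) (he0 : 0 < e) (hem : e ≤ m) : Good ρ m e := by
  unfold leafRok at h
  simp only [Bool.and_eq_true] at h
  obtain ⟨h1, h2, h3, h4, h5⟩ := h
  have k1 : 1 ≤ m1 := Nat.le_of_ble_eq_true h1
  have k2 : m2 ≤ k := Nat.le_of_ble_eq_true h2
  have k3 : k ≤ 549755813888 := Nat.le_of_ble_eq_true h3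
  have hm12 : m1 ≤ m2 := le_of_rv_le (hm1.trans hm2)
  have hH1 : rv c.rH < 1 := rv_lt_one hc.h2
  have hL0 := rv_nonneg c.rL
  have hm10 := rv_pos k1
  have hm0 : 0 < m := lt_of_lt_of_le hm10 hm1
  have hk12 := rv_le_half k3
  have hmk := rv_le k2
  have hm20 : 0 < rv m2 := lt_of_lt_of_le hm0 hm2
  -- `ξ2`
  have hx : ∃ x2 : ℕ, ∃ ξ2 : ℝ, x2 = (bif Nat.ble m1 e2 then 1099511627776 else dHi e2 m1) ∧
      Ub x2 ξ2 ∧ 0 ≤ ξ2 ∧ ξ2 ≤ 1 ∧ e / m ≤ ξ2 := by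
    by_cases hb : Nat.ble m1 e2 = true
    · refine ⟨_, 1, rfl, ?_, zero_le_one, le_rfl, ?_⟩
      · rw [hb, cond_true]; unfold Ub; norm_num
      · rw [div_le_one hm0]; exact hem
    · have hlt : e2 < m1 := by
        by_contra hcon
        push Not at hcon
        exact hb (Nat.ble_eq_true_of_le hcon)
      refine ⟨_, rv e2 / rv m1, rfl, ?_, div_nonneg (rv_nonneg _) (rv_nonneg _), ?_, ?_⟩
      · rw [Bool.eq_false_iff.mpr hb, cond_false]
        exact (ub_rv e2).div (lb_rv m1) (rv_nonneg _) k1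
      · rw [div_le_one hm10]; exact (rv_lt hlt).le
      · rw [div_le_div_iff₀ hm0 hm10]
        exact mul_le_mul he2 hm1 hm10.le (rv_nonneg _)
  obtain ⟨x2, ξ2, hx2, hub, hξ0, hξ1, hξ⟩ := hx
  have A1 := okRa_sound hc (ξ2 := ξ2) (m1 := m1) (x2 := x2) (k := k) (by omega) (by omega) k3 hξ0 hξ1 hub
    (by rw [hx2]; exact h4)
  have e0 : e / m * m = e := by field_simp
  by_cases hb : Nat.ble 1 e1 = true
  · have h5' : (Nat.ble e1 m2 && okRb c m2 e1 k) = true := by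
      have : (bif Nat.ble 1 e1 then (Nat.ble e1 m2 && okRb c m2 e1 k) else okRc c m2 k) = true := h5
      rwa [hb, cond_true] at this
    rw [Bool.and_eq_true] at h5'
    have k5 : e1 ≤ m2 := Nat.le_of_ble_eq_true h5'.1
    have k6 : 1 ≤ e1 := Nat.le_of_ble_eq_true hb
    have A2 := okRb_sound hc (m2 := m2) (e1 := e1) (k := k) (by omega) (by omega) (by omega) k3 k5 h5'.2
    have := leafR (ρL := rv c.rL) (ρH := rv c.rH) (m1 := rv m1) (m2 := rv m2) (ξ1 := rv e1 / rv m2)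
      (ξ2 := ξ2) (mc := rv k) hL0 hH1 hm10 hmk hk12 (div_pos (rv_pos k6) hm20) hξ1 A1 A2
      (ρ := ρ) (m := m) (ξ := e / m) hρ0 hρL hρH hm1 hm2 (by
        rw [div_le_div_iff₀ hm20 hm0]
        exact mul_le_mul he1 hm2 hm0.le he0.le) hξ
    rwa [e0] at this
  · have h5' : okRc c m2 k = true := by
      have : (bif Nat.ble 1 e1 then (Nat.ble e1 m2 && okRb c m2 e1 k) else okRc c m2 k) = true := h5
      rwa [Bool.eq_false_iff.mpr hb, cond_false] at this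
    have A2 := okRc_sound hc (m2 := m2) (k := k) (by omega) k3 h5'
    have := leafR0 (ρL := rv c.rL) (ρH := rv c.rH) (m1 := rv m1) (m2 := rv m2)
      (ξ2 := ξ2) (mc := rv k) hL0 hH1 hm10 hmk hk12 hξ1 A1 A2
      (ρ := ρ) (m := m) (ξ := e / m) hρ0 hρL hρH hm1 hm2 (by positivity) hξ
    rwa [e0] at this

theorem leafNok_sound (hc : CstOk c) (h : leafNok c m1 m2 e1 e2 k = true) (hρ0 : 0 < ρ)
    (hρL : rv c.rL ≤ ρ) (hρH : ρ ≤ rv c.rH) (hm1 : rv m1 ≤ m) (hm2 : m ≤ rv m2) (he1 : rv e1 ≤ e)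
    (he2 : e ≤ rv e2) (he0 : 0 < e) : Good ρ m e := by
  unfold leafNok at h
  simp only [Bool.and_eq_true] at h
  obtain ⟨h1, h2, h3, h4, h5, h6⟩ := h
  have k1 : 1 ≤ m1 := Nat.le_of_ble_eq_true h1
  have k2 : m2 ≤ 549755813888 := Nat.le_of_ble_eq_true h2
  have k3 : 1099511627776 ≤ k := Nat.le_of_ble_eq_true h3
  have k4 : e2 * k < m1 * 1099511627776 := Nat.le_of_ble_eq_true h4
  have hm12 : m1 ≤ m2 := le_of_rv_le (hm1.trans hm2)
  have hH1 : rv c.rH < 1 := rv_lt_one hc.h2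
  have hL0 := rv_nonneg c.rL
  have hm10 := rv_pos k1
  have hm0 : 0 < m := lt_of_lt_of_le hm10 hm1
  have hm2h := rv_le_half k2
  have hm20 : 0 < rv m2 := lt_of_lt_of_le hm0 hm2
  have hk1 : 1 ≤ rv k := by rw [← rv_one]; exact rv_le k3
  have hlt : rv k * (rv e2 / rv m1) < 1 := by
    rw [mul_div_assoc', div_lt_one hm10]
    unfold rv
    have : (e2 : ℝ) * k < m1 * 1099511627776 := by exact_mod_cast k4
    have e : (k : ℝ) / 1099511627776 * (e2 / 1099511627776) = (e2 * k) / (1099511627776 * 1099511627776) := by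
      ring
    rw [e, div_lt_div_iff₀ (by norm_num) (by norm_num)]
    nlinarith
  have hξ : e / m ≤ rv e2 / rv m1 := by
    rw [div_le_div_iff₀ hm0 hm10]
    exact mul_le_mul he2 hm1 hm10.le (rv_nonneg _)
  have A1 := okNa_sound hc (m1 := m1) (e2 := e2) (k := k) k1 (by omega) (by omega) hlt.le h5
  have e0 : e / m * m = e := by field_simp
  by_cases hb : Nat.ble 1 e1 = true
  · have h6' : (Nat.ble e1 m2 && okNb c m2 e1 k) = true := by
      have : (bif Nat.ble 1 e1 then (Nat.ble e1 m2 && okNb c m2 e1 k) else okNc c m2 k) = true := h6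
      rwa [hb, cond_true] at this
    rw [Bool.and_eq_true] at h6'
    have k5 : e1 ≤ m2 := Nat.le_of_ble_eq_true h6'.1
    have k6 : 1 ≤ e1 := Nat.le_of_ble_eq_true hb
    have hξ1 : rv e1 / rv m2 ≤ e / m := by
      rw [div_le_div_iff₀ hm20 hm0]
      exact mul_le_mul he1 hm2 hm0.le he0.le
    have hlt1 : rv k * (rv e1 / rv m2) ≤ 1 :=
      (mul_le_mul_of_nonneg_left (hξ1.trans hξ) (by linarith)).trans hlt.le
    have A2 := okNb_sound hc (m2 := m2) (e1 := e1) (k := k) (by omega) k2 (by omega) k5 hlt1 h6'.2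
    have := leafN (ρL := rv c.rL) (ρH := rv c.rH) (m1 := rv m1) (m2 := rv m2) (ξ1 := rv e1 / rv m2)
      (ξ2 := rv e2 / rv m1) (ν := rv k) hL0 hH1 hm10 hm2h hk1 (div_pos (rv_pos k6) hm20) hlt A1 A2
      (ρ := ρ) (m := m) (ξ := e / m) hρ0 hρL hρH hm1 hm2 hξ1 hξ
    rwa [e0] at this
  · have h6' : okNc c m2 k = true := by
      have : (bif Nat.ble 1 e1 then (Nat.ble e1 m2 && okNb c m2 e1 k) else okNc c m2 k) = true := h6
      rwa [Bool.eq_false_iff.mpr hb, cond_false] at this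
    have A2 := okNc_sound hc (m2 := m2) (k := k) k2 h6'
    have := leafN0 (ρL := rv c.rL) (ρH := rv c.rH) (m1 := rv m1) (m2 := rv m2)
      (ξ2 := rv e2 / rv m1) (ν := rv k) hL0 hH1 hm10 hm2h hk1 hlt A1 A2
      (ρ := ρ) (m := m) (ξ := e / m) hρ0 hρL hρH hm1 hm2 (by positivity) hξ
    rwa [e0] at this

theorem leafSok_sound (hc : CstOk c) (h : leafSok c m1 m2 e1 e2 k = true) (hρ0 : 0 < ρ)
    (hρL : rv c.rL ≤ ρ) (hρH : ρ ≤ rv c.rH) (hm1 : rv m1 ≤ m) (hm2 : m ≤ rv m2) (he1 : rv e1 ≤ e)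
    (he2 : e ≤ rv e2) (hem : e ≤ m) : Good ρ m e := by
  unfold leafSok at h
  simp only [Bool.and_eq_true] at h
  obtain ⟨h1, h2, h3, h4, h5, h6⟩ := h
  rw [nmax_eq] at h5 h6
  have k1 : 1 ≤ e1 := Nat.le_of_ble_eq_true h1
  have k2 : m2 ≤ 549755813888 := Nat.le_of_ble_eq_true h2
  have k3 : 1 ≤ k := Nat.le_of_ble_eq_true h3
  have k4 : k < 1099511627776 := Nat.le_of_ble_eq_true h4
  have k5 : max m1 e2 ≤ 549755813888 := Nat.le_of_ble_eq_true h5
  have he12 : e1 ≤ e2 := le_of_rv_le (he1.trans he2)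
  have hM : rv (max m1 e2) = max (rv m1) (rv e2) := by
    rcases le_total m1 e2 with h | h
    · rw [max_eq_right h, max_eq_right (rv_le h)]
    · rw [max_eq_left h, max_eq_left (rv_le h)]
  obtain ⟨A1, A2, G0⟩ := okS3_sound hc (m2 := m2) (M := max m1 e2) (e1 := e1) (e2 := e2) (k := k) k2
    (by omega) k5 (le_max_right _ _) k3 k4 h6
  rw [hM] at A2 G0
  exact leafS (ρL := rv c.rL) (ρH := rv c.rH) (m1 := rv m1) (m2 := rv m2) (e1 := rv e1) (e2 := rv e2)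
    (w := rv k) (rv_nonneg _) (rv_lt_one hc.h2) (rv_le_half k2) (rv_pos k1) (rv_pos k3) (rv_lt_one k4)
    (by rw [← hM]; exact rv_le_half k5) A1 A2 G0 hρ0 hρL hρH hm1 hm2 he1 he2 hem

end leaves

lemma rv_nmax {a b : ℕ} {x : ℝ} (h1 : rv a ≤ x) (h2 : rv b ≤ x) : rv (nmax a b) ≤ x := by
  rw [nmax_eq]
  rcases le_total a b with h | h
  · rwa [max_eq_right h]
  · rwa [max_eq_left h]

lemma rv_nmin {a b : ℕ} {x : ℝ} (h1 : x ≤ rv a) (h2 : x ≤ rv b) : x ≤ rv (nmin a b) := by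
  rw [nmin_eq]
  rcases le_total a b with h | h
  · rwa [min_eq_left h]
  · rwa [min_eq_right h]

/-- **Soundness of tree certificates.** -/
theorem T.sound {c : Cst} (hc : CstOk c) {ρ m e : ℝ} (hρ0 : 0 < ρ)
    (hρL : rv c.rL ≤ ρ) (hρH : ρ ≤ rv c.rH) (he0 : 0 < e) (hem : e ≤ m) (t : T) :
    ∀ m1 m2 e1 e2 : ℕ, t.ok c m1 m2 e1 e2 = true → rv m1 ≤ m → m ≤ rv m2 →
      (m2 < 549755813888 → m < rv m2) → rv e1 ≤ e → e ≤ rv e2 → Good ρ m e := by
  induction t with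
  | m k lo hi ihlo ihhi =>
    intro m1 m2 e1 e2 h hm1 hm2 hm2' he1 he2
    simp only [T.ok, Bool.and_eq_true] at h
    rcases lt_or_ge m (rv (Nat.mul k 16777216)) with hlt | hge
    · exact ihlo _ _ _ _ h.1 hm1 hlt.le (fun _ => hlt) he1 he2
    · exact ihhi _ _ _ _ h.2 hge hm2 hm2' he1 he2
  | e k lo hi ihlo ihhi =>
    intro m1 m2 e1 e2 h hm1 hm2 hm2' he1 he2
    simp only [T.ok, Bool.and_eq_true] at h
    rcases le_total e (rv (Nat.mul k 16777216)) with hle | hge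
    · exact ihlo _ _ _ _ h.1 hm1 hm2 hm2' he1 hle
    · exact ihhi _ _ _ _ h.2 hm1 hm2 hm2' hge he2
  | R k =>
    intro m1 m2 e1 e2 h hm1 hm2 _ he1 he2
    exact leafRok_sound hc h hρ0 hρL hρH (rv_nmax hm1 (he1.trans hem)) hm2 he1
      (rv_nmin he2 (hem.trans hm2)) he0 hem
  | N k =>
    intro m1 m2 e1 e2 h hm1 hm2 _ he1 he2
    exact leafNok_sound hc h hρ0 hρL hρH (rv_nmax hm1 (he1.trans hem)) hm2 he1
      (rv_nmin he2 (hem.trans hm2)) he0
  | S k =>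
    intro m1 m2 e1 e2 h hm1 hm2 _ he1 he2
    exact leafSok_sound hc h hρ0 hρL hρH (rv_nmax hm1 (he1.trans hem)) hm2 he1
      (rv_nmin he2 (hem.trans hm2)) hem
  | X =>
    intro m1 m2 e1 e2 h _ _ hm2' he1 _
    simp only [T.ok, Bool.and_eq_true] at h
    have k1 : m2 ≤ e1 := Nat.le_of_ble_eq_true h.1
    have k2 : m2 < 549755813888 := Nat.le_of_ble_eq_true h.2
    have := hm2' k2
    have := rv_le k1
    linarith

end P322.H19
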