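import Vale.Agent.Lib.P322.Cert

/-!
P322 (Courtade-Kumar): the complete certificate of a `ρ`-interval.
-/

namespace P322.H19

open Real

lemma lb_nlog {a : ℕ} (h0 : 1 ≤ a) (h1 : a ≤ 1099511627776) :
    Lb (l2Lo (1099511627776 - a)) (- log (rv a)) := by
  have h := l2Lo_le (v := 1099511627776 - a) (by omega)
  have e : 1 - ((1099511627776 - a : ℕ) : ℝ) / 1099511627776 = rv a := by
    have := rv_sub_one h1
    unfold rv at this ⊢
    rw [this]; ring
  rwa [e] at h

lemma ub_nlog {a : ℕ} (h0 : 1 ≤ a) (h1 : a ≤ 1099511627776) :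
    Ub (l2Hi (1099511627776 - a)) (- log (rv a)) := by
  have h := le_l2Hi (v := 1099511627776 - a) (by omega)
  have e : 1 - ((1099511627776 - a : ℕ) : ℝ) / 1099511627776 = rv a := by
    have := rv_sub_one h1
    unfold rv at this ⊢
    rw [this]; ring
  rwa [e] at h

lemma ub_one : Ub 1099511627776 1 := by have := ub_rv 1099511627776; rwa [rv_one] at this

lemma lb_one : Lb 1099511627776 1 := by have := lb_rv 1099511627776; rwa [rv_one] at this

/-- small `m`. -/
def okSmall (c : Cst) (mR r : ℕ) : Bool :=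
  Nat.ble (nat_lit 1) mR && (Nat.ble (Nat.mul (nat_lit 2) mR) r && (Nat.ble r (nat_lit 1099511627776) &&
  (Nat.ble (mHi (Nat.mul (nat_lit 8) r) c.bH) (mLo c.sl (Nat.sub (nat_lit 1099511627776) r)) &&
  Nat.ble
    (Nat.add (Nat.add (Nat.add (Nat.add
      (Nat.mul (nat_lit 2) (l2Hi (Nat.sub (nat_lit 1099511627776) r)))
      (Nat.mul (nat_lit 2) (kapHi c.rL)))
      (mHi (dHi mR r) (Nat.add (nat_lit 1099511627776) (mHi c.rL c.rL))))
      (Nat.mul (nat_lit 4) (mHi (dHi mR r) (dHi mR r))))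
      (Nat.mul (nat_lit 8) c.bL))
    (mLo (Nat.mul (nat_lit 2) (mLo c.rL c.rL))
      (Nat.add (l2Lo (Nat.sub (nat_lit 1099511627776) mR)) (nat_lit 1099511627776))))))

lemma Ub.two {a : ℕ} {x : ℝ} (h : Ub a x) : Ub (2 * a) (2 * x) := by
  unfold Ub at *; push_cast; linarith

lemma Lb.two {a : ℕ} {x : ℝ} (h : Lb a x) : Lb (2 * a) (2 * x) := by
  unfold Lb at *; push_cast; linarith

lemma Ub.four {a : ℕ} {x : ℝ} (h : Ub a x) : Ub (4 * a) (4 * x) := by
  unfold Ub at *; push_cast; linarith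

lemma Lb.four {a : ℕ} {x : ℝ} (h : Lb a x) : Lb (4 * a) (4 * x) := by
  unfold Lb at *; push_cast; linarith

lemma Ub.eight {a : ℕ} {x : ℝ} (h : Ub a x) : Ub (8 * a) (8 * x) := by
  unfold Ub at *; push_cast; linarith

theorem okSmall_sound {c : Cst} (hc : CstOk c) {mR r : ℕ} (h : okSmall c mR r = true)
    {ρ m e : ℝ} (hρ0 : 0 < ρ) (hρL : rv c.rL ≤ ρ) (hρH : ρ ≤ rv c.rH) (hm : m ≤ rv mR) (he0 : 0 < e)
    (hem : e ≤ m) : Good ρ m e := by
  unfold okSmall at h
  simp only [Bool.and_eq_true] at h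
  obtain ⟨h1, h2, h3, h4, h5⟩ := h
  have k1 : 1 ≤ mR := Nat.le_of_ble_eq_true h1
  have k2 : 2 * mR ≤ r := Nat.le_of_ble_eq_true h2
  have k3 : r ≤ 1099511627776 := Nat.le_of_ble_eq_true h3
  have hH1 : rv c.rH < 1 := rv_lt_one hc.h2
  have hL1 : rv c.rL < 1 := lt_of_le_of_lt (rv_le hc.h1) hH1
  have hL0 := rv_nonneg c.rL
  have hH0 := rv_nonneg c.rH
  have hr0 : 0 < rv r := rv_pos (by omega)
  have hr1 : rv r ≤ 1 := by rw [← rv_one]; exact rv_le k3
  have hm0 : 0 < rv mR := rv_pos k1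
  have hmr : rv mR / rv r ≤ 1 / 2 := by
    rw [div_le_div_iff₀ hr0 (by norm_num)]
    have := rv_le k2
    rw [rv_mul_nat] at this
    push_cast at this
    linarith
  have s0 : 0 ≤ 1 - rv c.rH ^ 2 := by nlinarith
  have hx0 : 0 ≤ rv mR / rv r := by positivity
  refine small_m (ρL := rv c.rL) (ρH := rv c.rH) (r := rv r) (mR := rv mR) hL0 (rv_le hc.h1) hH1 hr0 hr1
    hmr ?_ ?_ hρ0 hρL hρH hm he0 hem
  · have a := (ub_eight r).mul hc.bH (by positivity) (bb_nonneg hH0 hH1.le)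
    have b := hc.sl.mul (lb_one_sub k3)
    have := Lb.le_of_le a b (Nat.le_of_ble_eq_true h4)
    linarith
  · have xU := (ub_rv mR).div (lb_rv r) hm0.le (by omega)
    have qU := ub_one.add ((ub_rv c.rL).mul (ub_rv c.rL) hL0 hL0)
    have a1 := (ub_nlog (a := r) (by omega) k3).two
    have a2 := ((ub_rv c.rL).kap hL0 hL1.le).two
    have a3 := xU.mul qU hx0 (by positivity)
    have a4 := (xU.mul xU hx0 hx0).four
    have a5 := hc.bL.eight
    have b1 := ((lb_rv c.rL).mul (lb_rv c.rL)).two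
    have b2 := (lb_nlog (a := mR) k1 (by omega)).add lb_one
    have := Lb.le_of_le ((((a1.add a2).add a3).add a4).add a5) (b1.mul b2) (Nat.le_of_ble_eq_true h5)
    nlinarith [this]

/-- the corner, first condition; `E = ε0`. -/
def okC1 (c : Cst) (E θ : ℕ) : Bool :=
  Nat.ble
    (Nat.add (mHi (mHi (Nat.sub (nat_lit 1099511627776) (Nat.mul (nat_lit 2) θ))
        (Nat.sub (nat_lit 762123384788) (kapLo c.rL))) E)
      (mHi (Nat.sub (nat_lit 1099511627776) E)
        (kapHi (mHi c.rL (Nat.sub (nat_lit 1099511627776) (mLo (Nat.mul (nat_lit 2) θ) E))))))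
    (mLo (Nat.sub (nat_lit 1099511627776) E) (kapLo c.rL))

/-- the corner, second condition. -/
def okC2 (c : Cst) (E θ : ℕ) : Bool :=
  Nat.ble
    (Nat.add (Nat.add (Nat.add
      (Nat.mul (nat_lit 2) (mHi (mHi (Nat.sub (nat_lit 1099511627776) (Nat.mul (nat_lit 2) θ))
        (Nat.sub (nat_lit 762123384788) (kapLo c.rH))) E))
      (mHi (mHi (Nat.mul (nat_lit 2) θ)
        (Nat.add (Nat.add (l2Hi (Nat.sub (nat_lit 1099511627776) E)) (l2Hi (Nat.sub (nat_lit 1099511627776) θ)))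
          (nat_lit 1099511627776))) E))
      (Nat.mul (nat_lit 2) (mHi (Nat.sub (nat_lit 1099511627776) E)
        (kapHi (mHi c.rH (Nat.sub (nat_lit 1099511627776) (mLo (Nat.mul (nat_lit 2) θ) E)))))))
      (Nat.mul (nat_lit 4) (mHi (mHi (mHi (Nat.sub (nat_lit 1099511627776) (mLo (Nat.mul (nat_lit 2) θ) E))
        (Nat.sub (nat_lit 1099511627776) E)) E) (kapHi c.rH))))
    (Nat.add (Nat.mul (nat_lit 2) (mLo (Nat.sub (nat_lit 1099511627776) E) (kapLo c.rH)))
      (mLo (mLo (Nat.sub (nat_lit 1099511627776) (mHi (Nat.mul (nat_lit 2) θ) E)) E)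
        (Nat.add (Nat.add (mLo c.sl (l2Lo (Nat.sub (nat_lit 1099511627776) E)))
          (mLo c.sl (Nat.sub (nat_lit 1099511627776) E)))
          (mLo (Nat.mul (nat_lit 4) (mLo c.q (nat_lit 762123384784))) (Nat.sub (nat_lit 1099511627776) E)))))

/-- the corner, third condition. -/
def okC3 (E θ : ℕ) : Bool :=
  Nat.ble
    (Nat.add (Nat.mul (nat_lit 2) (mHi (Nat.sub (nat_lit 1099511627776) (Nat.mul (nat_lit 2) θ)) (nat_lit 762123384788)))
      (mHi (Nat.mul (nat_lit 2) θ)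
        (Nat.add (Nat.add (l2Hi (Nat.sub (nat_lit 1099511627776) E)) (l2Hi (Nat.sub (nat_lit 1099511627776) θ)))
          (nat_lit 1099511627776))))
    (mLo (Nat.sub (nat_lit 1099511627776) (mHi (Nat.mul (nat_lit 2) θ) E))
      (Nat.add (l2Lo (Nat.sub (nat_lit 1099511627776) E)) (Nat.sub (nat_lit 1099511627776) E)))

/-- the corner; `E = ε0`. -/
def okCorner (c : Cst) (E θ : ℕ) : Bool :=
  Nat.ble (nat_lit 1) E && (Nat.blt E (nat_lit 1099511627776) && (Nat.ble (nat_lit 1) θ &&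
  (Nat.ble (Nat.mul (nat_lit 2) θ) (nat_lit 1099511627776) &&
  (Nat.ble (mHi (Nat.mul (nat_lit 2) θ) E) (nat_lit 1099511627776) &&
  (Nat.ble (Nat.mul (nat_lit 2) θ)
    (mLo c.sl (Nat.sub (nat_lit 1099511627776) (mHi (Nat.mul (nat_lit 2) θ) E))) &&
  (okC1 c E θ && (okC2 c E θ && okC3 E θ)))))))

lemma Lb.one_sub {a : ℕ} {x : ℝ} (h : Ub a x) (ha : a ≤ 1099511627776) : Lb (1099511627776 - a) (1 - x) := by
  have := lb_one_sub ha
  unfold Lb Ub rv at *
  linarith

lemma Ub.one_sub {a : ℕ} {x : ℝ} (h : Lb a x) : Ub (1099511627776 - a) (1 - x) := ub_one.sub h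

theorem okCorner_sound {c : Cst} (hc : CstOk c) {E θ : ℕ} (h : okCorner c E θ = true)
    {ρ m e : ℝ} (hρ0 : 0 < ρ) (hρL : rv c.rL ≤ ρ) (hρH : ρ ≤ rv c.rH) (hem : e ≤ m) (hm : m ≤ 1 / 2)
    (hme : m + e < 1) (he : (1 - rv E) / 2 ≤ e) : Good ρ m e := by
  unfold okCorner at h
  simp only [Bool.and_eq_true] at h
  obtain ⟨h1, h2, h3, h4, h5, h6, h7, h8, h9⟩ := h
  have k1 : 1 ≤ E := Nat.le_of_ble_eq_true h1
  have k2 : E < 1099511627776 := Nat.le_of_ble_eq_true h2
  have k3 : 1 ≤ θ := Nat.le_of_ble_eq_true h3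
  have k4 : 2 * θ ≤ 1099511627776 := Nat.le_of_ble_eq_true h4
  have k5 : mHi (2 * θ) E ≤ 1099511627776 := Nat.le_of_ble_eq_true h5
  have hH1 : rv c.rH < 1 := rv_lt_one hc.h2
  have hL1 : rv c.rL < 1 := lt_of_le_of_lt (rv_le hc.h1) hH1
  have hL0 := rv_nonneg c.rL
  have hH0 := rv_nonneg c.rH
  have hE0 := rv_pos k1
  have hE1 := rv_lt_one k2
  have hθ0 := rv_pos k3
  have hθ2 : 2 * rv θ ≤ 1 := by
    have := rv_le k4
    rw [rv_mul_nat, rv_one] at this
    exact_mod_cast this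
  have s0 : 0 ≤ 1 - rv c.rH ^ 2 := by nlinarith
  have pU := (ub_two θ).mul (ub_rv E) (by positivity) hE0.le
  have pL := (lb_two θ).mul (lb_rv E)
  have wL := Lb.one_sub pU k5
  have wU := Ub.one_sub pL
  have w0 : 0 ≤ 1 - 2 * rv θ * rv E := wL.nonneg
  have w1 : 1 - 2 * rv θ * rv E ≤ 1 := by
    have : 0 ≤ 2 * rv θ * rv E := by positivity
    linarith
  have l2 : (0 : ℝ) ≤ log 2 := log_nonneg (by norm_num)
  have lE : 0 ≤ - log (rv E) := by have := log_nonpos hE0.le hE1.le; linarith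
  have lθ : 0 ≤ - log (rv θ) := by have := log_nonpos hθ0.le (by linarith); linarith
  have uLE := ub_nlog k1 k2.le
  have uLθ := ub_nlog (a := θ) k3 (by omega)
  have lLE := lb_nlog k1 k2.le
  have uS := (uLE.add uLθ).add ub_one
  have uE := ub_one_sub k2.le
  have lbE := lb_one_sub k2.le
  have uθ : Ub (1099511627776 - 2 * θ) (1 - 2 * rv θ) := Ub.one_sub (lb_two θ)
  have one_E : 0 ≤ 1 - rv E := by linarith
  have one_θ : 0 ≤ 1 - 2 * rv θ := by linarith
  refine corner (ρL := rv c.rL) (ρH := rv c.rH) (ε0 := rv E) (θ := rv θ) hL0 (rv_le hc.h1) hH1 hE1 hθ0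
    ?_ ?_ ?_ ?_ hρ0 hρL hρH hem hm hme he
  · have := Lb.le_of_le (ub_two θ) (hc.sl.mul wL) (Nat.le_of_ble_eq_true h6)
    linarith
  · have g1 : 0 ≤ log 2 - kap (rv c.rL) := by
      have := kap_le_log_two (t := rv c.rL) (by linarith) hL1.le
      linarith
    have q0 : 0 ≤ rv c.rL * (1 - 2 * rv θ * rv E) := by positivity
    have q1 : rv c.rL * (1 - 2 * rv θ * rv E) ≤ 1 := by nlinarith
    have a1 := (uθ.mul (ub_log2.sub ((lb_rv c.rL).kap hL1.le)) one_θ g1).mul (ub_rv E) (by positivity) hE0.le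
    have a2 := uE.mul (((ub_rv c.rL).mul wU hL0 w0).kap q0 q1) one_E (kap_nonneg' q0 q1)
    have b1 := lbE.mul ((lb_rv c.rL).kap hL1.le)
    have := Lb.le_of_le (a1.add a2) b1 (Nat.le_of_ble_eq_true h7)
    linarith
  · have g1 : 0 ≤ log 2 - kap (rv c.rH) := by
      have := kap_le_log_two (t := rv c.rH) (by linarith) hH1.le
      linarith
    have g2 := kap_nonneg' hH0 hH1.le
    have q0 : 0 ≤ rv c.rH * (1 - 2 * rv θ * rv E) := by positivity
    have q1 : rv c.rH * (1 - 2 * rv θ * rv E) ≤ 1 := by nlinarith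
    have a1 := ((uθ.mul (ub_log2.sub ((lb_rv c.rH).kap hH1.le)) one_θ g1).mul (ub_rv E) (by positivity) hE0.le).two
    have a2 := ((ub_two θ).mul uS (by positivity) (by linarith)).mul (ub_rv E) (by
      apply mul_nonneg (by positivity)
      linarith) hE0.le
    have a3 := (uE.mul (((ub_rv c.rH).mul wU hH0 w0).kap q0 q1) one_E (kap_nonneg' q0 q1)).two
    have a4 := (((wU.mul uE w0 one_E).mul (ub_rv E) (mul_nonneg w0 one_E) hE0.le).mul
      ((ub_rv c.rH).kap hH0 hH1.le) (by positivity) g2).four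
    have b1 := (lbE.mul ((lb_rv c.rH).kap hH1.le)).two
    have b2 := hc.sl.mul lLE
    have b3 := hc.sl.mul lbE
    have b4 := ((hc.q.mul lb_log2).four).mul lbE
    have b5 := (wL.mul (lb_rv E)).mul ((b2.add b3).add b4)
    have := Lb.le_of_le (((a1.add a2).add a3).add a4) (b1.add b5) (Nat.le_of_ble_eq_true h8)
    unfold bb
    linarith
  · have a1 := (uθ.mul ub_log2 one_θ l2).two
    have a2 := (ub_two θ).mul uS (by positivity) (by linarith)
    have b1 := wL.mul (lLE.add lbE)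
    have := Lb.le_of_le (a1.add a2) b1 (Nat.le_of_ble_eq_true h9)
    have h' := mul_le_mul_of_nonneg_right this hE0.le
    linarith

/-- the complete certificate. -/
def certOk (c : Cst) (mR r eC θ : ℕ) (t : T) : Bool :=
  cstOk c && (okSmall c mR r && (Nat.ble eC (nat_lit 549755813887) &&
  (okCorner c (Nat.sub (nat_lit 1099511627776) (Nat.mul (nat_lit 2) eC)) θ &&
  t.ok c mR (nat_lit 549755813888) (nat_lit 0) eC)))

theorem certOk_sound {c : Cst} {mR r eC θ : ℕ} {t : T} (h : certOk c mR r eC θ t = true)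
    {ρ : ℝ} (hρ0 : 0 < ρ) (hρL : rv c.rL ≤ ρ) (hρH : ρ ≤ rv c.rH) : Closed ρ (psi ρ) := by
  unfold certOk at h
  simp only [Bool.and_eq_true] at h
  obtain ⟨h1, h2, h3, h4, h5⟩ := h
  have hc := cstOk_sound h1
  have k3 : eC ≤ 549755813887 := Nat.le_of_ble_eq_true h3
  intro m e he0 hem hm hme
  show Good ρ m e
  rcases le_total m (rv mR) with hmm | hmm
  · exact okSmall_sound hc h2 hρ0 hρL hρH hmm he0 hem
  · rcases le_total e (rv eC) with hee | hee
    · refine T.sound hc hρ0 hρL hρH he0 hem t _ _ _ _ h5 hmm (by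
        show m ≤ rv 549755813888
        rw [rv_half]; exact hm) (fun hh => absurd hh (by decide)) ?_ hee
      have : rv 0 = 0 := by unfold rv; simp
      show rv 0 ≤ e
      rw [this]; exact he0.le
    · refine okCorner_sound hc h4 hρ0 hρL hρH hem hm hme ?_
      have e1 : rv (Nat.sub 1099511627776 (Nat.mul 2 eC)) = 1 - 2 * rv eC := by
        have := rv_sub_one (a := 2 * eC) (by omega)
        rw [rv_mul_nat] at this
        exact_mod_cast this
      rw [e1]
      linarith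

end P322.H19
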