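import Vale.Agent.Lib.P322.Info

/-!
P322 (Courtade-Kumar): general potentials. `VGE ρ m e K v` says that every finite law `(u,v)`
with means `(m, e)` and average entropy at least `K` has noisy average entropy at least `v`.
-/

namespace P322

open Real Set

/-- the semantic two-point bound. -/
def VGE (ρ m e K v : ℝ) : Prop :=
  ∀ (ι : Type) [Fintype ι] (w u u' : ι → ℝ), (∀ i, 0 ≤ w i) → ∑ i, w i = 1 →
    (∀ i, u i ∈ Icc (0 : ℝ) 1) → (∀ i, u' i ∈ Icc (0 : ℝ) 1) →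
    ∑ i, w i * ((u i + u' i) / 2) = m → ∑ i, w i * ((u' i - u i) / 2) = e →
    K ≤ EH w u u' → v ≤ EG ρ w u u'

lemma VGE.mono {ρ m e K v K' v' : ℝ} (h : VGE ρ m e K v) (hK : K ≤ K') (hv : v' ≤ v) :
    VGE ρ m e K' v' := by
  intro ι _ w u u' hw hw1 hu hu' hm he hE
  exact le_trans hv (h ι w u u' hw hw1 hu hu' hm he (le_trans hK hE))

/-- (L): contact at the point itself. -/
theorem VGE_L {ρ m e K : ℝ} (hρ : 0 < ρ) (hρ1 : ρ ≤ 1) (he0 : 0 < e) (hem : e ≤ m)
    (hm2 : m ≤ 1 / 2) (hme : m + e < 1) : VGE ρ m e K (Lval ρ m e K) := by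
  intro ι _ w u u' hw hw1 hu hu' hm he hK
  exact L_form' w u u' hw hw1 hu hu' hρ hρ1 he0 hem hm2 hme hm he hK

/-- (S): symmetric contact. -/
theorem VGE_S {ρ m e K t : ℝ} (hρ : 0 < ρ) (hρ1 : ρ ≤ 1) (ht0 : 0 < t) (ht1 : t < 1) :
    VGE ρ m e K (Sval ρ t e K) := by
  intro ι _ w u u' hw _ hu hu' _ he hK
  exact S_form w u u' hw hu hu' hρ hρ1 ht0 ht1 he hK

/-- coefficient of the mean in the certificate with contact `(mc, ec)`. -/
noncomputable def bx (ρ mc ec : ℝ) : ℝ :=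
  (dh (mc - ρ * ec) + dh (mc + ρ * ec)) / 2
    - LL mc ec ρ / LL mc ec 1 * ((dh (mc - ec) + dh (mc + ec)) / 2)

/-- coefficient of the half difference in the certificate with contact `(mc, ec)`. -/
noncomputable def bye (ρ mc ec : ℝ) : ℝ :=
  ρ * (dh (mc + ρ * ec) - dh (mc - ρ * ec)) / 2
    - LL mc ec ρ / LL mc ec 1 * ((dh (mc + ec) - dh (mc - ec)) / 2)

/-- General contact `(mc, ec)` with `0 < ec < mc ≤ 1/2`. -/
theorem VGE_gen {ρ m e K mc ec : ℝ} (hρ : 0 < ρ) (hρ1 : ρ ≤ 1) (hec : 0 < ec) (hecm : ec < mc)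
    (hmc : mc ≤ 1 / 2) :
    VGE ρ m e K (LL mc ec ρ / LL mc ec 1 * K + bx ρ mc ec * m + bye ρ mc ec * e) := by
  intro ι _ w u u' hw _ hu hu' hm he hK
  have hL1 : 0 < LL mc ec 1 := LL_pos hec hecm.le hmc one_pos le_rfl (by linarith)
  have hLρ : 0 < LL mc ec ρ := LL_pos hec hecm.le hmc hρ hρ1 (by nlinarith)
  set c := LL mc ec ρ / LL mc ec 1 with hc
  have hc0 : 0 ≤ c := by positivity
  have key : ∀ i, w i * (c * ((binEntropy (u i) + binEntropy (u' i)) / 2)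
      + bx ρ mc ec * ((u i + u' i) / 2) + bye ρ mc ec * ((u' i - u i) / 2)) ≤
      w i * ((binEntropy ((u i + u' i) / 2 - ρ * ((u' i - u i) / 2)) +
      binEntropy ((u i + u' i) / 2 + ρ * ((u' i - u i) / 2))) / 2) := by
    intro i
    apply mul_le_mul_of_nonneg_left _ (hw i)
    have h := pw_closed hρ hρ1 hec hecm hmc (hu i) (hu' i)
    unfold Nu at h
    have a1 : (u i + u' i) / 2 - 1 * ((u' i - u i) / 2) = u i := by ring
    have a2 : (u i + u' i) / 2 + 1 * ((u' i - u i) / 2) = u' i := by ring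
    rw [a1, a2, ← hc] at h
    unfold bx bye
    rw [← hc]
    simp only [one_mul] at h
    nlinarith
  have hsum := Finset.sum_le_sum (fun i (_ : i ∈ Finset.univ) => key i)
  have e1 : ∀ i, w i * (c * ((binEntropy (u i) + binEntropy (u' i)) / 2)
      + bx ρ mc ec * ((u i + u' i) / 2) + bye ρ mc ec * ((u' i - u i) / 2)) =
      c * (w i * ((binEntropy (u i) + binEntropy (u' i)) / 2))
      + bx ρ mc ec * (w i * ((u i + u' i) / 2)) + bye ρ mc ec * (w i * ((u' i - u i) / 2)) := by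
    intro i; ring
  rw [Finset.sum_congr rfl (fun i _ => e1 i), Finset.sum_add_distrib, Finset.sum_add_distrib,
    ← Finset.mul_sum, ← Finset.mul_sum, ← Finset.mul_sum, hm, he] at hsum
  have h2 := mul_le_mul_of_nonneg_left hK hc0
  unfold EH at h2
  unfold EG
  linarith

/-- noisy two point average `k_ρ(m,e)`. -/
noncomputable def kk (ρ m e : ℝ) : ℝ := (binEntropy (m - ρ * e) + binEntropy (m + ρ * e)) / 2

/-- homogeneity at the contact. -/
lemma contact_id {ρ mc ec : ℝ} (hL : LL mc ec 1 ≠ 0) :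
    bx ρ mc ec * mc + bye ρ mc ec * ec = kk ρ mc ec - LL mc ec ρ / LL mc ec 1 * kk 1 mc ec := by
  have s1 := sub_mul_dh (z := mc - ρ * ec)
  have s2 := sub_mul_dh (z := mc + ρ * ec)
  have s3 := sub_mul_dh (z := mc - ec)
  have s4 := sub_mul_dh (z := mc + ec)
  have hcL : LL mc ec ρ / LL mc ec 1 * LL mc ec 1 = LL mc ec ρ := by field_simp
  set c := LL mc ec ρ / LL mc ec 1
  have hL1e : LL mc ec 1 = - log (1 - (mc - ec)) - log (1 - (mc + ec)) := by unfold LL; simp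
  have hLρe : LL mc ec ρ = - log (1 - (mc - ρ * ec)) - log (1 - (mc + ρ * ec)) := rfl
  unfold bx bye kk
  simp only [one_mul]
  have t1 : c * ((mc - ec) * dh (mc - ec) + (mc + ec) * dh (mc + ec)) =
    c * (binEntropy (mc - ec) + binEntropy (mc + ec)) - LL mc ec ρ := by
    rw [← hcL, hL1e]
    have : (mc - ec) * dh (mc - ec) + (mc + ec) * dh (mc + ec) =
      binEntropy (mc - ec) + binEntropy (mc + ec) - (- log (1 - (mc - ec)) - log (1 - (mc + ec))) := by
      linarith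
    rw [this]; ring
  have t2 : (mc - ρ * ec) * dh (mc - ρ * ec) + (mc + ρ * ec) * dh (mc + ρ * ec) =
    binEntropy (mc - ρ * ec) + binEntropy (mc + ρ * ec) - LL mc ec ρ := by rw [hLρe]; linarith
  have : (((dh (mc - ρ * ec) + dh (mc + ρ * ec)) / 2 - c * ((dh (mc - ec) + dh (mc + ec)) / 2)) * mc +
    (ρ * (dh (mc + ρ * ec) - dh (mc - ρ * ec)) / 2 - c * ((dh (mc + ec) - dh (mc - ec)) / 2)) * ec) =
    ((mc - ρ * ec) * dh (mc - ρ * ec) + (mc + ρ * ec) * dh (mc + ρ * ec)) / 2 -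
    (c * ((mc - ec) * dh (mc - ec) + (mc + ec) * dh (mc + ec))) / 2 := by ring
  change _ = _
  rw [this, t1, t2]
  ring

/-- (R): contact `(mc, ξ mc)` on the ray of `(m, ξ m)`. -/
theorem VGE_R {ρ m K mc ξ : ℝ} (hρ : 0 < ρ) (hρ1 : ρ ≤ 1) (hξ : 0 < ξ) (hξ1 : ξ < 1)
    (hmc0 : 0 < mc) (hmc : mc ≤ 1 / 2) :
    VGE ρ m (ξ * m) K (LL mc (ξ * mc) ρ / LL mc (ξ * mc) 1 * K +
      m / mc * (kk ρ mc (ξ * mc) - LL mc (ξ * mc) ρ / LL mc (ξ * mc) 1 * kk 1 mc (ξ * mc))) := by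
  have hec : 0 < ξ * mc := by positivity
  have hecm : ξ * mc < mc := by nlinarith
  have hL1 : 0 < LL mc (ξ * mc) 1 := LL_pos hec hecm.le hmc one_pos le_rfl (by linarith)
  have h := VGE_gen (ρ := ρ) (m := m) (e := ξ * m) (K := K) hρ hρ1 hec hecm hmc
  refine h.mono le_rfl (le_of_eq ?_)
  rw [← contact_id hL1.ne']
  field_simp
  ring

/-- two-condition form of (R). -/
theorem VGE_R2 {ρ m K mc ξ v : ℝ} (hρ : 0 < ρ) (hρ1 : ρ ≤ 1) (hξ : 0 < ξ) (hξ1 : ξ < 1)
    (hmc0 : 0 < mc) (hmc : mc ≤ 1 / 2)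
    (A1 : v ≤ m / mc * kk ρ mc (ξ * mc))
    (A2 : v - K ≤ m / mc * (kk ρ mc (ξ * mc) - kk 1 mc (ξ * mc))) :
    VGE ρ m (ξ * m) K v := by
  have h := VGE_R (m := m) (K := K) hρ hρ1 hξ hξ1 hmc0 hmc
  refine h.mono le_rfl ?_
  have hec : 0 < ξ * mc := by positivity
  have hecm : ξ * mc < mc := by nlinarith
  have hL1 : 0 < LL mc (ξ * mc) 1 := LL_pos hec hecm.le hmc one_pos le_rfl (by linarith)
  have hLρ : 0 < LL mc (ξ * mc) ρ := LL_pos hec hecm.le hmc hρ hρ1 (by nlinarith)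
  have hmono : LL mc (ξ * mc) ρ ≤ LL mc (ξ * mc) 1 := by
    unfold LL
    have e1 : (1 - (mc - ρ * (ξ * mc))) * (1 - (mc + ρ * (ξ * mc))) = (1 - mc) ^ 2 - ρ ^ 2 * (ξ * mc) ^ 2 := by ring
    have e2 : (1 - (mc - 1 * (ξ * mc))) * (1 - (mc + 1 * (ξ * mc))) = (1 - mc) ^ 2 - (ξ * mc) ^ 2 := by ring
    have p1 : 0 < 1 - (mc - ρ * (ξ * mc)) := by nlinarith
    have p2 : 0 < 1 - (mc + ρ * (ξ * mc)) := by nlinarith
    have p3 : 0 < 1 - (mc - 1 * (ξ * mc)) := by nlinarith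
    have p4 : 0 < 1 - (mc + 1 * (ξ * mc)) := by nlinarith
    have l1 : log ((1 - mc) ^ 2 - (ξ * mc) ^ 2) ≤ log ((1 - mc) ^ 2 - ρ ^ 2 * (ξ * mc) ^ 2) := by
      apply Real.log_le_log
      · rw [← e2]; positivity
      · have : ρ ^ 2 ≤ 1 := by nlinarith
        nlinarith [sq_nonneg (ξ * mc)]
    rw [← e1, ← e2, log_mul p1.ne' p2.ne', log_mul p3.ne' p4.ne'] at l1
    linarith
  set c := LL mc (ξ * mc) ρ / LL mc (ξ * mc) 1 with hc
  have hc0 : 0 ≤ c := by positivity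
  have hc1 : c ≤ 1 := by rw [hc, div_le_one hL1]; exact hmono
  have h1 := mul_le_mul_of_nonneg_left A1 (by linarith : 0 ≤ 1 - c)
  have h2 := mul_le_mul_of_nonneg_left A2 hc0
  nlinarith

/-- two-condition form of (S), `w = t`. -/
theorem VGE_S2 {ρ m e K w v : ℝ} (hρ : 0 < ρ) (hρ1 : ρ ≤ 1) (hw0 : 0 < w) (hw1 : w < 1)
    (A1 : v ≤ 2 * e / w * binEntropy ((1 - ρ * w) / 2))
    (A2 : v - K ≤ 2 * e / w * (binEntropy ((1 - ρ * w) / 2) - binEntropy ((1 - w) / 2))) :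
    VGE ρ m e K v := by
  have h := VGE_S (m := m) (e := e) (K := K) hρ hρ1 hw0 hw1
  refine h.mono le_rfl ?_
  unfold Sval
  have hw2 : w ^ 2 < 1 := by nlinarith
  have hρw2 : ρ ^ 2 * w ^ 2 < 1 := by
    have : ρ ^ 2 ≤ 1 := by nlinarith
    nlinarith [sq_nonneg w]
  have hρw2' : ρ ^ 2 * w ^ 2 ≤ w ^ 2 := by
    have : ρ ^ 2 ≤ 1 := by nlinarith
    nlinarith [sq_nonneg w]
  have hl4 : 0 < log 4 := Real.log_pos (by norm_num)
  have l1 : log (1 - w ^ 2) ≤ 0 := Real.log_nonpos (by linarith) (by nlinarith [sq_nonneg w])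
  have l2 : log (1 - ρ ^ 2 * w ^ 2) ≤ 0 := Real.log_nonpos (by linarith) (by nlinarith [sq_nonneg (ρ * w)])
  have l3 : log (1 - w ^ 2) ≤ log (1 - ρ ^ 2 * w ^ 2) := Real.log_le_log (by linarith) (by linarith)
  have hd : 0 < log 4 - log (1 - w ^ 2) := by linarith
  set c := (log 4 - log (1 - ρ ^ 2 * w ^ 2)) / (log 4 - log (1 - w ^ 2)) with hc
  have hc0 : 0 ≤ c := div_nonneg (by linarith) hd.le
  have hc1 : c ≤ 1 := by rw [hc, div_le_one hd]; linarith
  have h1 := mul_le_mul_of_nonneg_left A1 (by linarith : 0 ≤ 1 - c)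
  have h2 := mul_le_mul_of_nonneg_left A2 hc0
  nlinarith

/-- closedness of a potential under the two-point step. -/
def Closed (ρ : ℝ) (ψ : ℝ → ℝ) : Prop := ∀ m e : ℝ, 0 < e → e ≤ m → m ≤ 1 / 2 → m + e < 1 →
  VGE ρ m e ((ψ (m - e) + ψ (m + e)) / 2) (ψ m)

/-- the maximum of two closed potentials is closed. -/
lemma closed_max {ρ : ℝ} {ψ ψ' : ℝ → ℝ} (h : Closed ρ ψ) (h' : Closed ρ ψ') :
    Closed ρ (fun p => max (ψ p) (ψ' p)) := by
  intro m e he hem hm hme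
  show VGE ρ m e ((max (ψ (m - e)) (ψ' (m - e)) + max (ψ (m + e)) (ψ' (m + e))) / 2) (max (ψ m) (ψ' m))
  rcases le_total (ψ m) (ψ' m) with hle | hle
  · rw [max_eq_right hle]
    refine (h' m e he hem hm hme).mono ?_ le_rfl
    have := le_max_right (ψ (m - e)) (ψ' (m - e))
    have := le_max_right (ψ (m + e)) (ψ' (m + e))
    linarith
  · rw [max_eq_left hle]
    refine (h m e he hem hm hme).mono ?_ le_rfl
    have := le_max_left (ψ (m - e)) (ψ' (m - e))
    have := le_max_left (ψ (m + e)) (ψ' (m + e))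
    linarith

section general

variable {ι : Type} [Fintype ι]

/-- step with `p0 < p1`, `p0 + p1 ≤ 1`. -/
lemma gstep_aux {ρ : ℝ} {ψ : ℝ → ℝ} (hhalf : ψ (1 / 2) ≤ binEntropy ((1 - ρ) / 2))
    (hB : Closed ρ ψ) (w u v : ι → ℝ)
    (hw : ∀ i, 0 ≤ w i) (hw1 : ∑ i, w i = 1)
    (hu : ∀ i, u i ∈ Icc (0 : ℝ) 1) (hv : ∀ i, v i ∈ Icc (0 : ℝ) 1) {p0 p1 : ℝ}
    (h0 : ∑ i, w i * u i = p0) (h1 : ∑ i, w i * v i = p1)
    (hK : (ψ p0 + ψ p1) / 2 ≤ EH w u v) (hlt : p0 < p1) (hle : p0 + p1 ≤ 1) :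
    ψ ((p0 + p1) / 2) ≤ EG ρ w u v := by
  have hp0 : 0 ≤ p0 := by
    rw [← h0]; exact Finset.sum_nonneg (fun i _ => mul_nonneg (hw i) (hu i).1)
  have hm : ∑ i, w i * ((u i + v i) / 2) = (p0 + p1) / 2 := by
    rw [← h0, ← h1, ← Finset.sum_add_distrib, Finset.sum_div]
    apply Finset.sum_congr rfl
    intro i _; ring
  have hη : ∑ i, w i * ((v i - u i) / 2) = (p1 - p0) / 2 := by
    rw [← h0, ← h1, ← Finset.sum_sub_distrib, Finset.sum_div]
    apply Finset.sum_congr rfl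
    intro i _; ring
  by_cases hp1 : p1 = 1
  · -- then p0 = 0
    have hp00 : p0 = 0 := by linarith
    rw [hp00, hp1]
    have e : ((0 : ℝ) + 1) / 2 = 1 / 2 := by norm_num
    rw [e]
    refine le_trans hhalf ?_
    have hu0 : ∀ i, w i * u i = 0 := by
      have := (Finset.sum_eq_zero_iff_of_nonneg (fun i _ => mul_nonneg (hw i) (hu i).1)).mp
        (by rw [h0, hp00] : ∑ i, w i * u i = 0)
      intro i; exact this i (Finset.mem_univ i)
    have hv0 : ∀ i, w i * (1 - v i) = 0 := by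
      have hs : ∑ i, w i * (1 - v i) = 0 := by
        have : ∀ i, w i * (1 - v i) = w i - w i * v i := fun i => by ring
        rw [Finset.sum_congr rfl (fun i _ => this i), Finset.sum_sub_distrib, hw1, h1, hp1]
        ring
      have := (Finset.sum_eq_zero_iff_of_nonneg (fun i _ => mul_nonneg (hw i)
        (by linarith [(hv i).2]))).mp hs
      intro i; exact this i (Finset.mem_univ i)
    have hEG : EG ρ w u v = ∑ i, w i * binEntropy ((1 - ρ) / 2) := by
      unfold EG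
      apply Finset.sum_congr rfl
      intro i _
      rcases (hw i).eq_or_lt with h | h
      · rw [← h]; simp
      · have a1 : u i = 0 := by
          rcases mul_eq_zero.mp (hu0 i) with h' | h'
          · linarith
          · exact h'
        have a2 : v i = 1 := by
          rcases mul_eq_zero.mp (hv0 i) with h' | h'
          · linarith
          · linarith
        rw [a1, a2]
        have e1 : ((0 : ℝ) + 1) / 2 - ρ * ((1 - 0) / 2) = (1 - ρ) / 2 := by ring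
        have e2 : ((0 : ℝ) + 1) / 2 + ρ * ((1 - 0) / 2) = 1 - (1 - ρ) / 2 := by ring
        rw [e1, e2, binEntropy_one_sub]
        ring
    rw [hEG, ← Finset.sum_mul, hw1, one_mul]
  · have hp1' : p1 < 1 := by
      have : p1 ≤ 1 := by
        rw [← h1, ← hw1]
        apply Finset.sum_le_sum
        intro i _
        have := mul_le_mul_of_nonneg_left (hv i).2 (hw i)
        linarith
      exact lt_of_le_of_ne this hp1
    have e0 : (p0 + p1) / 2 - (p1 - p0) / 2 = p0 := by ring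
    have e1 : (p0 + p1) / 2 + (p1 - p0) / 2 = p1 := by ring
    have hB' := hB ((p0 + p1) / 2) ((p1 - p0) / 2) (by linarith) (by linarith) (by linarith)
      (by linarith)
    rw [e0, e1] at hB'
    exact hB' ι w u v hw hw1 hu hv hm hη hK

lemma gstep_aux2 {ρ : ℝ} {ψ : ℝ → ℝ} (hρ0 : 0 < ρ) (hρ1 : ρ ≤ 1)
    (hhalf : ψ (1 / 2) ≤ binEntropy ((1 - ρ) / 2)) (hB : Closed ρ ψ) (w u v : ι → ℝ)
    (hw : ∀ i, 0 ≤ w i) (hw1 : ∑ i, w i = 1)
    (hu : ∀ i, u i ∈ Icc (0 : ℝ) 1) (hv : ∀ i, v i ∈ Icc (0 : ℝ) 1) {p0 p1 : ℝ}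
    (h0 : ∑ i, w i * u i = p0) (h1 : ∑ i, w i * v i = p1)
    (hK : (ψ p0 + ψ p1) / 2 ≤ EH w u v) (hle : p0 + p1 ≤ 1) :
    ψ ((p0 + p1) / 2) ≤ EG ρ w u v := by
  rcases lt_trichotomy p0 p1 with h | h | h
  · exact gstep_aux hhalf hB w u v hw hw1 hu hv h0 h1 hK h hle
  · refine le_trans ?_ (EG_ge_EH hρ0.le hρ1 w u v hw hu hv)
    refine le_trans ?_ hK
    rw [h]
    apply le_of_eq
    have : (p1 + p1) / 2 = p1 := by ring
    rw [this]; ring
  · have := gstep_aux hhalf hB w v u hw hw1 hv hu h1 h0 (by rw [EH_swap]; linarith) h (by linarith)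
    rw [EG_swap, add_comm] at this
    exact this

/-- **The inductive step for a closed potential.** -/
theorem gstep {ρ : ℝ} {ψ : ℝ → ℝ} (hρ0 : 0 < ρ) (hρ1 : ρ ≤ 1) (hsymm : ∀ p, ψ (1 - p) = ψ p)
    (hhalf : ψ (1 / 2) ≤ binEntropy ((1 - ρ) / 2)) (hB : Closed ρ ψ) (w u v : ι → ℝ)
    (hw : ∀ i, 0 ≤ w i) (hw1 : ∑ i, w i = 1)
    (hu : ∀ i, u i ∈ Icc (0 : ℝ) 1) (hv : ∀ i, v i ∈ Icc (0 : ℝ) 1) {p0 p1 : ℝ}
    (h0 : ∑ i, w i * u i = p0) (h1 : ∑ i, w i * v i = p1)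
    (hK : (ψ p0 + ψ p1) / 2 ≤ EH w u v) :
    ψ ((p0 + p1) / 2) ≤ EG ρ w u v := by
  rcases le_total (p0 + p1) 1 with h | h
  · exact gstep_aux2 hρ0 hρ1 hhalf hB w u v hw hw1 hu hv h0 h1 hK h
  · have hs : ∀ z : ι → ℝ, ∀ q, ∑ i, w i * z i = q → ∑ i, w i * (1 - z i) = 1 - q := by
      intro z q hz
      have : ∀ i, w i * (1 - z i) = w i - w i * z i := fun i => by ring
      rw [Finset.sum_congr rfl (fun i _ => this i), Finset.sum_sub_distrib, hw1, hz]
    have hc : ∀ z : ι → ℝ, (∀ i, z i ∈ Icc (0 : ℝ) 1) → ∀ i, 1 - z i ∈ Icc (0 : ℝ) 1 := by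
      intro z hz i
      exact ⟨by linarith [(hz i).2], by linarith [(hz i).1]⟩
    have := gstep_aux2 hρ0 hρ1 hhalf hB w (fun i => 1 - u i) (fun i => 1 - v i) hw hw1 (hc u hu) (hc v hv)
      (hs u p0 h0) (hs v p1 h1) (by rw [EH_compl, hsymm, hsymm]; exact hK) (by linarith)
    rw [EG_compl] at this
    have e : (1 - p0 + (1 - p1)) / 2 = 1 - (p0 + p1) / 2 := by ring
    rw [e, hsymm] at this
    exact this

end general

/-- **Main induction for a closed potential.** -/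
theorem gmain_ind {ε : ℝ} {ψ : ℝ → ℝ} (h0 : 0 < ε) (h1 : ε < 1 / 2)
    (hsymm : ∀ p, ψ (1 - p) = ψ p) (hzero : ψ 0 ≤ 0) (hhalf : ψ (1 / 2) ≤ binEntropy ε)
    (hB : Closed (1 - 2 * ε) ψ) :
    ∀ (n : ℕ) (g : (Fin n → ℤˣ) → ℝ), (∀ x, g x = 0 ∨ g x = 1) →
      ψ ((∑ x, g x) / 2 ^ n) ≤ (∑ y, binEntropy (TT ε g y)) / 2 ^ n := by
  have hone : ψ 1 ≤ 0 := by
    have := hsymm 1
    simp only [sub_self] at this
    linarith
  intro n
  induction n with
  | zero =>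
    intro g hg
    have e1 : ∑ x, g x = g default := by
      rw [Fintype.sum_subsingleton _ default]
    have e2 : ∀ y, TT ε g y = g default := by
      intro y
      unfold TT
      rw [Fintype.sum_subsingleton _ default]
      simp [ker]
    rw [e1]
    simp only [e2, pow_zero, div_one]
    rcases hg default with h | h <;> rw [h]
    · simpa using hzero
    · simpa using hone
  | succ n ih =>
    intro g hg
    set g0 : (Fin n → ℤˣ) → ℝ := fun x => g (Fin.cons 1 x) with hg0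
    set g1 : (Fin n → ℤˣ) → ℝ := fun x => g (Fin.cons (-1) x) with hg1
    have ih0 := ih g0 (fun x => hg _)
    have ih1 := ih g1 (fun x => hg _)
    have h2n : (0 : ℝ) < 2 ^ n := by positivity
    have hIcc : ∀ (k : ℕ) (g' : (Fin k → ℤˣ) → ℝ), (∀ x, g' x = 0 ∨ g' x = 1) →
        ∀ x, g' x ∈ Icc (0 : ℝ) 1 := by
      intro k g' hg' x
      rcases hg' x with h | h <;> rw [h] <;> constructor <;> norm_num
    have hcard : ((Finset.univ : Finset (Fin n → ℤˣ)).card : ℝ) = 2 ^ n := by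
      rw [Finset.card_univ, Fintype.card_fun, Fintype.card_units_int, Fintype.card_fin]
      push_cast; ring
    have ee : (1 - (1 - 2 * ε)) / 2 = ε := by ring
    have hst := gstep (ρ := 1 - 2 * ε) (ψ := ψ) (by linarith) (by linarith) hsymm
      (by rw [ee]; exact hhalf) hB
      (w := fun _ : Fin n → ℤˣ => 1 / 2 ^ n) (u := TT ε g0) (v := TT ε g1)
      (fun _ => by positivity)
      (by rw [Finset.sum_const, nsmul_eq_mul, hcard]; field_simp)
      (TT_mem h0.le (by linarith) g0 (hIcc n g0 (fun x => hg _)))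
      (TT_mem h0.le (by linarith) g1 (hIcc n g1 (fun x => hg _)))
      (p0 := (∑ x, g0 x) / 2 ^ n) (p1 := (∑ x, g1 x) / 2 ^ n)
      (by rw [← Finset.mul_sum, sum_TT]; ring)
      (by rw [← Finset.mul_sum, sum_TT]; ring)
      (by
        unfold EH
        rw [← Finset.mul_sum, ← Finset.sum_div, Finset.sum_add_distrib]
        have : 1 / 2 ^ n * ((∑ i, binEntropy (TT ε g0 i) + ∑ i, binEntropy (TT ε g1 i)) / 2) =
          ((∑ i, binEntropy (TT ε g0 i)) / 2 ^ n + (∑ i, binEntropy (TT ε g1 i)) / 2 ^ n) / 2 := by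
          field_simp
        rw [this]
        linarith)
    have e1 : (∑ x, g x) / 2 ^ (n + 1) = ((∑ x, g0 x) / 2 ^ n + (∑ x, g1 x) / 2 ^ n) / 2 := by
      rw [sum_cube_succ, Finset.sum_add_distrib, pow_succ]
      simp only [hg0, hg1]
      field_simp
    rw [e1]
    refine le_trans hst (le_of_eq ?_)
    unfold EG
    rw [sum_cube_succ, ← Finset.mul_sum, ← Finset.sum_div, pow_succ]
    have e2 : ∀ y : Fin n → ℤˣ, binEntropy (TT ε g (Fin.cons 1 y)) + binEntropy (TT ε g (Fin.cons (-1) y)) =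
        binEntropy ((TT ε g0 y + TT ε g1 y) / 2 - (1 - 2 * ε) * ((TT ε g1 y - TT ε g0 y) / 2)) +
        binEntropy ((TT ε g0 y + TT ε g1 y) / 2 + (1 - 2 * ε) * ((TT ε g1 y - TT ε g0 y) / 2)) := by
      intro y
      rw [TT_cons, TT_cons]
      have a1 : ((1 : ℤˣ) = -1) = False := by simp
      have a2 : ((-1 : ℤˣ) = 1) = False := by simp
      simp only [a1, a2, if_true, if_false]
      congr 2 <;> (simp only [hg0, hg1]; ring)
    rw [Finset.sum_congr rfl (fun y _ => e2 y)]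
    field_simp

/-- Hypotheses on a potential at noise correlation `ρ`. -/
structure GoodPot (ρ : ℝ) (ψ : ℝ → ℝ) : Prop where
  symm : ∀ p, ψ (1 - p) = ψ p
  zero : ψ 0 ≤ 0
  half : ψ (1 / 2) ≤ binEntropy ((1 - ρ) / 2)
  dom : ∀ p, 0 ≤ p → p ≤ 1 → binEntropy p - log 2 + binEntropy ((1 - ρ) / 2) ≤ ψ p
  closed : Closed ρ ψ

/-- the original potential is good, given `Closed`. -/
lemma goodPot_psi {ρ : ℝ} (hρ0 : 0 < ρ) (hρ1 : ρ < 1) (h : Closed ρ (psi ρ)) :
    GoodPot ρ (psi ρ) where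
  symm := psi_symm ρ
  zero := by rw [psi_zero]
  half := by rw [psi_half]
  dom := fun _ h0 h1 => psi_ge hρ0.le hρ1.le h0 h1
  closed := h

/-- **Conditional Courtade-Kumar theorem, general potentials.** -/
theorem ck_of_goodPot (hB : ∀ ρ : ℝ, 0 < ρ → ρ < 1 → ∃ ψ : ℝ → ℝ, GoodPot ρ ψ) (n : ℕ)
    (f : (Fin n → ℤˣ) → ℤˣ) (ε : ℝ) (h0 : 0 ≤ ε) (h1 : ε ≤ 1 / 2) :
    mutualInfo (pXZ n ε) (fun ω => f ω.1) (fun ω => ω.1 * ω.2) ≤ 1 - h2 ε := by
  apply mi_le h0 (by linarith) f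
  set g : (Fin n → ℤˣ) → ℝ := fun x => if f x = 1 then (1 : ℝ) else 0 with hg
  have h2n : (0 : ℝ) < 2 ^ n := by positivity
  have hgI : ∀ x, g x ∈ Icc (0 : ℝ) 1 := by
    intro x; simp only [hg]; split_ifs <;> constructor <;> norm_num
  have hcard : ((Finset.univ : Finset (Fin n → ℤˣ)).card : ℝ) = 2 ^ n := by
    rw [Finset.card_univ, Fintype.card_fun, Fintype.card_units_int, Fintype.card_fin]
    push_cast; ring
  have hp0 : 0 ≤ (∑ x, g x) / 2 ^ n :=
    div_nonneg (Finset.sum_nonneg (fun x _ => (hgI x).1)) h2n.le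
  have hp1 : (∑ x, g x) / 2 ^ n ≤ 1 := by
    rw [div_le_one h2n, ← hcard]
    calc ∑ x, g x ≤ ∑ x : Fin n → ℤˣ, (1 : ℝ) := Finset.sum_le_sum (fun x _ => (hgI x).2)
      _ = _ := by simp
  rcases h0.eq_or_lt with h | h
  · -- ε = 0
    rw [← h]
    have a1 : binEntropy ((∑ x, g x) / 2 ^ n) ≤ log 2 := binEntropy_le_log_two
    have a2 : 0 ≤ (∑ y, binEntropy (TT 0 g y)) / 2 ^ n := by
      apply div_nonneg _ h2n.le
      apply Finset.sum_nonneg
      intro y _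
      have := TT_mem le_rfl zero_le_one g hgI y
      exact binEntropy_nonneg this.1 this.2
    simp only [binEntropy_zero]
    linarith
  · rcases h1.eq_or_lt with h' | h'
    · -- ε = 1/2
      rw [h']
      have a1 : ∀ y, TT (1 / 2) g y = (∑ x, g x) / 2 ^ n := by
        intro y
        unfold TT
        have : ∀ x : Fin n → ℤˣ, ker (1 / 2) x y = 1 / 2 ^ n := by
          intro x
          unfold ker
          have : ∀ i, (if x i = y i then 1 - (1 / 2 : ℝ) else 1 / 2) = 1 / 2 := by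
            intro i; split_ifs <;> norm_num
          rw [Finset.prod_congr rfl (fun i _ => this i)]
          simp
        rw [Finset.sum_congr rfl (fun x _ => by rw [this x]), ← Finset.mul_sum]
        ring
      have hh : binEntropy (1 / 2 : ℝ) = log 2 := by
        rw [one_div]; exact binEntropy_two_inv
      simp only [a1]
      rw [Finset.sum_const, nsmul_eq_mul, hcard, hh]
      apply le_of_eq
      field_simp
      ring
    · obtain ⟨ψ, hψ⟩ := hB (1 - 2 * ε) (by linarith) (by linarith)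
      have e : (1 - (1 - 2 * ε)) / 2 = ε := by ring
      have hhalf := hψ.half
      rw [e] at hhalf
      have hmain := gmain_ind h h' hψ.symm hψ.zero hhalf hψ.closed n g (by
        intro x; simp only [hg]; split_ifs <;> simp)
      refine le_trans ?_ hmain
      have := hψ.dom _ hp0 hp1
      rw [e] at this
      exact this

end P322
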