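import Vale.Agent.Lib.P322.Closed

/-!
P322 (Courtade-Kumar): the two-condition form of (R) including the edge `ξ = 1`.
-/

namespace P322

open Real Set Filter Topology

lemma dh_anti {x y : ℝ} (hx : 0 < x) (hxy : x ≤ y) (hy : y < 1) : dh y ≤ dh x := by
  unfold dh
  have h1 := Real.log_le_log (by linarith : 0 < 1 - y) (by linarith : 1 - y ≤ 1 - x)
  have h2 := Real.log_le_log hx hxy
  linarith

/-- two-condition form of (R), `ξ ≤ 1` allowed. -/
theorem VGE_R2' {ρ m K mc ξ v : ℝ} (hρ : 0 < ρ) (hρ1 : ρ < 1) (hm : 0 ≤ m)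
    (hξ : 0 < ξ) (hξ1 : ξ ≤ 1) (hmc0 : 0 < mc) (hmc : mc ≤ 1 / 2)
    (A1 : v ≤ m / mc * kk ρ mc (ξ * mc))
    (A2 : v - K ≤ m / mc * (kk ρ mc (ξ * mc) - kk 1 mc (ξ * mc))) :
    VGE ρ m (ξ * m) K v := by
  rcases hξ1.lt_or_eq with hlt | heq
  · exact VGE_R2 hρ hρ1.le hξ hlt hmc0 hmc A1 A2
  subst heq
  intro ι _ w u u' hw hw1 hu hu' hm' he hK
  -- the lower bound for every `t < 1`
  have key : ∀ t : ℝ, 0 < t → t < 1 →
      min (m / mc * kk ρ mc (t * mc)) (K + m / mc * (kk ρ mc (t * mc) - kk 1 mc (t * mc)))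
        + ρ * (dh (mc + ρ * (t * mc)) - dh (mc - ρ * (t * mc))) / 2 * (m * (1 - t)) ≤ EG ρ w u u' := by
    intro t ht0 ht1
    have hec : 0 < t * mc := by positivity
    have hecm : t * mc < mc := by nlinarith
    have hL1 : 0 < LL mc (t * mc) 1 := LL_pos hec hecm.le hmc one_pos le_rfl (by linarith)
    have hLρ : 0 < LL mc (t * mc) ρ := LL_pos hec hecm.le hmc hρ hρ1.le (by nlinarith)
    have h := VGE_gen (ρ := ρ) (m := m) (e := 1 * m) (K := K) hρ hρ1.le hec hecm hmc ι w u u' hw hw1 hu hu'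
      hm' he hK
    have hmono : LL mc (t * mc) ρ ≤ LL mc (t * mc) 1 := by
      unfold LL
      have e1 : (1 - (mc - ρ * (t * mc))) * (1 - (mc + ρ * (t * mc))) = (1 - mc) ^ 2 - ρ ^ 2 * (t * mc) ^ 2 := by ring
      have e2 : (1 - (mc - 1 * (t * mc))) * (1 - (mc + 1 * (t * mc))) = (1 - mc) ^ 2 - (t * mc) ^ 2 := by ring
      have p1 : 0 < 1 - (mc - ρ * (t * mc)) := by nlinarith
      have p2 : 0 < 1 - (mc + ρ * (t * mc)) := by nlinarith
      have p3 : 0 < 1 - (mc - 1 * (t * mc)) := by nlinarith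
      have p4 : 0 < 1 - (mc + 1 * (t * mc)) := by nlinarith
      have l1 : log ((1 - mc) ^ 2 - (t * mc) ^ 2) ≤ log ((1 - mc) ^ 2 - ρ ^ 2 * (t * mc) ^ 2) := by
        apply Real.log_le_log
        · rw [← e2]; positivity
        · have : ρ ^ 2 ≤ 1 := by nlinarith
          nlinarith [sq_nonneg (t * mc)]
      rw [← e1, ← e2, log_mul p1.ne' p2.ne', log_mul p3.ne' p4.ne'] at l1
      linarith
    have hid := contact_id (ρ := ρ) hL1.ne'
    set c := LL mc (t * mc) ρ / LL mc (t * mc) 1 with hc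
    have hc0 : 0 ≤ c := by positivity
    have hc1 : c ≤ 1 := by rw [hc, div_le_one hL1]; exact hmono
    -- rewrite the bound
    have e3 : c * K + bx ρ mc (t * mc) * m + bye ρ mc (t * mc) * (1 * m) =
        c * K + m / mc * (kk ρ mc (t * mc) - c * kk 1 mc (t * mc)) + bye ρ mc (t * mc) * (m * (1 - t)) := by
      rw [← hid]
      field_simp
      ring
    rw [e3] at h
    refine le_trans ?_ h
    -- bye bound
    have hb : ρ * (dh (mc + ρ * (t * mc)) - dh (mc - ρ * (t * mc))) / 2 ≤ bye ρ mc (t * mc) := by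
      unfold bye
      rw [← hc]
      have hd : dh (mc + t * mc) ≤ dh (mc - t * mc) := dh_anti (by linarith) (by linarith) (by linarith)
      have := mul_nonneg hc0 (sub_nonneg.mpr hd)
      nlinarith
    have hb2 := mul_le_mul_of_nonneg_right hb (by nlinarith : 0 ≤ m * (1 - t))
    -- min bound
    have m1 := min_le_left (m / mc * kk ρ mc (t * mc)) (K + m / mc * (kk ρ mc (t * mc) - kk 1 mc (t * mc)))
    have m2 := min_le_right (m / mc * kk ρ mc (t * mc)) (K + m / mc * (kk ρ mc (t * mc) - kk 1 mc (t * mc)))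
    set M := min (m / mc * kk ρ mc (t * mc)) (K + m / mc * (kk ρ mc (t * mc) - kk 1 mc (t * mc))) with hM
    have a1 := mul_le_mul_of_nonneg_left m1 (by linarith : 0 ≤ 1 - c)
    have a2 := mul_le_mul_of_nonneg_left m2 hc0
    have : c * K + m / mc * (kk ρ mc (t * mc) - c * kk 1 mc (t * mc)) =
      (1 - c) * (m / mc * kk ρ mc (t * mc)) + c * (K + m / mc * (kk ρ mc (t * mc) - kk 1 mc (t * mc))) := by ring
    rw [this]
    have a3 : M ≤ (1 - c) * (m / mc * kk ρ mc (t * mc)) +
        c * (K + m / mc * (kk ρ mc (t * mc) - kk 1 mc (t * mc))) := by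
      have : (1 - c) * M + c * M = M := by ring
      rw [← this]
      exact add_le_add a1 a2
    exact add_le_add a3 hb2
  -- limit `t → 1`
  have hcont : ContinuousAt (fun t : ℝ => min (m / mc * kk ρ mc (t * mc))
      (K + m / mc * (kk ρ mc (t * mc) - kk 1 mc (t * mc)))
        + ρ * (dh (mc + ρ * (t * mc)) - dh (mc - ρ * (t * mc))) / 2 * (m * (1 - t))) 1 := by
    have c1 : Continuous (fun t : ℝ => kk ρ mc (t * mc)) := by
      unfold kk
      have := binEntropy_continuous
      fun_prop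
    have c2 : Continuous (fun t : ℝ => kk 1 mc (t * mc)) := by
      unfold kk
      have := binEntropy_continuous
      fun_prop
    have c3 : ContinuousAt (fun t : ℝ => dh (mc + ρ * (t * mc))) 1 := by
      unfold dh
      have : 0 < mc + ρ * (1 * mc) := by positivity
      have : 0 < 1 - (mc + ρ * (1 * mc)) := by nlinarith
      fun_prop (disch := positivity)
    have c4 : ContinuousAt (fun t : ℝ => dh (mc - ρ * (t * mc))) 1 := by
      unfold dh
      have : 0 < mc - ρ * (1 * mc) := by nlinarith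
      have : 0 < 1 - (mc - ρ * (1 * mc)) := by nlinarith [mul_pos hρ hmc0]
      fun_prop (disch := positivity)
    have c5 : ContinuousAt (fun t : ℝ => min (m / mc * kk ρ mc (t * mc))
      (K + m / mc * (kk ρ mc (t * mc) - kk 1 mc (t * mc)))) 1 :=
      ((continuous_const.mul c1).min (continuous_const.add (continuous_const.mul (c1.sub c2)))).continuousAt
    exact c5.add ((((continuousAt_const.mul (c3.sub c4)).div_const 2)).mul (by fun_prop))
  have hlim := hcont.tendsto.mono_left (nhdsWithin_le_nhds (s := Iio 1))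
  have hle := le_of_tendsto hlim (by
    have : Ioo (0 : ℝ) 1 ∈ 𝓝[<] (1 : ℝ) := Ioo_mem_nhdsLT one_pos
    filter_upwards [this] with t ht
    exact key t ht.1 ht.2)
  refine le_trans ?_ hle
  simp only [sub_self, mul_zero, add_zero]
  apply le_min A1
  linarith [A2]

end P322
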