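import Vale.Agent.Lib.P322.SmallB

/-!
P322 (Courtade-Kumar): noise parameter `a ≤ 1/100`, large `δ`, and the final assembly.
-/

namespace P322

open Real Set

/-- `ξ(x) = (1+x) log (1+x) - x log x`. -/
noncomputable def XI (x : ℝ) : ℝ := (1 + x) * log (1 + x) - x * log x

lemma log_one_sub_ge {ε : ℝ} (h0 : 0 ≤ ε) (h1 : ε ≤ 1 / 2) : - (2 * log 2 * ε) ≤ log (1 - ε) := by
  have h := strictConcaveOn_log_Ioi.concaveOn.2 (x := 1) (y := 1 / 2) (by simp) (by simp)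
    (by linarith : 0 ≤ 1 - 2 * ε) (by linarith : 0 ≤ 2 * ε) (by ring)
  simp only [smul_eq_mul, log_one, mul_zero, zero_add] at h
  have e : (1 - 2 * ε) * 1 + 2 * ε * (1 / 2) = 1 - ε := by ring
  have e2 : log (1 / 2 : ℝ) = - log 2 := by rw [one_div, log_inv]
  rw [e, e2] at h
  linarith

lemma log15 : (0.405 : ℝ) ≤ log 1.5 := by
  have h1 : log (1.5 : ℝ) = 2 * log (1.5) - log 1.5 := by ring
  -- `1.5 = 2 * (3/4)`, `log (4/3) ≤ ...`
  have h2 : log (1.5 : ℝ) = - log (2 / 3) := by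
    rw [← log_inv]; norm_num
  rw [h2]
  -- log (2/3) ≤ -0.405  iff  2/3 ≤ exp (-0.405) iff exp 0.405 ≤ 3/2
  have h3 : exp (0.405 : ℝ) ≤ 3 / 2 := by
    have := Real.exp_bound' (x := 0.405) (by norm_num) (by norm_num) (n := 5) (by norm_num)
    simp only [Finset.sum_range_succ, Finset.sum_range_zero, Nat.factorial] at this
    norm_num at this ⊢
    linarith
  have h4 : log (2 / 3 : ℝ) ≤ -0.405 := by
    rw [Real.log_le_iff_le_exp (by norm_num), Real.exp_neg, le_inv_comm₀ (by norm_num) (exp_pos _)]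
    linarith
  linarith

/-- slope comparison of `g`. -/
lemma g_slope {a t : ℝ} (ha : 0 < a) (hat : a ≤ t) (ht : t ≤ 0.029) :
    t * (- ((1 - a) * log (1 - a))) - a * (- ((1 - t) * log (1 - t))) ≤ 1.03 * (a * t * (t - a)) := by
  have h1a : 0 < 1 - a := by linarith
  have h1t : 0 < 1 - t := by linarith
  -- g(t) ≥ g(a) + (t-a)(1 + log(1-t))
  have h1 : - ((1 - a) * log (1 - a)) + (t - a) * (1 + log (1 - t)) ≤ - ((1 - t) * log (1 - t)) := by
    have h2 := Real.one_sub_inv_le_log_of_pos (x := (1 - a) / (1 - t)) (by positivity)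
    rw [log_div h1a.ne' h1t.ne'] at h2
    have h3 := mul_le_mul_of_nonneg_left h2 h1a.le
    have e : (1 - a) * (1 - ((1 - a) / (1 - t))⁻¹) = t - a := by field_simp; ring
    rw [e] at h3
    nlinarith
  have h2 := mul_le_mul_of_nonneg_left h1 ha.le
  have h3 := g_le (z := a) (by linarith)
  -- - log (1-t) ≤ 1.03 t
  have h4 : - log (1 - t) ≤ 1.03 * t := by
    have h5 := Real.one_sub_inv_le_log_of_pos h1t
    have h6 : (1 - t)⁻¹ ≤ 1 + 1.03 * t := by
      rw [inv_le_iff_one_le_mul₀ h1t]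
      nlinarith
    linarith
  have h5 : (t - a) * (- ((1 - a) * log (1 - a)) - a) ≤ 0 := by
    apply mul_nonpos_of_nonneg_of_nonpos <;> linarith
  have h6 : (t - a) * a * (- log (1 - t)) ≤ (t - a) * a * (1.03 * t) :=
    mul_le_mul_of_nonneg_left h4 (mul_nonneg (by linarith) ha.le)
  nlinarith

/-- lower bound for `h(a (v + w))`. -/
lemma h_scaled_ge {a x : ℝ} (ha : 0 < a) (hx : 1 ≤ x) (hax : a * x ≤ 0.029) :
    x * binEntropy a - a * x * (log x + 1.03 * (a * x - a)) ≤ binEntropy (a * x) := by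
  have hx0 : 0 < x := by linarith
  have h1 := g_slope (t := a * x) ha (by nlinarith) hax
  rw [binEntropy_eq', binEntropy_eq', log_mul ha.ne' hx0.ne']
  have h2 : a * (x * (- ((1 - a) * log (1 - a))) - (- ((1 - a * x) * log (1 - a * x)))) ≤
      a * (1.03 * (a * x * (a * x - a))) := by
    nlinarith
  have h3 := le_of_mul_le_mul_left h2 ha
  linarith

/-- `δ ξ(v)` with `v = 1.5 ε / δ`, `δ = 1 - ε`. -/
lemma XI_v {ε : ℝ} (h0 : 0 < ε) (h1 : ε ≤ 1 / 2) :
    (1 - ε) * XI (1.5 * ε / (1 - ε)) ≤ ε * (0.8925 + 0.25 * ε + 1.5 * (- log ε)) := by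
  have hd : 0 < 1 - ε := by linarith
  have e1 : 1 + 1.5 * ε / (1 - ε) = (1 + ε / 2) / (1 - ε) := by field_simp; ring
  have e2 : log (1.5 * ε / (1 - ε)) = log 1.5 + log ε - log (1 - ε) := by
    rw [log_div (by positivity) hd.ne', log_mul (by norm_num) h0.ne']
  have e3 : log ((1 + ε / 2) / (1 - ε)) = log (1 + ε / 2) - log (1 - ε) := by
    rw [log_div (by positivity) hd.ne']
  have e4 : (1 - ε) * XI (1.5 * ε / (1 - ε)) = (1 + ε / 2) * log (1 + ε / 2)
      + (- ((1 - ε) * log (1 - ε))) - 1.5 * ε * log 1.5 - 1.5 * ε * log ε := by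
    unfold XI
    rw [e1, e2, e3]
    field_simp
    ring
  rw [e4]
  have h2 := g_le (z := ε) (by linarith)
  have h3 : log (1 + ε / 2) ≤ ε / 2 := by
    have := Real.log_le_sub_one_of_pos (x := 1 + ε / 2) (by positivity)
    linarith
  have h4 := mul_le_mul_of_nonneg_left h3 (by positivity : 0 ≤ 1 + ε / 2)
  have h5 := mul_le_mul_of_nonneg_left log15 (by positivity : 0 ≤ 1.5 * ε)
  nlinarith

/-- `ξ(ε) ≥ ε + ε (-log ε)`. -/
lemma XI_eps {ε : ℝ} (h0 : 0 < ε) : ε * (1 + (- log ε)) ≤ XI ε := by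
  unfold XI
  have h1 := Real.one_sub_inv_le_log_of_pos (x := 1 + ε) (by positivity)
  have h2 := mul_le_mul_of_nonneg_left h1 (by positivity : 0 ≤ 1 + ε)
  have e : (1 + ε) * (1 - (1 + ε)⁻¹) = ε := by field_simp; ring
  rw [e] at h2
  linarith

/-- the main inequality of regime I. -/
lemma reg1_T {a ε H : ℝ} (h0 : 0 < a) (h1 : a ≤ 1 / 100) (hε0 : 0 < ε) (hε1 : ε ≤ 1 / 2)
    (hH : a * 5.593 ≤ H) :
    0 ≤ H * (ε * (1 - ε)) + s2 a / 2 * (XI ε - 2 * log 2 * (2 * ε - ε ^ 2))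
      - a * ((1 - ε) * XI (1.5 * ε / (1 - ε))) - 2.1 * a ^ 2 * (1.5 * ε) := by
  have hl2 := Real.log_two_gt_d9
  have hl2' := Real.log_two_lt_d9
  have hv := XI_v hε0 hε1
  have he := XI_eps hε0
  have hℓ : log 2 ≤ - log ε := by
    have : log ε ≤ log (1 / 2) := Real.log_le_log hε0 hε1
    have e2 : log (1 / 2 : ℝ) = - log 2 := by rw [one_div, log_inv]
    linarith
  obtain ⟨ℓ, hℓd⟩ : ∃ ℓ, ℓ = - log ε := ⟨_, rfl⟩
  rw [← hℓd] at hv he hℓ
  obtain ⟨X, hX⟩ : ∃ X, X = XI ε := ⟨_, rfl⟩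
  obtain ⟨Y, hY⟩ : ∃ Y, Y = (1 - ε) * XI (1.5 * ε / (1 - ε)) := ⟨_, rfl⟩
  rw [← hX] at he ⊢
  rw [← hY] at hv ⊢
  have hs : s2 a / 2 = a * (1.6 * (1 - a)) := by unfold s2; ring
  rw [hs]
  have e1 : a * 5.593 * (ε * (1 - ε)) ≤ H * (ε * (1 - ε)) :=
    mul_le_mul_of_nonneg_right hH (mul_nonneg hε0.le (by linarith))
  have hc : 0 ≤ a * (1.6 * (1 - a)) := mul_nonneg h0.le (by linarith)
  have e2 := mul_le_mul_of_nonneg_left he hc
  have e3 := mul_le_mul_of_nonneg_left hv h0.le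
  have haε : 0 < a * ε := mul_pos h0 hε0
  -- the bracket
  have key : 0 ≤ a * ε * (5.593 * (1 - ε) + 1.6 * (1 - a) * (1 + ℓ - 2 * log 2 * (2 - ε))
      - (0.8925 + 0.25 * ε + 1.5 * ℓ) - 3.15 * a) := by
    apply mul_nonneg haε.le
    have f1 : 0 ≤ (0.1 - 1.6 * a) * (ℓ - log 2) := mul_nonneg (by linarith) (by linarith)
    have f2 : 1.6 * (1 - a) * (1 + ℓ - 2 * log 2 * (2 - ε)) =
        1.6 * (1 - 2 * log 2 * (2 - ε)) + 1.6 * a * (2 * log 2 * (2 - ε) - 1) + 1.6 * (1 - a) * ℓ := by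
      ring
    have f3 : 0 ≤ 1.6 * a * (2 * log 2 * (2 - ε) - 1) := by
      apply mul_nonneg (by linarith)
      nlinarith
    have f4 : 2 * log 2 * (2 - ε) ≤ 1.3862943616 * (2 - ε) :=
      mul_le_mul_of_nonneg_right (by linarith) (by linarith)
    have f5 : a * log 2 ≤ 0.01 * 0.6931471808 := mul_le_mul (by linarith) hl2'.le (by linarith) (by norm_num)
    rw [f2]
    nlinarith
  have e4 : a * ε * (5.593 * (1 - ε) + 1.6 * (1 - a) * (1 + ℓ - 2 * log 2 * (2 - ε))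
      - (0.8925 + 0.25 * ε + 1.5 * ℓ) - 3.15 * a) =
      a * 5.593 * (ε * (1 - ε)) + a * (1.6 * (1 - a)) * (ε * (1 + ℓ)) -
      a * (1.6 * (1 - a)) * (2 * log 2 * (2 * ε - ε ^ 2)) -
      a * (ε * (0.8925 + 0.25 * ε + 1.5 * ℓ)) - 2.1 * a ^ 2 * (1.5 * ε) := by ring
  rw [e4] at key
  have e5 : a * (1.6 * (1 - a)) * (X - 2 * log 2 * (2 * ε - ε ^ 2)) =
    a * (1.6 * (1 - a)) * X - a * (1.6 * (1 - a)) * (2 * log 2 * (2 * ε - ε ^ 2)) := by ring
  rw [e5]
  linarith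

/-- increment bound. -/
lemma h_incr {a v w : ℝ} (h0 : 0 < a) (hv0 : 0 < v) (hw0 : 0 < w) (hw1 : w ≤ 1)
    (hav : a * v ≤ 1 / 40) (haw : a * w ≤ 1 / 40) (ha1 : a ≤ 1) :
    w * (binEntropy a - a * XI v - 2.1 * (a * (a * v))) ≤ binEntropy (a * (v + w)) - binEntropy (a * v) := by
  have h1 := xlogx_chord hv0.le hw0.le hw1
  have h2 := g_defect (w := a * v) (x := a * w) (by positivity) (by positivity) hav haw
  have h3 := g_scale (a := a) (w := w) ha1 hw0.le hw1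
  have e : a * v + a * w = a * (v + w) := by ring
  rw [e] at h2
  rw [binEntropy_eq', binEntropy_eq', binEntropy_eq']
  rw [log_mul h0.ne' (by positivity : v + w ≠ 0), log_mul h0.ne' hv0.ne']
  have h4 := mul_le_mul_of_nonneg_left h1 h0.le
  unfold XI
  nlinarith

/-- Regime I, condition A1. -/
lemma reg1_A1 {a ε : ℝ} (h0 : 0 < a) (h1 : a ≤ 1 / 100) (hε0 : 0 < ε) (hε1 : ε ≤ 1 / 2) :
    (1 - 2 * (a * (1.5 * ε / (1 - ε)))) * binEntropy a ≤
      (1 - ε) * binEntropy (a * (1.5 * ε / (1 - ε) + (1 - 2 * (a * (1.5 * ε / (1 - ε)))))) := by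
  have hd : 0 < 1 - ε := by linarith
  obtain ⟨v, hv⟩ : ∃ v, v = 1.5 * ε / (1 - ε) := ⟨_, rfl⟩
  rw [← hv]
  have hδv : (1 - ε) * v = 1.5 * ε := by rw [hv]; field_simp
  have hv0 : 0 < v := by rw [hv]; positivity
  have hv1 : v ≤ 1.5 := by rw [hv, div_le_iff₀ hd]; linarith
  have h1v : 1 + v = (1 + ε / 2) / (1 - ε) := by rw [hv]; field_simp; ring
  obtain ⟨w, hw⟩ : ∃ w, w = 1 - 2 * (a * v) := ⟨_, rfl⟩
  rw [← hw]
  have hav : a * v ≤ 0.015 := by nlinarith
  have hav0 : 0 < a * v := mul_pos h0 hv0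
  have hw0 : 0.97 ≤ w := by rw [hw]; linarith
  have hw1 : w ≤ 1 := by rw [hw]; linarith
  have hx1 : 1 ≤ v + w := by rw [hw]; nlinarith
  have hx2 : v + w ≤ 2.5 := by linarith
  have hx3 : v + w ≤ 1 + v := by linarith
  have hh := h_scaled_ge (x := v + w) h0 hx1 (by nlinarith)
  -- log bound
  have hlog : log (v + w) ≤ 1.8863 * ε := by
    have g1 : log (v + w) ≤ log (1 + v) := Real.log_le_log (by linarith) hx3
    have g2 : log (1 + v) = log (1 + ε / 2) - log (1 - ε) := by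
      rw [h1v, log_div (by positivity) hd.ne']
    have g3 : log (1 + ε / 2) ≤ ε / 2 := by
      have := Real.log_le_sub_one_of_pos (x := 1 + ε / 2) (by positivity)
      linarith
    have g4 := log_one_sub_ge hε0.le hε1
    have g5 := Real.log_two_lt_d9
    have g6 : 2 * log 2 * ε ≤ 1.3863 * ε := mul_le_mul_of_nonneg_right (by linarith) hε0.le
    linarith
  have hlog0 : 0 ≤ log (v + w) := Real.log_nonneg hx1
  have hH := H_ge h0 h1
  -- main
  have k1 : (1 - ε) * ((v + w) * binEntropy a - a * (v + w) * (log (v + w) + 1.03 * (a * (v + w) - a))) ≤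
      (1 - ε) * binEntropy (a * (v + w)) := mul_le_mul_of_nonneg_left hh hd.le
  refine le_trans ?_ k1
  have k2 : (1 - ε) * (v + w) - w = ε * (1.5 - w) := by
    have : (1 - ε) * (v + w) = (1 - ε) * v + (1 - ε) * w := by ring
    rw [this, hδv]; ring
  have k3 : a * 5.593 * (0.5 * ε) ≤ binEntropy a * ((1 - ε) * (v + w) - w) := by
    rw [k2]
    apply mul_le_mul hH _ (by positivity) (by linarith [mul_pos h0 (by norm_num : (0:ℝ) < 5.593)])
    nlinarith
  have k4 : (1 - ε) * (v + w) ≤ 1.25 := by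
    have : (1 - ε) * (v + w) ≤ (1 - ε) * (1 + v) := mul_le_mul_of_nonneg_left hx3 hd.le
    have : (1 - ε) * (1 + v) = 1 - ε + 1.5 * ε := by rw [← hδv]; ring
    linarith
  have k5 : (1 - ε) * (v + w) * log (v + w) ≤ 1.25 * (1.8863 * ε) :=
    mul_le_mul k4 hlog hlog0 (by norm_num)
  have k6 : (1 - ε) * (a * (v + w) - a) ≤ 0.015 * ε := by
    have e1 : a * (v + w) - a ≤ a * v := by
      have : a * w ≤ a * 1 := mul_le_mul_of_nonneg_left hw1 h0.le
      linarith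
    have e2 : (1 - ε) * (a * v) = a * (1.5 * ε) := by rw [← hδv]; ring
    have e3 : a * (1.5 * ε) ≤ 0.01 * (1.5 * ε) := mul_le_mul_of_nonneg_right (by linarith) (by positivity)
    have := mul_le_mul_of_nonneg_left e1 hd.le
    linarith
  have k6' : 0 ≤ a * (v + w) - a := by nlinarith
  have k7 : (v + w) * ((1 - ε) * (a * (v + w) - a)) ≤ 2.5 * (0.015 * ε) :=
    mul_le_mul hx2 k6 (mul_nonneg hd.le k6') (by norm_num)
  have k8 : a * ((1 - ε) * (v + w) * log (v + w) + 1.03 * ((v + w) * ((1 - ε) * (a * (v + w) - a)))) ≤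
      a * (1.25 * (1.8863 * ε) + 1.03 * (2.5 * (0.015 * ε))) := by
    apply mul_le_mul_of_nonneg_left _ h0.le
    linarith
  have k9 : a * (1.25 * (1.8863 * ε) + 1.03 * (2.5 * (0.015 * ε))) ≤ a * 5.593 * (0.5 * ε) := by
    have : 0 < a * ε := mul_pos h0 hε0
    nlinarith
  have k10 : (1 - ε) * ((v + w) * binEntropy a - a * (v + w) * (log (v + w) + 1.03 * (a * (v + w) - a))) =
    binEntropy a * ((1 - ε) * (v + w) - w) + w * binEntropy a -
    a * ((1 - ε) * (v + w) * log (v + w) + 1.03 * ((v + w) * ((1 - ε) * (a * (v + w) - a)))) := by ring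
  rw [k10]
  linarith

/-- Regime I, condition A2. -/
lemma reg1_A2 {a m e : ℝ} (h0 : 0 < a) (h1 : a ≤ 1 / 100) (hem : e ≤ m)
    (hm2 : m ≤ 1 / 2) (hd : 1 / 4 ≤ e) (hd1 : e < 1 / 2) :
    s2 a * (binEntropy m - kk 1 m e) + b2 a * (2 * e) ^ 2 ≤
      2 * e * (binEntropy a - a * XI (1.5 * (1 - 2 * e) / (1 - (1 - 2 * e))) -
        2.1 * (a * (a * (1.5 * (1 - 2 * e) / (1 - (1 - 2 * e)))))) := by
  have hT := reg1_T (ε := 1 - 2 * e) h0 h1 (by linarith) (by linarith) (H_ge h0 h1)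
  have hK := K1_le_edge (by linarith) hem hm2 hd1
  rw [K1_edge_eq] at hK
  have hX : (1 + (1 - 2 * e)) * log (1 + (1 - 2 * e)) - (1 - 2 * e) * log (1 - 2 * e) = XI (1 - 2 * e) := rfl
  rw [hX] at hK
  have hs0 : 0 ≤ s2 a := by
    unfold s2
    have : 0 ≤ 1 - a := by linarith
    positivity
  have h2 := mul_le_mul_of_nonneg_left hK hs0
  obtain ⟨ε, hε⟩ : ∃ ε, ε = 1 - 2 * e := ⟨_, rfl⟩
  rw [← hε] at hT h2 ⊢
  have e1 : 2 * e = 1 - ε := by rw [hε]; ring
  rw [e1]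
  have hd0 : 0 < 1 - ε := by rw [hε]; linarith
  have hδv : (1 - ε) * (1.5 * ε / (1 - ε)) = 1.5 * ε := by field_simp
  obtain ⟨v, hv⟩ : ∃ v, v = 1.5 * ε / (1 - ε) := ⟨_, rfl⟩
  rw [← hv] at hT hδv ⊢
  have e2 : (1 - ε) * (binEntropy a - a * XI v - 2.1 * (a * (a * v))) =
      (1 - ε) * binEntropy a - a * ((1 - ε) * XI v) - 2.1 * a ^ 2 * ((1 - ε) * v) := by ring
  rw [e2, hδv]
  have e3 : s2 a * (log 2 - XI ε / 2) + b2 a * (1 - ε) ^ 2 =
      (1 - ε) * binEntropy a - (binEntropy a * (ε * (1 - ε)) + s2 a / 2 * (XI ε - 2 * log 2 * (2 * ε - ε ^ 2))) := by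
    unfold b2; ring
  linarith

/-- Regime I. -/
lemma reg1 {a m e : ℝ} (h0 : 0 < a) (h1 : a ≤ 1 / 100) (hem : e ≤ m)
    (hm2 : m ≤ 1 / 2) (hd : 1 / 4 ≤ e) (hd1 : e < 1 / 2) :
    VGE (1 - 2 * a) m e ((P2 a (m - e) + P2 a (m + e)) / 2) (P2 a m) := by
  have hA1 := reg1_A1 (ε := 1 - 2 * e) h0 h1 (by linarith) (by linarith)
  have hA2 := reg1_A2 h0 h1 hem hm2 hd hd1
  have hP := P2_le (m := m) h0 h1
  obtain ⟨ε, hε⟩ : ∃ ε, ε = 1 - 2 * e := ⟨_, rfl⟩
  have hε0 : 0 < ε := by rw [hε]; linarith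
  have hε1 : ε ≤ 1 / 2 := by rw [hε]; linarith
  have e1 : 2 * e = 1 - ε := by rw [hε]; ring
  have hd0 : 0 < 1 - ε := by linarith
  rw [← hε] at hA1 hA2
  have hv1 : 1.5 * ε / (1 - ε) ≤ 1.5 := by rw [div_le_iff₀ hd0]; linarith
  have hv0 : 0 < 1.5 * ε / (1 - ε) := by positivity
  obtain ⟨v, hv⟩ : ∃ v, v = 1.5 * ε / (1 - ε) := ⟨_, rfl⟩
  rw [← hv] at hA1 hA2 hv0 hv1
  obtain ⟨w, hw⟩ : ∃ w, w = 1 - 2 * (a * v) := ⟨_, rfl⟩
  rw [← hw] at hA1
  have hav : a * v ≤ 0.015 := by nlinarith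
  have hav0 : 0 < a * v := mul_pos h0 hv0
  have hw0 : 0 < w := by rw [hw]; linarith
  have hw1 : w < 1 := by rw [hw]; linarith
  have hinc := h_incr h0 hv0 hw0 hw1.le (by linarith) (by nlinarith) (by linarith)
  have et : (1 - (1 - 2 * a) * w) / 2 = a * (v + w) := by rw [hw]; ring
  have et2 : (1 - w) / 2 = a * v := by rw [hw]; ring
  apply VGE_S2 (w := w) (by linarith) (by linarith) hw0 hw1
  · rw [et, e1, div_mul_eq_mul_div, le_div_iff₀ hw0]
    have : P2 a m * w ≤ binEntropy a * w := mul_le_mul_of_nonneg_right hP hw0.le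
    linarith
  · rw [et, et2, P2_J, div_mul_eq_mul_div, le_div_iff₀ hw0]
    have h2 := mul_le_mul_of_nonneg_right hA2 hw0.le
    rw [e1] at h2 ⊢
    have h3 := mul_le_mul_of_nonneg_left hinc hd0.le
    linarith

/-- closedness of the maximum. -/
lemma closed_small {a : ℝ} (h0 : 0 < a) (h1 : a ≤ 1 / 100) :
    Closed (1 - 2 * a) (fun p => max ((1 - (1 - 2 * a) ^ 2) * binEntropy p) (P2 a p)) := by
  intro m e he hem hm hme
  show VGE (1 - 2 * a) m e ((max ((1 - (1 - 2 * a) ^ 2) * binEntropy (m - e)) (P2 a (m - e)) +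
    max ((1 - (1 - 2 * a) ^ 2) * binEntropy (m + e)) (P2 a (m + e))) / 2)
    (max ((1 - (1 - 2 * a) ^ 2) * binEntropy m) (P2 a m))
  rcases le_total ((1 - (1 - 2 * a) ^ 2) * binEntropy m) (P2 a m) with hle | hle
  · rw [max_eq_right hle]
    have hK1 := le_max_right ((1 - (1 - 2 * a) ^ 2) * binEntropy (m - e)) (P2 a (m - e))
    have hK2 := le_max_right ((1 - (1 - 2 * a) ^ 2) * binEntropy (m + e)) (P2 a (m + e))
    have hV : VGE (1 - 2 * a) m e ((P2 a (m - e) + P2 a (m + e)) / 2) (P2 a m) := by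
      rcases le_total (2 * e) (1.8 * (a * LA a)) with h | h
      · exact reg3 h0 h1 he hem hm h hle
      · rcases le_total (2 * e) (1 / 2) with h' | h'
        · exact reg2 h0 h1 he hem hm h h'
        · exact reg1 h0 h1 hem hm (by linarith) (by linarith)
    exact hV.mono (by linarith) le_rfl
  · rw [max_eq_left hle]
    have hK1 := le_max_left ((1 - (1 - 2 * a) ^ 2) * binEntropy (m - e)) (P2 a (m - e))
    have hK2 := le_max_left ((1 - (1 - 2 * a) ^ 2) * binEntropy (m + e)) (P2 a (m + e))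
    have := closed_sh (ρ := 1 - 2 * a) (by linarith) (by linarith) m e he hem hm hme
    exact this.mono (by linarith) le_rfl

/-- **The potential for `a ≤ 1/100`.** -/
theorem goodPot_small {a : ℝ} (h0 : 0 < a) (h1 : a ≤ 1 / 100) :
    GoodPot (1 - 2 * a) (fun p => max ((1 - (1 - 2 * a) ^ 2) * binEntropy p) (P2 a p)) where
  symm := by
    intro p
    have : P2 a (1 - p) = P2 a p := by
      unfold P2; rw [binEntropy_one_sub]; ring
    simp only [binEntropy_one_sub, this]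
  zero := by
    simp [P2]
  half := by
    have e : (1 - (1 - 2 * a)) / 2 = a := by ring
    rw [e]
    apply max_le _ (P2_le h0 h1)
    rw [s_eq, one_div, binEntropy_two_inv]
    have h2 := H_ge h0 h1
    have h3 := Real.log_two_lt_d9
    have h4 := Real.log_two_gt_d9
    nlinarith [mul_nonneg h0.le h0.le]
  dom := by
    intro p hp0 hp1
    have e : (1 - (1 - 2 * a)) / 2 = a := by ring
    rw [e]
    refine le_trans ?_ (le_max_right _ _)
    have hp := pinsker hp0 hp1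
    have hb := b2_le h0 h1
    have haL := aL_le h0 h1
    have hs := s2_le a
    have hs0 : 0 ≤ s2 a := by
      unfold s2
      have : 0 ≤ 1 - a := by linarith
      positivity
    have hb1 : b2 a ≤ (1 - s2 a) / 2 := by nlinarith
    have h2 := mul_le_mul_of_nonneg_right hb1 (sq_nonneg (1 - 2 * p))
    have h3 := mul_le_mul_of_nonneg_left hp (by linarith : 0 ≤ 1 - s2 a)
    have e2 : P2 a p = binEntropy a - s2 a * (log 2 - binEntropy p) - b2 a * (1 - 2 * p) ^ 2 := by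
      unfold P2 b2; ring
    rw [e2]
    linarith
  closed := closed_small h0 h1

/-- version in terms of `ρ`. -/
theorem goodPot_small' {ρ : ℝ} (h0 : 49 / 50 ≤ ρ) (h1 : ρ < 1) : ∃ ψ : ℝ → ℝ, GoodPot ρ ψ := by
  have := goodPot_small (a := (1 - ρ) / 2) (by linarith) (by linarith)
  have e : 1 - 2 * ((1 - ρ) / 2) = ρ := by ring
  rw [e] at this
  exact ⟨_, this⟩

end P322
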