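import Vale.Agent.Lib.P322.LeafS
import Vale.Agent.Lib.P322.SmallC

/-!
P322 (Courtade-Kumar): the corner `e → 1/2`, contact (S) with `(1 - w)/2 = θ ε`, `ε = 1 - 2e`.
-/

namespace P322

open Real Finset

/-- concavity of `h` along `α + κ ε`. -/
lemma h_chord {α κ ε ε0 : ℝ} (hα0 : 0 ≤ α) (hα1 : α ≤ 1) (hz : 0 ≤ α + κ * ε0) (hz1 : α + κ * ε0 ≤ 1)
    (hε : 0 ≤ ε) (hε0 : 0 < ε0) (hle : ε ≤ ε0) :
    binEntropy α + ε * ((binEntropy (α + κ * ε0) - binEntropy α) / ε0) ≤ binEntropy (α + κ * ε) := by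
  have hc := strictConcave_binEntropy.concaveOn
  have hq : 0 ≤ 1 - ε / ε0 := by rw [sub_nonneg, div_le_one hε0]; exact hle
  have h := hc.2 (x := α + κ * ε0) (y := α) ⟨hz, hz1⟩ ⟨hα0, hα1⟩ (by positivity : 0 ≤ ε / ε0) hq (by ring)
  simp only [smul_eq_mul] at h
  have e1 : ε / ε0 * (α + κ * ε0) + (1 - ε / ε0) * α = α + κ * ε := by field_simp; ring
  rw [e1] at h
  refine le_trans (le_of_eq ?_) h
  field_simp
  ring

lemma J1_le_XI {m e : ℝ} (he : 0 < e) (hem : e ≤ m) (hm2 : m ≤ 1 / 2) :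
    J1 m e ≤ log 2 - XI (1 - 2 * e) / 2 := by
  refine (J1_antitone he.le le_rfl he hem hm2).trans ?_
  have h := K1_edge_eq e
  unfold J1
  have e1 : e - e = 0 := by ring
  have e2 : e + e = 2 * e := by ring
  rw [e1, e2, binEntropy_zero]
  have : XI (1 - 2 * e) = (1 + (1 - 2 * e)) * log (1 + (1 - 2 * e)) - (1 - 2 * e) * log (1 - 2 * e) := rfl
  rw [this]
  linarith

lemma h_le_x {x : ℝ} (hx1 : x < 1) : binEntropy x ≤ x * (1 - log x) := by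
  rw [binEntropy_eq_neg]
  have := g_le hx1
  linarith

lemma bb_H (ρ : ℝ) : (1 - ρ ^ 2) * log 2 + bb ρ = binEntropy ((1 - ρ) / 2) := by
  unfold bb kap; ring

/-- arithmetic of (A2) in the corner. -/
lemma corner_arith {H c1 θ t s b ε ε0 ℓ ℓ0 : ℝ} (hc1 : 0 ≤ c1) (hθ : 0 < θ) (ht : 0 ≤ t)
    (hb : 0 ≤ b) (hs : 0 ≤ s) (hε : 0 < ε) (hεε : ε ≤ ε0) (hε01 : ε0 ≤ 1) (hθε : 2 * θ * ε0 ≤ 1)
    (hℓ0 : 0 ≤ ℓ0) (hℓ : ℓ0 ≤ ℓ)
    (C2 : θ ≤ (1 - 2 * θ * ε0) * (s / 2))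
    (C3 : 0 ≤ (2 * θ - 1) * H + (1 - ε0) * c1 - θ * (1 + t + ℓ0)
      + (1 - 2 * θ * ε0) * ((s / 2) * (1 + ℓ0) + b * (2 - ε0))) :
    (1 - 2 * θ * ε) * (H - (s / 2) * (ε * (1 + ℓ)) - b * (2 * ε - ε ^ 2)) ≤
      (1 - ε) * (H + ε * c1 - θ * ε * (1 + t + ℓ)) := by
  have k1 : (1 - ε0) * c1 ≤ (1 - ε) * c1 := mul_le_mul_of_nonneg_right (by linarith) hc1
  have k2 : (1 - ε) * (θ * (1 + t + ℓ)) ≤ θ * (1 + t + ℓ) := by
    have : 0 ≤ ε * (θ * (1 + t + ℓ)) := by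
      apply mul_nonneg hε.le
      apply mul_nonneg hθ.le
      linarith
    linarith
  have k3 : (1 - 2 * θ * ε0) ≤ (1 - 2 * θ * ε) := by
    have := mul_le_mul_of_nonneg_left hεε (by positivity : 0 ≤ 2 * θ)
    linarith
  have k4 : 0 ≤ (s / 2) * (1 + ℓ) + b * (2 - ε) := by
    apply add_nonneg
    · apply mul_nonneg (by linarith) (by linarith)
    · apply mul_nonneg hb (by linarith)
  have k5 : (1 - 2 * θ * ε0) * ((s / 2) * (1 + ℓ) + b * (2 - ε0)) ≤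
      (1 - 2 * θ * ε) * ((s / 2) * (1 + ℓ) + b * (2 - ε)) := by
    have k6 : (s / 2) * (1 + ℓ) + b * (2 - ε0) ≤ (s / 2) * (1 + ℓ) + b * (2 - ε) := by
      have := mul_le_mul_of_nonneg_left hεε hb
      linarith
    exact mul_le_mul k3 k6 (by
      apply add_nonneg
      · apply mul_nonneg (by linarith) (by linarith)
      · apply mul_nonneg hb (by linarith)) (by linarith)
  have k7 : 0 ≤ ((1 - 2 * θ * ε0) * (s / 2) - θ) * (ℓ - ℓ0) :=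
    mul_nonneg (by linarith) (by linarith)
  have key : 0 ≤ (2 * θ - 1) * H + (1 - ε) * c1 - (1 - ε) * (θ * (1 + t + ℓ))
      + (1 - 2 * θ * ε) * ((s / 2) * (1 + ℓ) + b * (2 - ε)) := by
    have e1 : (1 - 2 * θ * ε0) * ((s / 2) * (1 + ℓ) + b * (2 - ε0)) - θ * (1 + t + ℓ) =
      (1 - 2 * θ * ε0) * ((s / 2) * (1 + ℓ0) + b * (2 - ε0)) - θ * (1 + t + ℓ0) +
      ((1 - 2 * θ * ε0) * (s / 2) - θ) * (ℓ - ℓ0) := by ring
    linarith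
  have key2 := mul_nonneg hε.le key
  have e2 : (1 - ε) * (H + ε * c1 - θ * ε * (1 + t + ℓ)) -
      (1 - 2 * θ * ε) * (H - (s / 2) * (ε * (1 + ℓ)) - b * (2 * ε - ε ^ 2)) =
      ε * ((2 * θ - 1) * H + (1 - ε) * c1 - (1 - ε) * (θ * (1 + t + ℓ))
      + (1 - 2 * θ * ε) * ((s / 2) * (1 + ℓ) + b * (2 - ε))) := by ring
  linarith

/-- arithmetic of (A1) in the corner. -/
lemma corner_arith1 {H Z θ ε ε0 : ℝ} (hH : 0 ≤ H) (hθ1 : θ ≤ 1 / 2) (hε : 0 < ε) (hεε : ε ≤ ε0)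
    (hε01 : ε0 < 1) (C1 : (1 - 2 * θ * ε0) * H ≤ (1 - ε0) * Z) :
    H * (1 - 2 * θ * ε) ≤ (1 - ε) * (H + ε * ((Z - H) / ε0)) := by
  have hε0 : 0 < ε0 := by linarith
  have c1 : ε0 * ((1 - 2 * θ) * H) ≤ (1 - ε0) * (Z - H) := by
    have : (1 - ε0) * (Z - H) - ε0 * ((1 - 2 * θ) * H) = (1 - ε0) * Z - (1 - 2 * θ * ε0) * H := by ring
    linarith
  have hc : (1 - 2 * θ) * H ≤ (1 - ε0) * ((Z - H) / ε0) := by
    rw [mul_div_assoc', le_div_iff₀ hε0]; linarith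
  have hc0 : 0 ≤ (Z - H) / ε0 := by
    have h1 : 0 ≤ (1 - 2 * θ) * H := mul_nonneg (by linarith) hH
    have h2 : 0 ≤ (1 - ε0) * ((Z - H) / ε0) := le_trans h1 hc
    exact nonneg_of_mul_nonneg_right h2 (by linarith)
  have hc2 : (1 - ε0) * ((Z - H) / ε0) ≤ (1 - ε) * ((Z - H) / ε0) :=
    mul_le_mul_of_nonneg_right (by linarith) hc0
  have hc3 := mul_nonneg hε.le (sub_nonneg.mpr (hc.trans hc2))
  have e1 : (1 - ε) * (H + ε * ((Z - H) / ε0)) - H * (1 - 2 * θ * ε) =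
    ε * ((1 - ε) * ((Z - H) / ε0) - (1 - 2 * θ) * H) := by ring
  linarith

lemma corner_range {ρ θ ε0 : ℝ} (h0 : 0 ≤ ρ) (h1 : ρ < 1) (hθ : 0 < θ) (hθ1 : θ ≤ 1 / 2)
    (hε0 : 0 < ε0) (hε1 : ε0 ≤ 1 / 2) :
    0 ≤ (1 - ρ) / 2 + ρ * θ * ε0 ∧ (1 - ρ) / 2 + ρ * θ * ε0 ≤ 1 := by
  constructor
  · have : 0 ≤ ρ * θ * ε0 := by positivity
    linarith
  · have : ρ * θ * ε0 ≤ 1 * (1 / 2) * (1 / 2) := by
      apply mul_le_mul _ hε1 hε0.le (by norm_num)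
      exact mul_le_mul h1.le hθ1 hθ.le (by norm_num)
    linarith

/-- (A1) in the corner. -/
lemma corner_A1 {ρL θ ε0 ε m : ℝ} (hL : 0 ≤ ρL) (hL1 : ρL < 1) (hθ : 0 < θ) (hθ1 : θ ≤ 1 / 2)
    (hε1 : ε0 ≤ 1 / 2) (hε : 0 < ε) (hεε : ε ≤ ε0) (hm : 0 ≤ m) (hm2 : m ≤ 1 / 2)
    (C1 : (1 - 2 * θ * ε0) * binEntropy ((1 - ρL) / 2) ≤
      (1 - ε0) * binEntropy ((1 - ρL) / 2 + ρL * θ * ε0)) :
    psi ρL m * (1 - 2 * θ * ε) ≤ (1 - ε) * binEntropy ((1 - ρL) / 2 + ρL * θ * ε) := by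
  have hε0 : 0 < ε0 := by linarith
  have hps : psi ρL m ≤ binEntropy ((1 - ρL) / 2) := by
    have := psi_mono hL hL1.le hm hm2 le_rfl
    rwa [psi_half] at this
  have hr := corner_range hL hL1 hθ hθ1 hε0 hε1
  have hch := h_chord (α := (1 - ρL) / 2) (κ := ρL * θ) (ε := ε) (ε0 := ε0) (by linarith) (by linarith)
    hr.1 hr.2 hε.le hε0 hεε
  have hA := mul_le_mul_of_nonneg_left hch (by linarith : 0 ≤ 1 - ε)
  refine le_trans ?_ hA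
  have h1 := corner_arith1 (binEntropy_nonneg (p := (1 - ρL) / 2) (by linarith) (by linarith)) hθ1 hε hεε
    (by linarith) C1
  refine le_trans ?_ h1
  apply mul_le_mul_of_nonneg_right hps
  have : 2 * θ * ε ≤ 1 * ε := mul_le_mul_of_nonneg_right (by linarith) hε.le
  linarith

lemma corner_hx {θ ε : ℝ} (hθ : 0 < θ) (hθ1 : θ ≤ 1 / 2) (hε : 0 < ε) (hε1 : ε ≤ 1 / 2) :
    binEntropy (θ * ε) ≤ θ * ε * (1 + (- log θ) + (- log ε)) := by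
  have hlt : θ * ε < 1 := by nlinarith
  have := h_le_x hlt
  rw [log_mul hθ.ne' hε.ne'] at this
  refine this.trans (le_of_eq ?_)
  ring

/-- the gap at `ρ = 0` in the corner. -/
lemma corner_G0 {ρH θ ε0 ε J : ℝ} (hθ : 0 < θ) (hθ1 : θ ≤ 1 / 2)
    (hε1 : ε0 ≤ 1 / 2) (hε : 0 < ε) (hεε : ε ≤ ε0)
    (C2 : θ ≤ (1 - 2 * θ * ε0) * ((1 - ρH ^ 2) / 2))
    (C4 : 0 ≤ (2 * θ - 1) * log 2 - θ * (1 - log θ - log ε0)
      + (1 - 2 * θ * ε0) * ((1 - log ε0) / 2))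
    (hJ2 : J ≤ log 2 - ε * (1 + (- log ε)) / 2) :
    J * (1 - 2 * θ * ε) ≤ (1 - ε) * (log 2 - binEntropy (θ * ε)) := by
  have hε0 : 0 < ε0 := by linarith
  have hθε0 : 2 * θ * ε0 ≤ 1 * ε0 := mul_le_mul_of_nonneg_right (by linarith) hε0.le
  have hθε : 2 * θ * ε ≤ 1 * ε := mul_le_mul_of_nonneg_right (by linarith) hε.le
  have hℓ : - log ε0 ≤ - log ε := by
    have := Real.log_le_log hε hεε
    linarith
  have hℓ0 : 0 ≤ - log ε0 := by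
    have := Real.log_nonpos hε0.le (by linarith)
    linarith
  have ht : 0 ≤ - log θ := by
    have := Real.log_nonpos hθ.le (by linarith)
    linarith
  have hhx := corner_hx hθ hθ1 hε (by linarith)
  have hC2' : θ ≤ (1 - 2 * θ * ε0) * (1 / 2) := by
    refine C2.trans ?_
    apply mul_le_mul_of_nonneg_left _ (by linarith)
    have := sq_nonneg ρH
    linarith
  have har := corner_arith (H := log 2) (c1 := 0) (θ := θ) (t := - log θ) (s := 1) (b := 0) (ε := ε)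
    (ε0 := ε0) (ℓ := - log ε) (ℓ0 := - log ε0) le_rfl hθ ht le_rfl zero_le_one hε hεε (by linarith)
    (by linarith) hℓ0 hℓ hC2' (by
      refine le_trans C4 (le_of_eq ?_)
      ring)
  have h1 := mul_le_mul_of_nonneg_right hJ2 (by linarith : 0 ≤ 1 - 2 * θ * ε)
  have h2 := mul_le_mul_of_nonneg_left hhx (by linarith : 0 ≤ 1 - ε)
  have e1 : (1 - 2 * θ * ε) * (log 2 - 1 / 2 * (ε * (1 + (- log ε))) - 0 * (2 * ε - ε ^ 2)) =
    (log 2 - ε * (1 + (- log ε)) / 2) * (1 - 2 * θ * ε) := by ring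
  have e2 : (1 - ε) * (log 2 + ε * 0 - θ * ε * (1 + (- log θ) + (- log ε))) =
    (1 - ε) * log 2 - (1 - ε) * (θ * ε * (1 + (- log θ) + (- log ε))) := by ring
  rw [e1, e2] at har
  rw [mul_sub]
  linarith

/-- (A2) in the corner. -/
lemma corner_A2 {ρH θ ε0 ε e J : ℝ} (hρH0 : 0 ≤ ρH) (hH : ρH < 1) (hθ : 0 < θ) (hθ1 : θ ≤ 1 / 2)
    (hε1 : ε0 ≤ 1 / 2) (hε : 0 < ε) (hεε : ε ≤ ε0) (h2e : 2 * e = 1 - ε)
    (C2 : θ ≤ (1 - 2 * θ * ε0) * ((1 - ρH ^ 2) / 2))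
    (C3 : 0 ≤ (2 * θ - 1) * binEntropy ((1 - ρH) / 2)
      + (1 - ε0) * ((binEntropy ((1 - ρH) / 2 + ρH * θ * ε0) - binEntropy ((1 - ρH) / 2)) / ε0)
      - θ * (1 - log θ - log ε0)
      + (1 - 2 * θ * ε0) * (((1 - ρH ^ 2) / 2) * (1 - log ε0) + bb ρH * (2 - ε0)))
    (C5 : binEntropy ((1 - ρH) / 2) ≤ binEntropy ((1 - ρH) / 2 + ρH * θ * ε0))
    (hJ2 : J ≤ log 2 - ε * (1 + (- log ε)) / 2) :
    ((1 - ρH ^ 2) * J + bb ρH * (4 * e ^ 2)) * (1 - 2 * θ * ε) ≤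
      (1 - ε) * (binEntropy ((1 - ρH) / 2 + ρH * θ * ε) - binEntropy (θ * ε)) := by
  have hε0 : 0 < ε0 := by linarith
  have hθε0 : 2 * θ * ε0 ≤ 1 * ε0 := mul_le_mul_of_nonneg_right (by linarith) hε0.le
  have hθε : 2 * θ * ε ≤ 1 * ε := mul_le_mul_of_nonneg_right (by linarith) hε.le
  have hℓ : - log ε0 ≤ - log ε := by
    have := Real.log_le_log hε hεε
    linarith
  have hℓ0 : 0 ≤ - log ε0 := by
    have := Real.log_nonpos hε0.le (by linarith)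
    linarith
  have ht : 0 ≤ - log θ := by
    have := Real.log_nonpos hθ.le (by linarith)
    linarith
  have hhx := corner_hx hθ hθ1 hε (by linarith)
  have hr := corner_range hρH0 hH hθ hθ1 hε0 hε1
  have hch := h_chord (α := (1 - ρH) / 2) (κ := ρH * θ) (ε := ε) (ε0 := ε0) (by linarith) (by linarith)
    hr.1 hr.2 hε.le hε0 hεε
  have hs0 : 0 ≤ 1 - ρH ^ 2 := by nlinarith
  have hb0 : 0 ≤ bb ρH := bb_nonneg hρH0 hH.le
  have hHe := bb_H ρH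
  obtain ⟨H, hHd⟩ : ∃ H, H = binEntropy ((1 - ρH) / 2) := ⟨_, rfl⟩
  obtain ⟨Z, hZ⟩ : ∃ Z, Z = binEntropy ((1 - ρH) / 2 + ρH * θ * ε0) := ⟨_, rfl⟩
  obtain ⟨s, hs⟩ : ∃ s, s = 1 - ρH ^ 2 := ⟨_, rfl⟩
  obtain ⟨b, hb⟩ : ∃ b, b = bb ρH := ⟨_, rfl⟩
  rw [← hHd, ← hZ, ← hs, ← hb] at C3
  rw [← hHd, ← hZ] at C5 hch
  rw [← hs, ← hb, ← hHd] at hHe
  rw [← hs] at C2 hs0
  rw [← hb] at hb0
  rw [← hs, ← hb]
  have hc0 : 0 ≤ (Z - H) / ε0 := div_nonneg (by linarith) hε0.le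
  have har := corner_arith (H := H) (c1 := (Z - H) / ε0) (θ := θ) (t := - log θ) (s := s) (b := b) (ε := ε)
    (ε0 := ε0) (ℓ := - log ε) (ℓ0 := - log ε0) hc0 hθ ht hb0 hs0 hε hεε (by linarith)
    (by linarith) hℓ0 hℓ C2 (by
      refine le_trans C3 (le_of_eq ?_)
      ring)
  have h1 : s * J + b * (4 * e ^ 2) ≤ H - (s / 2) * (ε * (1 + (- log ε))) - b * (2 * ε - ε ^ 2) := by
    have h3 := mul_le_mul_of_nonneg_left hJ2 hs0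
    have h4 : b * (4 * e ^ 2) = b * (1 - ε) ^ 2 := by rw [← h2e]; ring
    rw [h4]
    linarith
  have h2 := mul_le_mul_of_nonneg_right h1 (by linarith : 0 ≤ 1 - 2 * θ * ε)
  have h5 : H + ε * ((Z - H) / ε0) - θ * ε * (1 + (- log θ) + (- log ε)) ≤
    binEntropy ((1 - ρH) / 2 + ρH * θ * ε) - binEntropy (θ * ε) := by linarith
  have h6 := mul_le_mul_of_nonneg_left h5 (by linarith : 0 ≤ 1 - ε)
  refine h2.trans (le_trans ?_ h6)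
  rw [mul_comm]
  exact har

/-- **The corner.** -/
theorem corner {ρL ρH θ ε0 : ℝ} (hL : 0 ≤ ρL) (hH : ρH < 1) (hθ : 0 < θ) (hθ1 : θ ≤ 1 / 2)
    (hε0 : 0 < ε0) (hε1 : ε0 ≤ 1 / 2)
    (C1 : (1 - 2 * θ * ε0) * binEntropy ((1 - ρL) / 2) ≤
      (1 - ε0) * binEntropy ((1 - ρL) / 2 + ρL * θ * ε0))
    (C2 : θ ≤ (1 - 2 * θ * ε0) * ((1 - ρH ^ 2) / 2))
    (C3 : 0 ≤ (2 * θ - 1) * binEntropy ((1 - ρH) / 2)
      + (1 - ε0) * ((binEntropy ((1 - ρH) / 2 + ρH * θ * ε0) - binEntropy ((1 - ρH) / 2)) / ε0)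
      - θ * (1 - log θ - log ε0)
      + (1 - 2 * θ * ε0) * (((1 - ρH ^ 2) / 2) * (1 - log ε0) + bb ρH * (2 - ε0)))
    (C4 : 0 ≤ (2 * θ - 1) * log 2 - θ * (1 - log θ - log ε0)
      + (1 - 2 * θ * ε0) * ((1 - log ε0) / 2))
    (C5 : binEntropy ((1 - ρH) / 2) ≤ binEntropy ((1 - ρH) / 2 + ρH * θ * ε0))
    {ρ m e : ℝ} (hρ0 : 0 < ρ) (hρL : ρL ≤ ρ) (hρH : ρ ≤ ρH) (hem : e ≤ m) (hm2 : m ≤ 1 / 2)
    (he1 : 1 - ε0 ≤ 2 * e) (he2 : 2 * e < 1) : Good ρ m e := by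
  have he0 : 0 < e := by linarith
  have hρH0 : 0 ≤ ρH := by linarith
  have hL1 : ρL < 1 := by linarith
  obtain ⟨ε, hε⟩ : ∃ ε, ε = 1 - 2 * e := ⟨_, rfl⟩
  have hεp : 0 < ε := by rw [hε]; linarith
  have hεε : ε ≤ ε0 := by rw [hε]; linarith
  have h2e : 2 * e = 1 - ε := by rw [hε]; ring
  obtain ⟨w, hw⟩ : ∃ w, w = 1 - 2 * θ * ε := ⟨_, rfl⟩
  have hθε : 2 * θ * ε ≤ 1 * ε := mul_le_mul_of_nonneg_right (by linarith) hεp.le
  have hθε' : 0 < 2 * θ * ε := by positivity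
  have hw0 : 0 < w := by rw [hw]; linarith
  have hw1 : w < 1 := by rw [hw]; linarith
  have hzz : ∀ σ : ℝ, (1 - σ * w) / 2 = (1 - σ) / 2 + σ * θ * ε := by intro σ; rw [hw]; ring
  have hww : (1 - w) / 2 = θ * ε := by rw [hw]; ring
  have hXI := XI_eps hεp
  have hJ := J1_le_XI he0 hem hm2
  rw [← hε] at hJ
  have hJ2 : J1 m e ≤ log 2 - ε * (1 + (- log ε)) / 2 := by linarith
  apply good_of_S hρ0 (by linarith) hw0 hw1
  · -- A1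
    apply A1S_mono hL hρL (by linarith) he0.le hem hm2 hw0 hw1.le
    rw [hzz, h2e, div_mul_eq_mul_div, le_div_iff₀ hw0, hw]
    exact corner_A1 hL hL1 hθ hθ1 hε1 hεp hεε (by linarith) hm2 C1
  · -- A2
    apply A2S_down hρ0.le hρH hH he0 hw0 hw1.le
    · rw [h2e, div_mul_eq_mul_div, le_div_iff₀ hw0]
      have hkw : kap w = log 2 - binEntropy (θ * ε) := by unfold kap; rw [hww]
      rw [hkw, hw]
      exact corner_G0 hθ hθ1 hε1 hεp hεε C2 C4 hJ2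
    · rw [hzz, hww, h2e, div_mul_eq_mul_div, le_div_iff₀ hw0, GapJ_eq, hw]
      exact corner_A2 hρH0 hH hθ hθ1 hε1 hεp hεε h2e C2 C3 C5 hJ2

end P322
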