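import Vale.Agent.Lib.P322.Step

/-!
P322 (Courtade-Kumar): induction over the cube.
-/

namespace P322

open Real Set

/-- transition kernel of the channel on `{-1,1}^n`. -/
noncomputable def ker (ε : ℝ) {n : ℕ} (x y : Fin n → ℤˣ) : ℝ :=
  ∏ i, if x i = y i then 1 - ε else ε

/-- noise operator. -/
noncomputable def TT (ε : ℝ) {n : ℕ} (g : (Fin n → ℤˣ) → ℝ) (y : Fin n → ℤˣ) : ℝ :=
  ∑ x, ker ε x y * g x

lemma sum_units (F : ℤˣ → ℝ) : ∑ b, F b = F 1 + F (-1) := by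
  have h : (Finset.univ : Finset ℤˣ) = {1, -1} := by decide
  rw [h, Finset.sum_insert (by decide), Finset.sum_singleton]

lemma sum_cube_succ {n : ℕ} (F : (Fin (n + 1) → ℤˣ) → ℝ) :
    ∑ x, F x = ∑ x : Fin n → ℤˣ, (F (Fin.cons 1 x) + F (Fin.cons (-1) x)) := by
  rw [← (Fin.consEquiv (fun _ : Fin (n + 1) => ℤˣ)).sum_comp, Fintype.sum_prod_type, sum_units,
    ← Finset.sum_add_distrib]
  rfl

lemma ker_cons (ε : ℝ) {n : ℕ} (b c : ℤˣ) (x y : Fin n → ℤˣ) :
    ker ε (Fin.cons b x : Fin (n + 1) → ℤˣ) (Fin.cons c y) =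
      (if b = c then 1 - ε else ε) * ker ε x y := by
  unfold ker
  rw [Fin.prod_univ_succ]
  simp

lemma TT_cons (ε : ℝ) {n : ℕ} (g : (Fin (n + 1) → ℤˣ) → ℝ) (c : ℤˣ) (y : Fin n → ℤˣ) :
    TT ε g (Fin.cons c y) = (if (1 : ℤˣ) = c then 1 - ε else ε) * TT ε (fun x => g (Fin.cons 1 x)) y
      + (if (-1 : ℤˣ) = c then 1 - ε else ε) * TT ε (fun x => g (Fin.cons (-1) x)) y := by
  unfold TT
  rw [sum_cube_succ, Finset.mul_sum, Finset.mul_sum, ← Finset.sum_add_distrib]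
  apply Finset.sum_congr rfl
  intro x _
  rw [ker_cons, ker_cons]
  ring

lemma ker_nonneg {ε : ℝ} (h0 : 0 ≤ ε) (h1 : ε ≤ 1) {n : ℕ} (x y : Fin n → ℤˣ) : 0 ≤ ker ε x y := by
  unfold ker
  apply Finset.prod_nonneg
  intro i _
  split_ifs <;> linarith

lemma ker_comm (ε : ℝ) {n : ℕ} (x y : Fin n → ℤˣ) : ker ε x y = ker ε y x := by
  unfold ker
  apply Finset.prod_congr rfl
  intro i _
  simp only [eq_comm]

lemma sum_ker (ε : ℝ) {n : ℕ} (y : Fin n → ℤˣ) : ∑ x, ker ε x y = 1 := by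
  induction n with
  | zero => simp [ker]
  | succ n ih =>
    have hy : y = Fin.cons (y 0) (fun i => y i.succ) := by
      funext i; refine Fin.cases ?_ ?_ i <;> simp
    rw [hy, sum_cube_succ]
    have : ∀ x : Fin n → ℤˣ, ker ε (Fin.cons 1 x : Fin (n + 1) → ℤˣ) (Fin.cons (y 0) (fun i => y i.succ)) +
        ker ε (Fin.cons (-1) x : Fin (n + 1) → ℤˣ) (Fin.cons (y 0) (fun i => y i.succ)) = ker ε x (fun i => y i.succ) := by
      intro x
      rw [ker_cons, ker_cons]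
      rcases Int.units_eq_one_or (y 0) with h | h <;> rw [h] <;> simp <;> ring
    rw [Finset.sum_congr rfl (fun x _ => this x), ih]

lemma sum_ker' (ε : ℝ) {n : ℕ} (x : Fin n → ℤˣ) : ∑ y, ker ε x y = 1 := by
  rw [← sum_ker ε x]
  apply Finset.sum_congr rfl
  intro y _
  rw [ker_comm]

lemma TT_mem {ε : ℝ} (h0 : 0 ≤ ε) (h1 : ε ≤ 1) {n : ℕ} (g : (Fin n → ℤˣ) → ℝ)
    (hg : ∀ x, g x ∈ Icc (0 : ℝ) 1) (y : Fin n → ℤˣ) : TT ε g y ∈ Icc (0 : ℝ) 1 := by
  constructor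
  · exact Finset.sum_nonneg (fun x _ => mul_nonneg (ker_nonneg h0 h1 x y) (hg x).1)
  · rw [← sum_ker ε y]
    apply Finset.sum_le_sum
    intro x _
    have := mul_le_mul_of_nonneg_left (hg x).2 (ker_nonneg h0 h1 x y)
    linarith

lemma sum_TT (ε : ℝ) {n : ℕ} (g : (Fin n → ℤˣ) → ℝ) : ∑ y, TT ε g y = ∑ x, g x := by
  unfold TT
  rw [Finset.sum_comm]
  apply Finset.sum_congr rfl
  intro x _
  rw [← Finset.sum_mul, sum_ker', one_mul]

lemma psi_zero (ρ : ℝ) : psi ρ 0 = 0 := by unfold psi; simp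

lemma psi_one (ρ : ℝ) : psi ρ 1 = 0 := by unfold psi; simp

/-- **Main induction.** -/
theorem main_ind {ε : ℝ} (h0 : 0 < ε) (h1 : ε < 1 / 2) (hB : KeyB (1 - 2 * ε)) :
    ∀ (n : ℕ) (g : (Fin n → ℤˣ) → ℝ), (∀ x, g x = 0 ∨ g x = 1) →
      psi (1 - 2 * ε) ((∑ x, g x) / 2 ^ n) ≤ (∑ y, binEntropy (TT ε g y)) / 2 ^ n := by
  intro n
  induction n with
  | zero =>
    intro g hg
    have e1 : ∑ x, g x = g default := by
      rw [Fintype.sum_subsingleton _ default]
    have e2 : ∀ y, TT ε g y = g default := by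
      intro y
      unfold TT
      rw [Fintype.sum_subsingleton _ default]
      simp [ker]
    rw [e1]
    simp only [e2, pow_zero, div_one]
    rcases hg default with h | h <;> rw [h]
    · rw [psi_zero]; simp
    · rw [psi_one]; simp
  | succ n ih =>
    intro g hg
    set g0 : (Fin n → ℤˣ) → ℝ := fun x => g (Fin.cons 1 x) with hg0
    set g1 : (Fin n → ℤˣ) → ℝ := fun x => g (Fin.cons (-1) x) with hg1
    have ih0 := ih g0 (fun x => hg _)
    have ih1 := ih g1 (fun x => hg _)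
    have h2n : (0 : ℝ) < 2 ^ n := by positivity
    have hIcc : ∀ (k : ℕ) (g' : (Fin k → ℤˣ) → ℝ), (∀ x, g' x = 0 ∨ g' x = 1) →
        ∀ x, g' x ∈ Icc (0 : ℝ) 1 := by
      intro k g' hg' x
      rcases hg' x with h | h <;> rw [h] <;> constructor <;> norm_num
    have hcard : ((Finset.univ : Finset (Fin n → ℤˣ)).card : ℝ) = 2 ^ n := by
      rw [Finset.card_univ, Fintype.card_fun, Fintype.card_units_int, Fintype.card_fin]
      push_cast; ring
    have hst := step (ρ := 1 - 2 * ε) (by linarith) (by linarith) hB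
      (w := fun _ : Fin n → ℤˣ => 1 / 2 ^ n) (u := TT ε g0) (v := TT ε g1)
      (fun _ => by positivity)
      (by rw [Finset.sum_const, nsmul_eq_mul, hcard]; field_simp)
      (TT_mem h0.le (by linarith) g0 (hIcc n g0 (fun x => hg _)))
      (TT_mem h0.le (by linarith) g1 (hIcc n g1 (fun x => hg _)))
      (p0 := (∑ x, g0 x) / 2 ^ n) (p1 := (∑ x, g1 x) / 2 ^ n)
      (by rw [← Finset.mul_sum, sum_TT]; ring)
      (by rw [← Finset.mul_sum, sum_TT]; ring)
      (by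
        unfold EH
        rw [← Finset.mul_sum, ← Finset.sum_div, Finset.sum_add_distrib]
        have : 1 / 2 ^ n * ((∑ i, binEntropy (TT ε g0 i) + ∑ i, binEntropy (TT ε g1 i)) / 2) =
          ((∑ i, binEntropy (TT ε g0 i)) / 2 ^ n + (∑ i, binEntropy (TT ε g1 i)) / 2 ^ n) / 2 := by
          field_simp
        rw [this]
        linarith)
    have e1 : (∑ x, g x) / 2 ^ (n + 1) = ((∑ x, g0 x) / 2 ^ n + (∑ x, g1 x) / 2 ^ n) / 2 := by
      rw [sum_cube_succ, Finset.sum_add_distrib, pow_succ]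
      simp only [hg0, hg1]
      field_simp
    rw [e1]
    refine le_trans hst (le_of_eq ?_)
    unfold EG
    rw [sum_cube_succ, ← Finset.mul_sum, ← Finset.sum_div, pow_succ]
    have e2 : ∀ y : Fin n → ℤˣ, binEntropy (TT ε g (Fin.cons 1 y)) + binEntropy (TT ε g (Fin.cons (-1) y)) =
        binEntropy ((TT ε g0 y + TT ε g1 y) / 2 - (1 - 2 * ε) * ((TT ε g1 y - TT ε g0 y) / 2)) +
        binEntropy ((TT ε g0 y + TT ε g1 y) / 2 + (1 - 2 * ε) * ((TT ε g1 y - TT ε g0 y) / 2)) := by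
      intro y
      rw [TT_cons, TT_cons]
      have a1 : ((1 : ℤˣ) = -1) = False := by simp
      have a2 : ((-1 : ℤˣ) = 1) = False := by simp
      simp only [a1, a2, if_true, if_false]
      congr 2 <;> (simp only [hg0, hg1]; ring)
    rw [Finset.sum_congr rfl (fun y _ => e2 y)]
    field_simp

end P322
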