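import Mathlib

/-!
P322 (Courtade-Kumar): a small verified fixed-point evaluator (scale `2^40`, nonnegative
intervals) whose checks can be run by the kernel (`decide +kernel`).
-/

namespace P322

open Real

/-! Partial sums of `∑ y^j/(2(k+j)+1)`. -/

noncomputable def PS (y : ℝ) : ℕ → ℕ → ℝ
  | 0, _ => 0
  | n + 1, k => 1 / (2 * (k : ℝ) + 1) + y * PS y n (k + 1)

noncomputable def QS (y : ℝ) : ℕ → ℕ → ℝ
  | 0, k => 9 / 8 / (2 * (k : ℝ) + 1)
  | n + 1, k => 1 / (2 * (k : ℝ) + 1) + y * QS y n (k + 1)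

lemma PS_eq (y : ℝ) (n : ℕ) : ∀ k, PS y n k = ∑ j ∈ Finset.range n, y ^ j / (2 * ((k + j : ℕ) : ℝ) + 1) := by
  induction n with
  | zero => intro k; simp [PS]
  | succ n ih =>
    intro k
    rw [PS, ih, Finset.sum_range_succ', Finset.mul_sum, add_comm]
    have e : ∀ j ∈ Finset.range n, y * (y ^ j / (2 * ((k + 1 + j : ℕ) : ℝ) + 1)) =
        y ^ (j + 1) / (2 * ((k + (j + 1) : ℕ) : ℝ) + 1) := by
      intro j _
      rw [pow_succ]
      have : k + 1 + j = k + (j + 1) := by ring
      rw [this]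
      ring
    rw [Finset.sum_congr rfl e]
    simp

lemma QS_eq (y : ℝ) (n : ℕ) : ∀ k, QS y n k = PS y n k + y ^ n * (9 / 8 / (2 * ((k + n : ℕ) : ℝ) + 1)) := by
  induction n with
  | zero => intro k; simp [QS, PS]
  | succ n ih =>
    intro k
    rw [QS, PS, ih]
    have : k + 1 + n = k + (n + 1) := by ring
    rw [this, pow_succ]
    ring

lemma two_mul_PS_le {z : ℝ} (h0 : 0 ≤ z) (h1 : z < 1) (n : ℕ) :
    2 * z * PS (z ^ 2) n 0 ≤ log (1 + z) - log (1 - z) := by
  have h := Real.hasSum_log_sub_log_of_abs_lt_one (x := z) (by rw [abs_of_nonneg h0]; exact h1)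
  have h2 := sum_le_hasSum (Finset.range n) (fun i _ => by positivity) h
  refine le_trans (le_of_eq ?_) h2
  rw [PS_eq, Finset.mul_sum]
  apply Finset.sum_congr rfl
  intro j _
  rw [zero_add, pow_add, pow_mul, pow_one]
  ring

lemma le_two_mul_QS {z : ℝ} (h0 : 0 ≤ z) (h1 : z ≤ 1 / 3) (n : ℕ) :
    log (1 + z) - log (1 - z) ≤ 2 * z * QS (z ^ 2) n 0 := by
  have h := Real.hasSum_log_sub_log_of_abs_lt_one (x := z) (by rw [abs_of_nonneg h0]; linarith)
  have h2 := (hasSum_nat_add_iff' n).mpr h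
  have hz2 : z ^ 2 < 1 := by nlinarith
  have hz9 : z ^ 2 ≤ 1 / 9 := by nlinarith
  have h3 := (hasSum_geometric_of_lt_one (sq_nonneg z) hz2).mul_left (2 * z ^ (2 * n + 1) / (2 * (n : ℝ) + 1))
  have h4 := hasSum_le (fun k => ?_) h2 h3
  · have h5 : ∑ i ∈ Finset.range n, (2 : ℝ) * (1 / (2 * (i : ℝ) + 1)) * z ^ (2 * i + 1) = 2 * z * PS (z ^ 2) n 0 := by
      rw [PS_eq, Finset.mul_sum]
      apply Finset.sum_congr rfl
      intro j _
      rw [zero_add, pow_add, pow_mul, pow_one]
      ring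
    rw [h5] at h4
    rw [QS_eq]
    have h6 : (1 - z ^ 2)⁻¹ ≤ 9 / 8 := by
      rw [inv_le_comm₀ (by linarith) (by norm_num)]
      norm_num
      linarith
    have h7 : 2 * z ^ (2 * n + 1) / (2 * (n : ℝ) + 1) * (1 - z ^ 2)⁻¹ ≤
        2 * z * ((z ^ 2) ^ n * (9 / 8 / (2 * ((0 + n : ℕ) : ℝ) + 1))) := by
      calc 2 * z ^ (2 * n + 1) / (2 * (n : ℝ) + 1) * (1 - z ^ 2)⁻¹ ≤
          2 * z ^ (2 * n + 1) / (2 * (n : ℝ) + 1) * (9 / 8) :=
            mul_le_mul_of_nonneg_left h6 (by positivity)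
        _ = _ := by rw [zero_add, pow_add, pow_mul, pow_one]; ring
    nlinarith
  · -- termwise
    have e1 : z ^ (2 * (k + n) + 1) = z ^ (2 * n + 1) * (z ^ 2) ^ k := by
      rw [← pow_mul, ← pow_add]; congr 1; ring
    rw [e1]
    have hk : (2 * (n : ℝ) + 1) ≤ 2 * ((k + n : ℕ) : ℝ) + 1 := by push_cast; linarith [Nat.cast_nonneg (α := ℝ) k]
    have e2 : (1 : ℝ) / (2 * ((k + n : ℕ) : ℝ) + 1) ≤ 1 / (2 * (n : ℝ) + 1) :=
      one_div_le_one_div_of_le (by positivity) hk
    calc (2 : ℝ) * (1 / (2 * ((k + n : ℕ) : ℝ) + 1)) * (z ^ (2 * n + 1) * (z ^ 2) ^ k)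
        ≤ 2 * (1 / (2 * (n : ℝ) + 1)) * (z ^ (2 * n + 1) * (z ^ 2) ^ k) := by
          apply mul_le_mul_of_nonneg_right _ (by positivity)
          linarith
      _ = 2 * z ^ (2 * n + 1) / (2 * (n : ℝ) + 1) * (z ^ 2) ^ k := by ring

/-! Fixed point, scale `2^40 = 1099511627776`. -/

/-- Horner, lower. -/
def horLo (z2 : ℕ) : ℕ → ℕ → ℕ
  | 0, _ => 0
  | n + 1, k => 1099511627776 / (2 * k + 1) + z2 * horLo z2 n (k + 1) / 1099511627776

/-- Horner, upper. -/
def horHi (z2 : ℕ) : ℕ → ℕ → ℕ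
  | 0, k => 1236950581248 / (2 * k + 1) + 1
  | n + 1, k => 1099511627776 / (2 * k + 1) + 2 + z2 * horHi z2 n (k + 1) / 1099511627776

lemma div_le_cast (a b : ℕ) : ((a / b : ℕ) : ℝ) ≤ (a : ℝ) / b := Nat.cast_div_le

lemma cast_le_div_add_one (a b : ℕ) (hb : 0 < b) : (a : ℝ) / b ≤ ((a / b : ℕ) : ℝ) + 1 := by
  rw [div_le_iff₀ (by exact_mod_cast hb)]
  have h := Nat.lt_div_mul_add (a := a) hb
  have : (a : ℝ) < ((a / b : ℕ) : ℝ) * b + b := by exact_mod_cast h
  linarith

lemma horLo_le {z2 : ℕ} {y : ℝ} (hy : (z2 : ℝ) / 1099511627776 ≤ y) (n : ℕ) :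
    ∀ k, (horLo z2 n k : ℝ) / 1099511627776 ≤ PS y n k := by
  have hy0 : 0 ≤ y := le_trans (by positivity) hy
  induction n with
  | zero => intro k; simp [horLo, PS]
  | succ n ih =>
    intro k
    rw [horLo, PS]
    have h1 := div_le_cast 1099511627776 (2 * k + 1)
    have h2 := div_le_cast (z2 * horLo z2 n (k + 1)) 1099511627776
    have h3 : ((1099511627776 / (2 * k + 1) : ℕ) : ℝ) / 1099511627776 ≤ 1 / (2 * (k : ℝ) + 1) := by
      rw [div_le_iff₀ (by norm_num)]
      calc ((1099511627776 / (2 * k + 1) : ℕ) : ℝ) ≤ _ := h1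
        _ = 1 / (2 * (k : ℝ) + 1) * 1099511627776 := by push_cast; ring
    have h4 : ((z2 * horLo z2 n (k + 1) / 1099511627776 : ℕ) : ℝ) / 1099511627776 ≤ y * PS y n (k + 1) := by
      calc ((z2 * horLo z2 n (k + 1) / 1099511627776 : ℕ) : ℝ) / 1099511627776
          ≤ (((z2 * horLo z2 n (k + 1) : ℕ) : ℝ) / ((1099511627776 : ℕ) : ℝ)) / 1099511627776 := by
            apply div_le_div_of_nonneg_right h2 (by norm_num)
        _ = ((z2 : ℝ) / 1099511627776) * ((horLo z2 n (k + 1) : ℝ) / 1099511627776) := by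
            push_cast; ring
        _ ≤ y * PS y n (k + 1) := mul_le_mul hy (ih (k + 1)) (by positivity) hy0
    push_cast at h3 h4 ⊢
    rw [add_div]
    linarith

lemma le_horHi {z2 : ℕ} {y : ℝ} (hy0 : 0 ≤ y) (hy : y ≤ (z2 : ℝ) / 1099511627776) (n : ℕ) :
    ∀ k, QS y n k ≤ (horHi z2 n k : ℝ) / 1099511627776 := by
  induction n with
  | zero =>
    intro k
    rw [horHi, QS]
    have h1 := cast_le_div_add_one 1236950581248 (2 * k + 1) (by omega)
    rw [le_div_iff₀ (by norm_num)]
    push_cast at h1 ⊢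
    calc 9 / 8 / (2 * (k : ℝ) + 1) * 1099511627776 = 1236950581248 / (2 * (k : ℝ) + 1) := by ring
      _ ≤ _ := h1
  | succ n ih =>
    intro k
    rw [horHi, QS]
    have h1 := cast_le_div_add_one 1099511627776 (2 * k + 1) (by omega)
    have h2 := cast_le_div_add_one (z2 * horHi z2 n (k + 1)) 1099511627776 (by norm_num)
    have h3 : y * QS y n (k + 1) ≤ ((z2 : ℝ) / 1099511627776) * ((horHi z2 n (k + 1) : ℝ) / 1099511627776) := by
      apply mul_le_mul hy (ih (k + 1)) _ (by positivity)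
      have : ∀ n k, 0 ≤ QS y n k := by
        intro n
        induction n with
        | zero => intro k; rw [QS]; positivity
        | succ n ih => intro k; rw [QS]; have := ih (k + 1); positivity
      exact this n (k + 1)
    rw [le_div_iff₀ (by norm_num)]
    push_cast at h1 h2 ⊢
    have h4 : ((z2 : ℝ) / 1099511627776) * ((horHi z2 n (k + 1) : ℝ) / 1099511627776) * 1099511627776 =
      (z2 : ℝ) * (horHi z2 n (k + 1) : ℝ) / 1099511627776 := by ring
    have h5 : 1 / (2 * (k : ℝ) + 1) * 1099511627776 = 1099511627776 / (2 * (k : ℝ) + 1) := by ring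
    have h6 := mul_le_mul_of_nonneg_right h3 (by norm_num : (0 : ℝ) ≤ 1099511627776)
    rw [h4] at h6
    rw [add_mul, h5]
    linarith

/-- lower bound for `2^40 * log (n / 2^(log2 n))`. -/
def serLo (n : ℕ) : ℕ :=
  let p := 2 ^ Nat.log2 n
  let z := (n - p) * 1099511627776 / (n + p)
  2 * (z * horLo (z * z / 1099511627776) 11 0 / 1099511627776)

/-- upper bound for `2^40 * log (n / 2^(log2 n))`. -/
def serHi (n : ℕ) : ℕ :=
  let p := 2 ^ Nat.log2 n
  let z := (n - p) * 1099511627776 / (n + p) + 1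
  2 * (z * horHi (z * z / 1099511627776 + 1) 11 0 / 1099511627776 + 1)

lemma log_ratio {n : ℕ} (hn : 0 < n) :
    ∃ z : ℝ, 0 ≤ z ∧ z ≤ 1 / 3 ∧ z = ((n - 2 ^ Nat.log2 n : ℕ) : ℝ) / ((n + 2 ^ Nat.log2 n : ℕ) : ℝ) ∧
      log (1 + z) - log (1 - z) = log n - Nat.log2 n * log 2 := by
  have h1 : 2 ^ Nat.log2 n ≤ n := Nat.log2_self_le hn.ne'
  have h2 : n < 2 ^ (Nat.log2 n + 1) := Nat.lt_log2_self
  set p := 2 ^ Nat.log2 n with hp
  have hp0 : 0 < p := by positivity
  have hnR : (0 : ℝ) < n := by exact_mod_cast hn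
  have hpR : (0 : ℝ) < p := by exact_mod_cast hp0
  have h1R : (p : ℝ) ≤ n := by exact_mod_cast h1
  have h2R : (n : ℝ) < 2 * p := by
    have : n < 2 * p := by rw [pow_succ] at h2; omega
    exact_mod_cast this
  refine ⟨((n - p : ℕ) : ℝ) / ((n + p : ℕ) : ℝ), by positivity, ?_, rfl, ?_⟩
  · rw [Nat.cast_sub h1]
    push_cast
    rw [div_le_div_iff₀ (by positivity) (by norm_num)]
    linarith
  · rw [Nat.cast_sub h1]
    push_cast
    have e1 : 1 + ((n : ℝ) - p) / (n + p) = 2 * n / (n + p) := by field_simp; ring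
    have e2 : 1 - ((n : ℝ) - p) / (n + p) = 2 * p / (n + p) := by field_simp; ring
    rw [e1, e2, log_div (by positivity) (by positivity), log_div (by positivity) (by positivity),
      log_mul (by norm_num) hnR.ne', log_mul (by norm_num) hpR.ne']
    have : log (p : ℝ) = Nat.log2 n * log 2 := by
      rw [hp]; push_cast; rw [log_pow]
    rw [this]; ring

lemma serLo_le {n : ℕ} (hn : 0 < n) :
    (serLo n : ℝ) / 1099511627776 ≤ log n - Nat.log2 n * log 2 := by
  obtain ⟨z, hz0, hz1, hz, hlog⟩ := log_ratio hn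
  rw [← hlog]
  refine le_trans ?_ (two_mul_PS_le hz0 (by linarith) 11)
  unfold serLo
  set p := 2 ^ Nat.log2 n
  simp only
  set zz := (n - p) * 1099511627776 / (n + p) with hzz
  have h1 : (zz : ℝ) / 1099511627776 ≤ z := by
    have := div_le_cast ((n - p) * 1099511627776) (n + p)
    rw [← hzz] at this
    rw [div_le_iff₀ (by norm_num), hz]
    refine le_trans this (le_of_eq ?_)
    push_cast; ring
  have h2 : ((zz * zz / 1099511627776 : ℕ) : ℝ) / 1099511627776 ≤ z ^ 2 := by
    have := div_le_cast (zz * zz) 1099511627776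
    calc ((zz * zz / 1099511627776 : ℕ) : ℝ) / 1099511627776 ≤
        (((zz * zz : ℕ) : ℝ) / ((1099511627776 : ℕ) : ℝ)) / 1099511627776 :=
          div_le_div_of_nonneg_right this (by norm_num)
      _ = ((zz : ℝ) / 1099511627776) ^ 2 := by push_cast; ring
      _ ≤ z ^ 2 := pow_le_pow_left₀ (by positivity) h1 2
  have h3 := horLo_le h2 11 0
  set hh := horLo (zz * zz / 1099511627776) 11 0
  have h4 := div_le_cast (zz * hh) 1099511627776
  have h5 : ((zz : ℝ) / 1099511627776) * ((hh : ℝ) / 1099511627776) ≤ z * PS (z ^ 2) 11 0 :=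
    mul_le_mul h1 h3 (by positivity) hz0
  push_cast at h4 ⊢
  calc 2 * ((zz * hh / 1099511627776 : ℕ) : ℝ) / 1099511627776 ≤
      2 * ((zz : ℝ) * hh / 1099511627776) / 1099511627776 := by
        apply div_le_div_of_nonneg_right _ (by norm_num)
        linarith
    _ = 2 * (((zz : ℝ) / 1099511627776) * ((hh : ℝ) / 1099511627776)) := by ring
    _ ≤ 2 * z * PS (z ^ 2) 11 0 := by linarith

lemma le_serHi {n : ℕ} (hn : 0 < n) :
    log n - Nat.log2 n * log 2 ≤ (serHi n : ℝ) / 1099511627776 := by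
  obtain ⟨z, hz0, hz1, hz, hlog⟩ := log_ratio hn
  rw [← hlog]
  refine le_trans (le_two_mul_QS hz0 hz1 11) ?_
  unfold serHi
  set p := 2 ^ Nat.log2 n
  simp only
  set zz := (n - p) * 1099511627776 / (n + p) + 1 with hzz
  have hnp : 0 < n + p := Nat.add_pos_left hn p
  have h1 : z ≤ (zz : ℝ) / 1099511627776 := by
    have := cast_le_div_add_one ((n - p) * 1099511627776) (n + p) hnp
    rw [le_div_iff₀ (by norm_num), hz, hzz]
    push_cast at this ⊢
    refine le_trans (le_of_eq ?_) this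
    ring
  have h2 : z ^ 2 ≤ ((zz * zz / 1099511627776 + 1 : ℕ) : ℝ) / 1099511627776 := by
    have := cast_le_div_add_one (zz * zz) 1099511627776 (by norm_num)
    calc z ^ 2 ≤ ((zz : ℝ) / 1099511627776) ^ 2 := pow_le_pow_left₀ hz0 h1 2
      _ = (((zz * zz : ℕ) : ℝ) / ((1099511627776 : ℕ) : ℝ)) / 1099511627776 := by push_cast; ring
      _ ≤ _ := by
        apply div_le_div_of_nonneg_right _ (by norm_num)
        push_cast at this ⊢
        exact this
  have h3 := le_horHi (sq_nonneg z) h2 11 0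
  set hh := horHi (zz * zz / 1099511627776 + 1) 11 0
  have h4 := cast_le_div_add_one (zz * hh) 1099511627776 (by norm_num)
  have hQ0 : 0 ≤ QS (z ^ 2) 11 0 := by
    have : ∀ n k, 0 ≤ QS (z ^ 2) n k := by
      intro n
      induction n with
      | zero => intro k; rw [QS]; positivity
      | succ n ih => intro k; rw [QS]; have := ih (k + 1); positivity
    exact this 11 0
  have h5 : z * QS (z ^ 2) 11 0 ≤ ((zz : ℝ) / 1099511627776) * ((hh : ℝ) / 1099511627776) :=
    mul_le_mul h1 h3 hQ0 (by positivity)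
  push_cast at h4 ⊢
  calc 2 * z * QS (z ^ 2) 11 0 = 2 * (z * QS (z ^ 2) 11 0) := by ring
    _ ≤ 2 * (((zz : ℝ) / 1099511627776) * ((hh : ℝ) / 1099511627776)) := by linarith
    _ = 2 * ((zz : ℝ) * hh / 1099511627776) / 1099511627776 := by ring
    _ ≤ 2 * (((zz * hh / 1099511627776 : ℕ) : ℝ) + 1) / 1099511627776 := by
        apply div_le_div_of_nonneg_right _ (by norm_num)
        linarith

/-- `log 2` bounds at scale `2^40`. -/
lemma log2_bounds : (762123384784 : ℝ) / 1099511627776 ≤ log 2 ∧ log 2 ≤ 762123384788 / 1099511627776 := by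
  have hl : log 2 = log (1 + 1 / 3) - log (1 - 1 / 3) := by
    have e1 : (1 : ℝ) + 1 / 3 = 2 * (2 / 3) := by norm_num
    have e2 : (1 : ℝ) - 1 / 3 = 2 / 3 := by norm_num
    rw [e1, e2, log_mul (by norm_num) (by norm_num)]; ring
  constructor
  · rw [hl]
    refine le_trans ?_ (two_mul_PS_le (z := 1 / 3) (by norm_num) (by norm_num) 11)
    have h := horLo_le (z2 := 122167958641) (y := (1 / 3) ^ 2) (by norm_num) 11 0
    have e : horLo 122167958641 11 0 = 1143185077176 := by decide +kernel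
    rw [e] at h
    norm_num at h ⊢
    linarith
  · rw [hl]
    refine le_trans (le_two_mul_QS (z := 1 / 3) (by norm_num) (by norm_num) 11) ?_
    have h := le_horHi (z2 := 122167958642) (y := (1 / 3) ^ 2) (by norm_num) (by norm_num) 11 0
    have e : horHi 122167958642 11 0 = 1143185077180 := by decide +kernel
    rw [e] at h
    norm_num at h ⊢
    linarith

/-! Intervals and expressions -/

/-- `x` is enclosed by the pair `I` at scale `2^40`. -/
def Enc (x : ℝ) (I : ℕ × ℕ) : Prop := (I.1 : ℝ) / 1099511627776 ≤ x ∧ x ≤ (I.2 : ℝ) / 1099511627776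

/-- Expressions; all subexpressions must be nonnegative for the evaluator to succeed. -/
inductive Ex where
  | v (i : ℕ)
  | c (a b : ℕ)
  | add (x y : Ex)
  | sub (x y : Ex)
  | mul (x y : Ex)
  | div (x y : Ex)
  | lg (x : Ex)
  | nlg (x : Ex)
  | lt (x y : Ex)

/-- real value; `lt x y` is a local definition (`y` sees the value of `x` as variable `0`). -/
noncomputable def Ex.val : Ex → List ℝ → ℝ
  | .v i, e => e.getD i 0
  | .c a b, _ => (a : ℝ) / b
  | .add x y, e => x.val e + y.val e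
  | .sub x y, e => x.val e - y.val e
  | .mul x y, e => x.val e * y.val e
  | .div x y, e => x.val e / y.val e
  | .lg x, e => log (x.val e)
  | .nlg x, e => - log (x.val e)
  | .lt x y, e => y.val (x.val e :: e)

def addI (x y : ℕ × ℕ) : Option (ℕ × ℕ) := some (x.1 + y.1, x.2 + y.2)

def subI (x y : ℕ × ℕ) : Option (ℕ × ℕ) :=
  bif Nat.ble y.2 x.1 then some (x.1 - y.2, x.2 - y.1) else none

def mulI (x y : ℕ × ℕ) : Option (ℕ × ℕ) :=
  some (x.1 * y.1 / 1099511627776, x.2 * y.2 / 1099511627776 + 1)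

def divI (x y : ℕ × ℕ) : Option (ℕ × ℕ) :=
  bif Nat.ble 1 y.1 then some (x.1 * 1099511627776 / y.2, x.2 * 1099511627776 / y.1 + 1) else none

/-- lower bound of `2^40 log (n / 2^40)` for `n ≥ 2^40`. -/
def lnLo (n : ℕ) : ℕ := (Nat.log2 n - 40) * 762123384784 + serLo n

def lnHi (n : ℕ) : ℕ := (Nat.log2 n - 40) * 762123384788 + serHi n

/-- lower bound of `- 2^40 log (n / 2^40)` for `0 < n < 2^40` (truncated at 0). -/
def nlnLo (n : ℕ) : ℕ := (40 - Nat.log2 n) * 762123384784 - serHi n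

def nlnHi (n : ℕ) : ℕ := (40 - Nat.log2 n) * 762123384788 - serLo n

def lgI (x : ℕ × ℕ) : Option (ℕ × ℕ) :=
  bif Nat.ble 1099511627776 x.1 then some (lnLo x.1, lnHi x.2) else none

def nlgI (x : ℕ × ℕ) : Option (ℕ × ℕ) :=
  bif Nat.ble 1 x.1 && Nat.ble x.2 1099511627776 then some (nlnLo x.2, nlnHi x.1) else none

def bind2 (f : ℕ × ℕ → ℕ × ℕ → Option (ℕ × ℕ)) : Option (ℕ × ℕ) → Option (ℕ × ℕ) → Option (ℕ × ℕ)
  | some x, some y => f x y
  | _, _ => none

def bind1 (f : ℕ × ℕ → Option (ℕ × ℕ)) : Option (ℕ × ℕ) → Option (ℕ × ℕ)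
  | some x => f x
  | none => none

/-- interval evaluator. -/
def Ex.iv : Ex → List (ℕ × ℕ) → Option (ℕ × ℕ)
  | .v i, e => some (e.getD i (0, 0))
  | .c a b, _ => bif Nat.ble 1 b then
      some (a * 1099511627776 / b, a * 1099511627776 / b + 1) else none
  | .add x y, e => bind2 addI (x.iv e) (y.iv e)
  | .sub x y, e => bind2 subI (x.iv e) (y.iv e)
  | .mul x y, e => bind2 mulI (x.iv e) (y.iv e)
  | .div x y, e => bind2 divI (x.iv e) (y.iv e)
  | .lg x, e => bind1 lgI (x.iv e)
  | .nlg x, e => bind1 nlgI (x.iv e)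
  | .lt x y, e => match x.iv e with
    | some I => y.iv (I :: e)
    | none => none

lemma Enc.nonneg {x : ℝ} {I : ℕ × ℕ} (h : Enc x I) : 0 ≤ x := le_trans (by positivity) h.1

lemma enc_add {x y : ℝ} {I J K : ℕ × ℕ} (hx : Enc x I) (hy : Enc y J) (h : addI I J = some K) :
    Enc (x + y) K := by
  simp only [addI, Option.some.injEq] at h
  subst h
  refine ⟨?_, ?_⟩
  · push_cast; rw [add_div]; exact add_le_add hx.1 hy.1
  · push_cast; rw [add_div]; exact add_le_add hx.2 hy.2

lemma enc_sub {x y : ℝ} {I J K : ℕ × ℕ} (hx : Enc x I) (hy : Enc y J) (h : subI I J = some K) :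
    Enc (x - y) K ∧ 0 ≤ x - y := by
  unfold subI at h
  by_cases hb : Nat.ble J.2 I.1 = true
  · rw [hb] at h
    simp only [cond_true, Option.some.injEq] at h
    subst h
    have hle : J.2 ≤ I.1 := Nat.le_of_ble_eq_true hb
    have e1 : ((I.1 - J.2 : ℕ) : ℝ) = (I.1 : ℝ) - J.2 := Nat.cast_sub hle
    have h12 : (J.1 : ℝ) / 1099511627776 ≤ (J.2 : ℝ) / 1099511627776 := le_trans hy.1 hy.2
    have h12' : (J.1 : ℝ) ≤ J.2 := by
      have := (div_le_div_iff_of_pos_right (by norm_num : (0:ℝ) < 1099511627776)).mp h12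
      exact this
    have h34 : (I.1 : ℝ) / 1099511627776 ≤ (I.2 : ℝ) / 1099511627776 := le_trans hx.1 hx.2
    have h34' : (I.1 : ℝ) ≤ I.2 := by
      have := (div_le_div_iff_of_pos_right (by norm_num : (0:ℝ) < 1099511627776)).mp h34
      exact this
    have hleR : (J.2 : ℝ) ≤ I.1 := by exact_mod_cast hle
    have hle2 : J.1 ≤ I.2 := by
      have : (J.1 : ℝ) ≤ I.2 := by linarith
      exact_mod_cast this
    have e2 : ((I.2 - J.1 : ℕ) : ℝ) = (I.2 : ℝ) - J.1 := Nat.cast_sub hle2
    refine ⟨⟨?_, ?_⟩, ?_⟩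
    · simp only; rw [e1, sub_div]; linarith [hx.1, hy.2]
    · simp only; rw [e2, sub_div]; linarith [hx.2, hy.1]
    · have : (J.2 : ℝ) / 1099511627776 ≤ (I.1 : ℝ) / 1099511627776 :=
        div_le_div_of_nonneg_right hleR (by norm_num)
      linarith [hx.1, hy.2]
  · have hb' : Nat.ble J.2 I.1 = false := Bool.eq_false_iff.mpr hb
    rw [hb'] at h
    simp at h

lemma enc_mul {x y : ℝ} {I J K : ℕ × ℕ} (hx : Enc x I) (hy : Enc y J) (h : mulI I J = some K) :
    Enc (x * y) K := by
  simp only [mulI, Option.some.injEq] at h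
  subst h
  have hx0 := hx.nonneg
  have hy0 := hy.nonneg
  refine ⟨?_, ?_⟩
  · have h1 := div_le_cast (I.1 * J.1) 1099511627776
    have h2 : ((I.1 : ℝ) / 1099511627776) * ((J.1 : ℝ) / 1099511627776) ≤ x * y :=
      mul_le_mul hx.1 hy.1 (by positivity) hx0
    refine le_trans ?_ h2
    simp only
    rw [div_le_iff₀ (by norm_num)]
    refine le_trans h1 (le_of_eq ?_)
    push_cast; ring
  · have h1 := cast_le_div_add_one (I.2 * J.2) 1099511627776 (by norm_num)
    have h2 : x * y ≤ ((I.2 : ℝ) / 1099511627776) * ((J.2 : ℝ) / 1099511627776) :=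
      mul_le_mul hx.2 hy.2 hy0 (le_trans hx0 hx.2)
    refine le_trans h2 ?_
    simp only
    rw [le_div_iff₀ (by norm_num)]
    push_cast at h1 ⊢
    refine le_trans (le_of_eq ?_) h1
    ring

lemma enc_div {x y : ℝ} {I J K : ℕ × ℕ} (hx : Enc x I) (hy : Enc y J) (h : divI I J = some K) :
    Enc (x / y) K := by
  unfold divI at h
  by_cases hb : Nat.ble 1 J.1 = true
  · rw [hb] at h
    simp only [cond_true, Option.some.injEq] at h
    subst h
    have hJ : 1 ≤ J.1 := Nat.le_of_ble_eq_true hb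
    have hJR : (1 : ℝ) ≤ J.1 := by exact_mod_cast hJ
    have hx0 := hx.nonneg
    have hy1 : 0 < y := lt_of_lt_of_le (by positivity) hy.1
    have hJ2 : (0 : ℝ) < J.2 := by
      have : 0 < (J.2 : ℝ) / 1099511627776 := lt_of_lt_of_le hy1 hy.2
      by_contra hcon
      push Not at hcon
      have := div_nonpos_of_nonpos_of_nonneg hcon (by norm_num : (0:ℝ) ≤ 1099511627776)
      linarith
    refine ⟨?_, ?_⟩
    · have h1 := div_le_cast (I.1 * 1099511627776) J.2
      simp only
      rw [div_le_iff₀ (by norm_num)]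
      refine le_trans h1 ?_
      rw [div_le_iff₀ hJ2]
      push_cast
      have h2 : ((I.1 : ℝ) / 1099511627776) ≤ x := hx.1
      have h3 : y ≤ (J.2 : ℝ) / 1099511627776 := hy.2
      have h4 : (I.1 : ℝ) ≤ x * 1099511627776 := by
        rwa [div_le_iff₀ (by norm_num)] at h2
      have h5 : y * 1099511627776 ≤ J.2 := by
        rwa [le_div_iff₀ (by norm_num)] at h3
      have h6 : x / y * 1099511627776 * J.2 ≥ x / y * 1099511627776 * (y * 1099511627776) := by
        apply mul_le_mul_of_nonneg_left h5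
        positivity
      have h7 : x / y * 1099511627776 * (y * 1099511627776) = x * 1099511627776 * 1099511627776 := by
        field_simp
      nlinarith
    · have h1 := cast_le_div_add_one (I.2 * 1099511627776) J.1 (by omega)
      simp only
      rw [le_div_iff₀ (by norm_num)]
      push_cast at h1 ⊢
      refine le_trans ?_ h1
      rw [le_div_iff₀ (by linarith)]
      have h4 : x * 1099511627776 ≤ I.2 := by
        have := hx.2
        rwa [le_div_iff₀ (by norm_num)] at this
      have h5 : (J.1 : ℝ) ≤ y * 1099511627776 := by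
        have := hy.1
        rwa [div_le_iff₀ (by norm_num)] at this
      have h6 : x / y * 1099511627776 * J.1 ≤ x / y * 1099511627776 * (y * 1099511627776) := by
        apply mul_le_mul_of_nonneg_left h5
        positivity
      have h7 : x / y * 1099511627776 * (y * 1099511627776) = x * 1099511627776 * 1099511627776 := by
        field_simp
      nlinarith
  · have hb' : Nat.ble 1 J.1 = false := Bool.eq_false_iff.mpr hb
    rw [hb'] at h
    simp at h

lemma log_div_scale {n : ℕ} (hn : 0 < n) :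
    log ((n : ℝ) / 1099511627776) = log n - 40 * log 2 := by
  rw [log_div (by exact_mod_cast hn.ne') (by norm_num)]
  have : (1099511627776 : ℝ) = 2 ^ 40 := by norm_num
  rw [this, log_pow]; push_cast; ring

lemma lnLo_le {n : ℕ} (hn : 1099511627776 ≤ n) :
    (lnLo n : ℝ) / 1099511627776 ≤ log ((n : ℝ) / 1099511627776) := by
  have hn0 : 0 < n := by omega
  rw [log_div_scale hn0]
  have he : 40 ≤ Nat.log2 n := by
    rw [Nat.le_log2 hn0.ne']
    calc 2 ^ 40 = 1099511627776 := by norm_num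
      _ ≤ n := hn
  have h1 := serLo_le hn0
  have h2 := log2_bounds.1
  unfold lnLo
  push_cast
  rw [Nat.cast_sub he, add_div]
  have h3 : (0 : ℝ) ≤ (Nat.log2 n : ℝ) - (40 : ℕ) := by
    have : (40 : ℝ) ≤ Nat.log2 n := by exact_mod_cast he
    push_cast; linarith
  have h4 := mul_le_mul_of_nonneg_left h2 h3
  push_cast at h3 h4 ⊢
  have h5 : ((Nat.log2 n : ℝ) - 40) * 762123384784 / 1099511627776 =
    ((Nat.log2 n : ℝ) - 40) * (762123384784 / 1099511627776) := by ring
  rw [h5]
  linarith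

lemma le_lnHi {n : ℕ} (hn : 1099511627776 ≤ n) :
    log ((n : ℝ) / 1099511627776) ≤ (lnHi n : ℝ) / 1099511627776 := by
  have hn0 : 0 < n := by omega
  rw [log_div_scale hn0]
  have he : 40 ≤ Nat.log2 n := by
    rw [Nat.le_log2 hn0.ne']
    calc 2 ^ 40 = 1099511627776 := by norm_num
      _ ≤ n := hn
  have h1 := le_serHi hn0
  have h2 := log2_bounds.2
  unfold lnHi
  push_cast
  rw [Nat.cast_sub he, add_div]
  have h3 : (0 : ℝ) ≤ (Nat.log2 n : ℝ) - (40 : ℕ) := by
    have : (40 : ℝ) ≤ Nat.log2 n := by exact_mod_cast he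
    push_cast; linarith
  have h4 := mul_le_mul_of_nonneg_left h2 h3
  push_cast at h3 h4 ⊢
  have h5 : ((Nat.log2 n : ℝ) - 40) * 762123384788 / 1099511627776 =
    ((Nat.log2 n : ℝ) - 40) * (762123384788 / 1099511627776) := by ring
  rw [h5]
  linarith

lemma log2_le_forty {n : ℕ} (hn0 : 0 < n) (hn : n ≤ 1099511627776) : Nat.log2 n ≤ 40 := by
  by_contra hcon
  push Not at hcon
  have h1 : 2 ^ Nat.log2 n ≤ n := Nat.log2_self_le hn0.ne'
  have h2 : 2 ^ 41 ≤ 2 ^ Nat.log2 n := Nat.pow_le_pow_right (by norm_num) hcon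
  norm_num at h2
  omega

lemma nlnLo_le {n : ℕ} (hn0 : 0 < n) (hn : n ≤ 1099511627776) :
    (nlnLo n : ℝ) / 1099511627776 ≤ - log ((n : ℝ) / 1099511627776) := by
  have he := log2_le_forty hn0 hn
  have hnR : (n : ℝ) ≤ 1099511627776 := by exact_mod_cast hn
  have hn0R : (0 : ℝ) < n := by exact_mod_cast hn0
  have hpos : 0 ≤ - log ((n : ℝ) / 1099511627776) := by
    have := Real.log_nonpos (x := (n : ℝ) / 1099511627776) (by positivity)
      (by rw [div_le_one (by norm_num)]; exact hnR)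
    linarith
  unfold nlnLo
  rcases le_total (serHi n) ((40 - Nat.log2 n) * 762123384784) with hle | hle
  · rw [Nat.cast_sub hle]
    rw [log_div_scale hn0]
    have h1 := le_serHi hn0
    have h2 := log2_bounds.1
    push_cast
    rw [Nat.cast_sub he, sub_div]
    have h3 : (0 : ℝ) ≤ (40 : ℕ) - (Nat.log2 n : ℝ) := by
      have : (Nat.log2 n : ℝ) ≤ 40 := by exact_mod_cast he
      push_cast; linarith
    have h4 := mul_le_mul_of_nonneg_left h2 h3
    push_cast at h3 h4 ⊢
    have h5 : (40 - (Nat.log2 n : ℝ)) * 762123384784 / 1099511627776 =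
      (40 - (Nat.log2 n : ℝ)) * (762123384784 / 1099511627776) := by ring
    rw [h5]
    linarith
  · rw [Nat.sub_eq_zero_of_le hle]
    simpa using hpos

lemma le_nlnHi {n : ℕ} (hn0 : 0 < n) (hn : n ≤ 1099511627776) :
    - log ((n : ℝ) / 1099511627776) ≤ (nlnHi n : ℝ) / 1099511627776 := by
  have he := log2_le_forty hn0 hn
  have h1 := serLo_le hn0
  have h2 := log2_bounds.2
  have h3 : (0 : ℝ) ≤ (40 : ℕ) - (Nat.log2 n : ℝ) := by
    have : (Nat.log2 n : ℝ) ≤ 40 := by exact_mod_cast he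
    push_cast; linarith
  have h4 := mul_le_mul_of_nonneg_left h2 h3
  have h6 : ((40 - Nat.log2 n) * 762123384788 : ℕ) ≤ serLo n + nlnHi n := by
    unfold nlnHi; omega
  have h6R : (((40 - Nat.log2 n) * 762123384788 : ℕ) : ℝ) ≤ (serLo n : ℝ) + nlnHi n := by
    exact_mod_cast h6
  rw [log_div_scale hn0]
  push_cast at h3 h4 h6R
  rw [Nat.cast_sub he] at h6R
  push_cast at h6R
  have h7 := div_le_div_of_nonneg_right h6R (by norm_num : (0:ℝ) ≤ 1099511627776)
  rw [add_div] at h7
  have h5 : (40 - (Nat.log2 n : ℝ)) * 762123384788 / 1099511627776 =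
      (40 - (Nat.log2 n : ℝ)) * (762123384788 / 1099511627776) := by ring
  rw [h5] at h7
  linarith

lemma enc_lg {x : ℝ} {I K : ℕ × ℕ} (hx : Enc x I) (h : lgI I = some K) : Enc (log x) K := by
  unfold lgI at h
  by_cases hb : Nat.ble 1099511627776 I.1 = true
  · rw [hb] at h
    simp only [cond_true, Option.some.injEq] at h
    subst h
    have hI : 1099511627776 ≤ I.1 := Nat.le_of_ble_eq_true hb
    have hIR : (0 : ℝ) < I.1 := by exact_mod_cast (by omega : 0 < I.1)
    have hx0 : 0 < x := lt_of_lt_of_le (by positivity) hx.1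
    have h34 : (I.1 : ℝ) / 1099511627776 ≤ (I.2 : ℝ) / 1099511627776 := le_trans hx.1 hx.2
    have h34' : I.1 ≤ I.2 := by
      have := (div_le_div_iff_of_pos_right (by norm_num : (0:ℝ) < 1099511627776)).mp h34
      exact_mod_cast this
    refine ⟨?_, ?_⟩
    · exact le_trans (lnLo_le hI) (Real.log_le_log (by positivity) hx.1)
    · exact le_trans (Real.log_le_log hx0 hx.2) (le_lnHi (by omega))
  · have hb' : Nat.ble 1099511627776 I.1 = false := Bool.eq_false_iff.mpr hb
    rw [hb'] at h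
    simp at h

lemma enc_nlg {x : ℝ} {I K : ℕ × ℕ} (hx : Enc x I) (h : nlgI I = some K) : Enc (- log x) K := by
  unfold nlgI at h
  by_cases hb : (Nat.ble 1 I.1 && Nat.ble I.2 1099511627776) = true
  · rw [hb] at h
    simp only [cond_true, Option.some.injEq] at h
    subst h
    rw [Bool.and_eq_true] at hb
    have hI1 : 1 ≤ I.1 := Nat.le_of_ble_eq_true hb.1
    have hI2 : I.2 ≤ 1099511627776 := Nat.le_of_ble_eq_true hb.2
    have hIR : (0 : ℝ) < I.1 := by exact_mod_cast (by omega : 0 < I.1)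
    have hx0 : 0 < x := lt_of_lt_of_le (by positivity) hx.1
    have h34 : (I.1 : ℝ) / 1099511627776 ≤ (I.2 : ℝ) / 1099511627776 := le_trans hx.1 hx.2
    have h34' : I.1 ≤ I.2 := by
      have := (div_le_div_iff_of_pos_right (by norm_num : (0:ℝ) < 1099511627776)).mp h34
      exact_mod_cast this
    have hI2R : (0 : ℝ) < I.2 := by exact_mod_cast (by omega : 0 < I.2)
    refine ⟨?_, ?_⟩
    · refine le_trans (nlnLo_le (by omega) hI2) ?_
      have := Real.log_le_log hx0 hx.2
      linarith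
    · refine le_trans ?_ (le_nlnHi (by omega) (by omega))
      have := Real.log_le_log (by positivity) hx.1
      linarith
  · have hb' : (Nat.ble 1 I.1 && Nat.ble I.2 1099511627776) = false := Bool.eq_false_iff.mpr hb
    rw [hb'] at h
    simp at h

lemma bind2_some {f : ℕ × ℕ → ℕ × ℕ → Option (ℕ × ℕ)} {a b : Option (ℕ × ℕ)} {K : ℕ × ℕ}
    (h : bind2 f a b = some K) : ∃ I J, a = some I ∧ b = some J ∧ f I J = some K := by
  cases a with
  | none => simp [bind2] at h
  | some I =>
    cases b with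
    | none => simp [bind2] at h
    | some J => exact ⟨I, J, rfl, rfl, h⟩

lemma bind1_some {f : ℕ × ℕ → Option (ℕ × ℕ)} {a : Option (ℕ × ℕ)} {K : ℕ × ℕ}
    (h : bind1 f a = some K) : ∃ I, a = some I ∧ f I = some K := by
  cases a with
  | none => simp [bind1] at h
  | some I => exact ⟨I, rfl, h⟩

lemma enc_getD {e : List ℝ} {E : List (ℕ × ℕ)} (h : List.Forall₂ Enc e E) (i : ℕ) :
    Enc (e.getD i 0) (E.getD i (0, 0)) := by
  induction h generalizing i with
  | nil => simp [Enc]
  | cons hx _ ih =>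
    cases i with
    | zero => simpa using hx
    | succ i => simpa using ih i

/-- **Soundness of the evaluator.** -/
theorem Ex.sound (x : Ex) : ∀ (e : List ℝ) (E : List (ℕ × ℕ)), List.Forall₂ Enc e E →
    ∀ K, x.iv E = some K → Enc (x.val e) K := by
  induction x with
  | v i =>
    intro e E h K hK
    simp only [Ex.iv, Option.some.injEq] at hK
    subst hK
    exact enc_getD h i
  | c a b =>
    intro e E h K hK
    simp only [Ex.iv] at hK
    by_cases hb : Nat.ble 1 b = true
    · rw [hb] at hK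
      simp only [cond_true, Option.some.injEq] at hK
      subst hK
      have hb1 : 1 ≤ b := Nat.le_of_ble_eq_true hb
      have hbR : (0 : ℝ) < b := by exact_mod_cast (by omega : 0 < b)
      simp only [Ex.val]
      refine ⟨?_, ?_⟩
      · have := div_le_cast (a * 1099511627776) b
        simp only
        rw [div_le_iff₀ (by norm_num)]
        refine le_trans this (le_of_eq ?_)
        push_cast; ring
      · have := cast_le_div_add_one (a * 1099511627776) b (by omega)
        simp only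
        rw [le_div_iff₀ (by norm_num)]
        push_cast at this ⊢
        refine le_trans (le_of_eq ?_) this
        ring
    · have hb' : Nat.ble 1 b = false := Bool.eq_false_iff.mpr hb
      rw [hb'] at hK
      simp at hK
  | add x y ihx ihy =>
    intro e E h K hK
    obtain ⟨I, J, hI, hJ, hf⟩ := bind2_some hK
    exact enc_add (ihx e E h I hI) (ihy e E h J hJ) hf
  | sub x y ihx ihy =>
    intro e E h K hK
    obtain ⟨I, J, hI, hJ, hf⟩ := bind2_some hK
    exact (enc_sub (ihx e E h I hI) (ihy e E h J hJ) hf).1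
  | mul x y ihx ihy =>
    intro e E h K hK
    obtain ⟨I, J, hI, hJ, hf⟩ := bind2_some hK
    exact enc_mul (ihx e E h I hI) (ihy e E h J hJ) hf
  | div x y ihx ihy =>
    intro e E h K hK
    obtain ⟨I, J, hI, hJ, hf⟩ := bind2_some hK
    exact enc_div (ihx e E h I hI) (ihy e E h J hJ) hf
  | lg x ihx =>
    intro e E h K hK
    obtain ⟨I, hI, hf⟩ := bind1_some hK
    exact enc_lg (ihx e E h I hI) hf
  | nlg x ihx =>
    intro e E h K hK
    obtain ⟨I, hI, hf⟩ := bind1_some hK
    exact enc_nlg (ihx e E h I hI) hf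
  | lt x y ihx ihy =>
    intro e E h K hK
    simp only [Ex.iv] at hK
    cases hx : x.iv E with
    | none => rw [hx] at hK; simp at hK
    | some I =>
      rw [hx] at hK
      simp only at hK
      exact ihy _ _ (List.Forall₂.cons (ihx e E h I hx) h) K hK

/-- kernel-checkable comparison `x ≥ y`. -/
def Ex.ge (x y : Ex) (E : List (ℕ × ℕ)) : Bool := (bind2 subI (x.iv E) (y.iv E)).isSome

theorem Ex.ge_sound {x y : Ex} {e : List ℝ} {E : List (ℕ × ℕ)} (h : List.Forall₂ Enc e E)
    (hc : Ex.ge x y E = true) : y.val e ≤ x.val e := by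
  unfold Ex.ge at hc
  rw [Option.isSome_iff_exists] at hc
  obtain ⟨K, hK⟩ := hc
  obtain ⟨I, J, hI, hJ, hf⟩ := bind2_some hK
  have := (enc_sub (x.sound e E h I hI) (y.sound e E h J hJ) hf).2
  linarith

/-- exact dyadic inputs. -/
lemma enc_dyadic (k : ℕ) : Enc ((k : ℝ) / 1099511627776) (k, k) := ⟨le_rfl, le_rfl⟩

end P322
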