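import Vale.Agent.Lib.P322.Kap

/-!
P322 (Courtade-Kumar): more on the power series of `kap` (closed interval), Jensen gaps `J1`.
-/

namespace P322

open Real Filter Topology

lemma mu_zero : mu 0 = 1 / 2 := by unfold mu; norm_num

lemma abs_lt_one_of {t : ℝ} (h0 : 0 ≤ t) (h1 : t < 1) : |t| < 1 := by rwa [abs_of_nonneg h0]

lemma kap_le_log_two {t : ℝ} (h0 : -1 ≤ t) (h1 : t ≤ 1) : kap t ≤ log 2 := by
  unfold kap
  have := binEntropy_nonneg (p := (1 - t) / 2) (by linarith) (by linarith)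
  linarith

lemma sum_mu_le (n : ℕ) : ∑ k ∈ Finset.range n, mu k ≤ log 2 := by
  have h1 : ∀ t : ℝ, t ∈ Set.Ioo (0 : ℝ) 1 → ∑ k ∈ Finset.range n, mu k * t ^ (2 * k + 2) ≤ log 2 := by
    intro t ht
    refine le_trans (sum_le_hasSum _ (fun k _ => ?_) (hasSum_kap (abs_lt_one_of ht.1.le ht.2)))
      (kap_le_log_two (by linarith [ht.1]) ht.2.le)
    have := mu_pos k
    have := ht.1
    positivity
  have hc : Continuous (fun t : ℝ => ∑ k ∈ Finset.range n, mu k * t ^ (2 * k + 2)) := by fun_prop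
  have hl : Tendsto (fun t : ℝ => ∑ k ∈ Finset.range n, mu k * t ^ (2 * k + 2)) (𝓝[<] 1)
      (𝓝 (∑ k ∈ Finset.range n, mu k * (1 : ℝ) ^ (2 * k + 2))) :=
    (hc.tendsto 1).mono_left nhdsWithin_le_nhds
  have := le_of_tendsto hl (by
    filter_upwards [Ioo_mem_nhdsLT (show (0 : ℝ) < 1 by norm_num)] with t ht
    exact h1 t ht)
  simpa using this

lemma summable_mu : Summable mu :=
  summable_of_sum_range_le (fun k => (mu_pos k).le) sum_mu_le

lemma hasSum_mu : HasSum mu (log 2) := by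
  have hs := summable_mu.hasSum
  have hle : ∑' k, mu k ≤ log 2 := summable_mu.tsum_le_of_sum_range_le sum_mu_le
  have hge : log 2 ≤ ∑' k, mu k := by
    have h1 : ∀ t : ℝ, t ∈ Set.Ioo (0 : ℝ) 1 → kap t ≤ ∑' k, mu k := by
      intro t ht
      refine hasSum_le (fun k => ?_) (hasSum_kap (abs_lt_one_of ht.1.le ht.2)) hs
      have h2 : t ^ (2 * k + 2) ≤ 1 := pow_le_one₀ ht.1.le ht.2.le
      have := mu_pos k
      nlinarith
    have hl : Tendsto kap (𝓝[<] 1) (𝓝 (kap 1)) := (continuous_kap.tendsto 1).mono_left nhdsWithin_le_nhds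
    have := le_of_tendsto hl (by
      filter_upwards [Ioo_mem_nhdsLT (show (0 : ℝ) < 1 by norm_num)] with t ht
      exact h1 t ht)
    rwa [kap_one] at this
  rw [le_antisymm hle hge] at hs
  exact hs

/-- The power series of `kap` on `[0,1]`. -/
theorem hasSum_kapc {t : ℝ} (h0 : 0 ≤ t) (h1 : t ≤ 1) :
    HasSum (fun k : ℕ => mu k * t ^ (2 * k + 2)) (kap t) := by
  rcases h1.lt_or_eq with h | h
  · exact hasSum_kap (abs_lt_one_of h0 h)
  · subst h
    simpa [kap_one] using hasSum_mu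

/-- increments of `kap (c ·)` against `c^2 kap`. -/
lemma kap_scale_sub_le {c x y : ℝ} (hc0 : 0 ≤ c) (hc1 : c ≤ 1) (h0 : 0 ≤ x) (hxy : x ≤ y) (h1 : y ≤ 1) :
    kap (c * y) - kap (c * x) ≤ c ^ 2 * (kap y - kap x) := by
  have hy : c * y ≤ 1 := by nlinarith
  have hx : c * x ≤ 1 := by nlinarith
  have hy0 : 0 ≤ y := h0.trans hxy
  refine hasSum_le (fun k => ?_) ((hasSum_kapc (by positivity) hy).sub (hasSum_kapc (by positivity) hx))
    (((hasSum_kapc hy0 h1).sub (hasSum_kapc h0 (hxy.trans h1))).mul_left (c ^ 2))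
  have h2 : c ^ (2 * k + 2) ≤ c ^ 2 := pow_le_pow_of_le_one hc0 hc1 (by omega)
  have h3 : x ^ (2 * k + 2) ≤ y ^ (2 * k + 2) := pow_le_pow_left₀ h0 hxy _
  have h4 := mu_pos k
  rw [mul_pow, mul_pow]
  have h5 : mu k * (c ^ (2 * k + 2) * y ^ (2 * k + 2)) - mu k * (c ^ (2 * k + 2) * x ^ (2 * k + 2)) =
    c ^ (2 * k + 2) * (mu k * (y ^ (2 * k + 2) - x ^ (2 * k + 2))) := by ring
  have h6 : c ^ 2 * (mu k * y ^ (2 * k + 2) - mu k * x ^ (2 * k + 2)) =
    c ^ 2 * (mu k * (y ^ (2 * k + 2) - x ^ (2 * k + 2))) := by ring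
  rw [h5, h6]
  apply mul_le_mul_of_nonneg_right h2
  have : 0 ≤ y ^ (2 * k + 2) - x ^ (2 * k + 2) := by linarith
  positivity

lemma mul_kap_div {m e : ℝ} (hm : 0 < m) (he : 0 ≤ e) :
    m * kap (e / m) = ((m + e) * log (m + e) + (m - e) * log (m - e)) / 2 - m * log m := by
  rw [kap_eq]
  have e1 : 1 + e / m = (m + e) / m := by field_simp
  have e2 : 1 - e / m = (m - e) / m := by field_simp
  have h3 : m + e ≠ 0 := by positivity
  rw [e1, e2, log_div h3 hm.ne']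
  by_cases h : m - e = 0
  · rw [h]
    have : e = m := by linarith
    subst this
    simp
    field_simp
    ring
  · rw [log_div h hm.ne']
    field_simp
    ring

lemma binEntropy_eq_neg (p : ℝ) : binEntropy p = - (p * log p) - (1 - p) * log (1 - p) := by
  unfold binEntropy
  rw [log_inv, log_inv]; ring

/-- the Jensen gap of `h` at a symmetric pair. -/
noncomputable def J1 (m e : ℝ) : ℝ := binEntropy m - (binEntropy (m - e) + binEntropy (m + e)) / 2

theorem J1_eq {m e : ℝ} (hm : 0 < m) (hm1 : m < 1) (he : 0 ≤ e) :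
    J1 m e = m * kap (e / m) + (1 - m) * kap (e / (1 - m)) := by
  unfold J1
  rw [mul_kap_div hm he, mul_kap_div (by linarith : 0 < 1 - m) he,
    binEntropy_eq_neg, binEntropy_eq_neg (m - e), binEntropy_eq_neg (m + e)]
  have e1 : 1 - (m - e) = 1 - m + e := by ring
  have e2 : 1 - (m + e) = 1 - m - e := by ring
  rw [e1, e2]
  ring

lemma kk_eq_sub {ρ m e : ℝ} :
    (binEntropy (m - ρ * e) + binEntropy (m + ρ * e)) / 2 = binEntropy m - J1 m (ρ * e) := by
  unfold J1; ring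

/-- `J1` on a ray. -/
theorem J1_ray {m ξ : ℝ} (hm : 0 < m) (hm1 : m < 1) (hξ : 0 ≤ ξ) :
    J1 m (ξ * m) = m * kap ξ + (1 - m) * kap (ξ * (m / (1 - m))) := by
  rw [J1_eq hm hm1 (by positivity)]
  have e1 : ξ * m / m = ξ := by field_simp
  have e2 : ξ * m / (1 - m) = ξ * (m / (1 - m)) := by ring
  rw [e1, e2]

/-- series of `J1` on a ray, divided by `m`. -/
theorem hasSum_J1_ray {m ξ : ℝ} (hm : 0 < m) (hm2 : m ≤ 1 / 2) (hξ : 0 ≤ ξ) (hξ1 : ξ ≤ 1) :
    HasSum (fun k : ℕ => mu k * ξ ^ (2 * k + 2) * (1 + (m / (1 - m)) ^ (2 * k + 1))) (J1 m (ξ * m) / m) := by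
  have hη0 : 0 ≤ m / (1 - m) := div_nonneg hm.le (by linarith)
  have hη1 : m / (1 - m) ≤ 1 := by rw [div_le_one (by linarith)]; linarith
  have hx : ξ * (m / (1 - m)) ≤ 1 := by nlinarith
  have A := hasSum_kapc hξ hξ1
  have B := (hasSum_kapc (by positivity : 0 ≤ ξ * (m / (1 - m))) hx).mul_left ((1 - m) / m)
  have C := A.add B
  have e : kap ξ + (1 - m) / m * kap (ξ * (m / (1 - m))) = J1 m (ξ * m) / m := by
    rw [J1_ray hm (by linarith) hξ]; field_simp
  rw [e] at C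
  have hf : (fun k : ℕ => mu k * ξ ^ (2 * k + 2) * (1 + (m / (1 - m)) ^ (2 * k + 1))) =
      fun k : ℕ => mu k * ξ ^ (2 * k + 2) + (1 - m) / m * (mu k * (ξ * (m / (1 - m))) ^ (2 * k + 2)) := by
    funext k
    have h1 : (m / (1 - m)) ^ (2 * k + 2) = (m / (1 - m)) ^ (2 * k + 1) * (m / (1 - m)) := pow_succ _ _
    have h2 : (1 - m) / m * (m / (1 - m)) = 1 := by
      have : 1 - m ≠ 0 := by linarith
      field_simp
    rw [mul_pow, h1]
    have : (1 - m) / m * (mu k * (ξ ^ (2 * k + 2) * ((m / (1 - m)) ^ (2 * k + 1) * (m / (1 - m))))) =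
      ((1 - m) / m * (m / (1 - m))) * (mu k * ξ ^ (2 * k + 2) * (m / (1 - m)) ^ (2 * k + 1)) := by ring
    rw [this, h2]; ring
  rw [hf]
  exact C

/-- `4 log 2 m (1-m) ≤ h(m)`. -/
lemma log_two_mul_le_binEntropy {m : ℝ} (h0 : 0 ≤ m) (h1 : m ≤ 1 / 2) :
    log 2 * (4 * m * (1 - m)) ≤ binEntropy m := by
  have h := kap_le (x := 1 - 2 * m) (by linarith) (by linarith)
  unfold kap at h
  have e : (1 - (1 - 2 * m)) / 2 = m := by ring
  rw [e] at h
  nlinarith

end P322
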