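import Vale.Agent.Lib.P322.KapB

/-!
P322 (Courtade-Kumar): `psi`, the gap `GapJ`, and monotonicity of the first condition in `ρ`.
-/

namespace P322

open Real Finset

/-- `b(ρ) = ρ^2 log 2 - kap ρ`. -/
noncomputable def bb (ρ : ℝ) : ℝ := ρ ^ 2 * log 2 - kap ρ

lemma psi_eq_bb (ρ p : ℝ) : psi ρ p = (1 - ρ ^ 2) * binEntropy p + bb ρ * (4 * p * (1 - p)) := by
  unfold psi bb kap; ring

lemma bb_nonneg {ρ : ℝ} (h0 : 0 ≤ ρ) (h1 : ρ ≤ 1) : 0 ≤ bb ρ := by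
  have := kap_le h0 h1
  unfold bb; linarith

/-- `J = psi(m) - (psi(m-e) + psi(m+e))/2`. -/
noncomputable def GapJ (ρ m e : ℝ) : ℝ := psi ρ m - (psi ρ (m - e) + psi ρ (m + e)) / 2

lemma GapJ_eq (ρ m e : ℝ) : GapJ ρ m e = (1 - ρ ^ 2) * J1 m e + bb ρ * (4 * e ^ 2) := by
  unfold GapJ J1
  rw [psi_eq_bb, psi_eq_bb, psi_eq_bb]
  ring

lemma kk_eq_J1 (ρ m e : ℝ) : kk ρ m e = binEntropy m - J1 m (ρ * e) := by
  unfold kk J1; ring

lemma kk_sub_kk (ρ m e : ℝ) : kk ρ m e - kk 1 m e = J1 m e - J1 m (ρ * e) := by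
  rw [kk_eq_J1, kk_eq_J1, one_mul]; ring

lemma hasSum_bb {ρ : ℝ} (h0 : 0 ≤ ρ) (h1 : ρ ≤ 1) :
    HasSum (fun k : ℕ => mu k * (ρ ^ 2 - (ρ ^ 2) ^ (k + 1))) (bb ρ) := by
  have h := (hasSum_mu.mul_left (ρ ^ 2)).sub (hasSum_kapc h0 h1)
  have hf : (fun k : ℕ => mu k * (ρ ^ 2 - (ρ ^ 2) ^ (k + 1))) =
      fun k : ℕ => ρ ^ 2 * mu k - mu k * ρ ^ (2 * k + 2) := by
    funext k
    have : (ρ ^ 2) ^ (k + 1) = ρ ^ (2 * k + 2) := by rw [← pow_mul]; congr 1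
    rw [this]; ring
  rw [hf]
  exact h

/-- the decrease of `psi` in `ρ` dominates the increase of `kap`. -/
lemma psi_rho_sub {ρ ρ' m : ℝ} (h0 : 0 ≤ ρ) (hρ : ρ ≤ ρ') (hm : 0 ≤ m) (hm2 : m ≤ 1 / 2) :
    (4 * m * (1 - m)) * (kap ρ' - kap ρ) ≤ psi ρ m - psi ρ' m := by
  rw [psi_eq_bb, psi_eq_bb]
  unfold bb
  have h := log_two_mul_le_binEntropy hm hm2
  have h2 : 0 ≤ ρ' ^ 2 - ρ ^ 2 := by nlinarith
  nlinarith [mul_nonneg h2 (sub_nonneg.mpr h)]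

/-- (R), first condition: monotone in `ρ`. -/
theorem A1R_mono {ρ ρ' m mc ξ : ℝ} (h0 : 0 ≤ ρ) (hρ : ρ ≤ ρ') (h1 : ρ' ≤ 1) (hm : 0 < m)
    (hmc : m ≤ mc) (hmc2 : mc ≤ 1 / 2) (hξ0 : 0 ≤ ξ) (hξ1 : ξ ≤ 1)
    (h : psi ρ m ≤ m / mc * kk ρ mc (ξ * mc)) : psi ρ' m ≤ m / mc * kk ρ' mc (ξ * mc) := by
  have hmc0 : 0 < mc := by linarith
  have hη0 : 0 ≤ mc / (1 - mc) := div_nonneg hmc0.le (by linarith)
  have hη1 : mc / (1 - mc) ≤ 1 := by rw [div_le_one (by linarith)]; linarith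
  set η := mc / (1 - mc) with hη
  have hk0 : kap ρ ≤ kap ρ' := kap_mono h0 hρ h1
  have p := psi_rho_sub h0 hρ hm.le (by linarith : m ≤ 1 / 2)
  have r1 : ∀ t : ℝ, 0 ≤ t → J1 mc (t * (ξ * mc)) = mc * kap (ξ * t) + (1 - mc) * kap ((ξ * η) * t) := by
    intro t ht
    have := J1_ray (m := mc) (ξ := t * ξ) hmc0 (by linarith) (by positivity)
    rw [← mul_assoc, this, ← hη]
    congr 2 <;> (congr 1; ring)
  have s1 := kap_scale_sub_le hξ0 hξ1 h0 hρ h1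
  have s2 := kap_scale_sub_le (c := ξ * η) (by positivity) (by nlinarith) h0 hρ h1
  have hd : kk ρ mc (ξ * mc) - kk ρ' mc (ξ * mc) ≤ 2 * mc * (kap ρ' - kap ρ) := by
    rw [kk_eq_J1, kk_eq_J1, r1 ρ h0, r1 ρ' (h0.trans hρ)]
    have d0 : 0 ≤ kap ρ' - kap ρ := by linarith
    have t1 : ξ ^ 2 * (kap ρ' - kap ρ) ≤ kap ρ' - kap ρ := by
      have : ξ ^ 2 ≤ 1 := by nlinarith
      nlinarith
    have t2 : (ξ * η) ^ 2 * (kap ρ' - kap ρ) ≤ η * (kap ρ' - kap ρ) := by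
      have : (ξ * η) ^ 2 ≤ η := by
        have h1 : ξ ^ 2 ≤ 1 := by nlinarith
        have h2 : η ^ 2 ≤ η := by nlinarith
        calc (ξ * η) ^ 2 = ξ ^ 2 * η ^ 2 := by ring
          _ ≤ 1 * η := mul_le_mul h1 h2 (by positivity) (by norm_num)
          _ = η := one_mul _
      exact mul_le_mul_of_nonneg_right this d0
    have u1 := mul_le_mul_of_nonneg_left (s1.trans t1) hmc0.le
    have u2 := mul_le_mul_of_nonneg_left (s2.trans t2) (by linarith : 0 ≤ 1 - mc)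
    have e : (1 - mc) * (η * (kap ρ' - kap ρ)) = mc * (kap ρ' - kap ρ) := by
      rw [hη]
      have : 1 - mc ≠ 0 := by linarith
      field_simp
    rw [e] at u2
    linarith
  have hd2 := mul_le_mul_of_nonneg_left hd (by positivity : 0 ≤ m / mc)
  have e2 : m / mc * (2 * mc * (kap ρ' - kap ρ)) = 2 * m * (kap ρ' - kap ρ) := by field_simp
  rw [e2] at hd2
  have hq : 2 * m * (kap ρ' - kap ρ) ≤ (4 * m * (1 - m)) * (kap ρ' - kap ρ) := by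
    apply mul_le_mul_of_nonneg_right _ (by linarith)
    nlinarith
  nlinarith

/-- (S), first condition: monotone in `ρ`. -/
theorem A1S_mono {ρ ρ' m e w : ℝ} (h0 : 0 ≤ ρ) (hρ : ρ ≤ ρ') (h1 : ρ' ≤ 1) (he : 0 ≤ e)
    (hem : e ≤ m) (hm2 : m ≤ 1 / 2) (hw0 : 0 < w) (hw1 : w ≤ 1)
    (h : psi ρ m ≤ 2 * e / w * binEntropy ((1 - ρ * w) / 2)) :
    psi ρ' m ≤ 2 * e / w * binEntropy ((1 - ρ' * w) / 2) := by
  have hk0 : kap ρ ≤ kap ρ' := kap_mono h0 hρ h1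
  have p := psi_rho_sub h0 hρ (he.trans hem) hm2
  have s1 := kap_scale_sub_le hw0.le hw1 h0 hρ h1
  have e1 : binEntropy ((1 - ρ * w) / 2) = log 2 - kap (w * ρ) := by
    rw [mul_comm w ρ]; unfold kap; ring
  have e2 : binEntropy ((1 - ρ' * w) / 2) = log 2 - kap (w * ρ') := by
    rw [mul_comm w ρ']; unfold kap; ring
  rw [e1] at h
  rw [e2]
  have hc : 0 ≤ 2 * e / w := by positivity
  have u := mul_le_mul_of_nonneg_left s1 hc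
  have e3 : 2 * e / w * (w ^ 2 * (kap ρ' - kap ρ)) = 2 * e * w * (kap ρ' - kap ρ) := by field_simp
  rw [e3] at u
  have d0 : 0 ≤ kap ρ' - kap ρ := by linarith
  have hq : 2 * e * w * (kap ρ' - kap ρ) ≤ (4 * m * (1 - m)) * (kap ρ' - kap ρ) := by
    apply mul_le_mul_of_nonneg_right _ d0
    have : 2 * e * w ≤ 2 * e := by nlinarith
    nlinarith
  nlinarith

end P322
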