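import Vale.Agent.Lib.P322.MonoM
import Vale.Agent.Lib.P322.MonoA

/-!
P322 (Courtade-Kumar): monotonicity of the second condition (in `ρ`, and on boxes).
-/

namespace P322

open Real Finset

lemma hs_congr {f g : ℕ → ℝ} {a b : ℝ} (h : HasSum f a) (hf : ∀ k, g k = f k) (hab : b = a) :
    HasSum g b := by
  have : g = f := funext hf
  rw [this, hab]; exact h

lemma one_sub_sq_pow_nonneg {ρ : ℝ} (h0 : 0 ≤ ρ) (h1 : ρ ≤ 1) (k : ℕ) : 0 ≤ 1 - (ρ ^ 2) ^ (k + 1) := by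
  have : (ρ ^ 2) ^ (k + 1) ≤ 1 := pow_le_one₀ (by positivity) (by nlinarith)
  linarith

/-- general down-closedness in `ρ` of the second condition. -/
theorem A2_down {X : ℕ → ℝ} {c GX J : ℝ} (hX : Antitone X)
    (hGX : HasSum (fun k => mu k * X k) GX) (hJ : J ≤ GX) {G G' : ℝ} {ρ ρ' : ℝ}
    (hG : HasSum (fun k => mu k * X k * (1 - (ρ ^ 2) ^ (k + 1))) G)
    (hG' : HasSum (fun k => mu k * X k * (1 - (ρ' ^ 2) ^ (k + 1))) G')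
    (h0 : 0 ≤ ρ) (hρ : ρ ≤ ρ') (h1 : ρ' < 1)
    (h : (1 - ρ' ^ 2) * J + bb ρ' * c ≤ G') : (1 - ρ ^ 2) * J + bb ρ * c ≤ G := by
  have key : ∀ (σ g : ℝ), 0 ≤ σ → σ ≤ 1 → HasSum (fun k => mu k * X k * (1 - (σ ^ 2) ^ (k + 1))) g →
      HasSum (fun k => mu k * (X k - c) * (σ ^ 2 - (σ ^ 2) ^ (k + 1))) (g - (1 - σ ^ 2) * GX - bb σ * c) := by
    intro σ g hσ0 hσ1 hg
    have h := (hg.sub (hGX.mul_left (1 - σ ^ 2))).sub ((hasSum_bb hσ0 hσ1).mul_right c)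
    exact hs_congr h (fun k => by ring) (by ring)
  have hβ : Antitone (fun k => X k - c) := fun a b hab => by
    have := hX hab
    show X b - c ≤ X a - c
    linarith
  have hm := mlemma (β := fun k => X k - c) hβ (C0 := GX - J) (r := ρ' ^ 2) (r' := ρ ^ 2) (sq_nonneg ρ)
    (by nlinarith) (by nlinarith) (by linarith) (key ρ' G' (h0.trans hρ) h1.le hG')
    (key ρ G h0 (by linarith) hG) (by nlinarith)
  nlinarith

lemma hasSum_gain_ray {mc ξ ρ : ℝ} (hmc : 0 < mc) (hmc2 : mc ≤ 1 / 2) (hξ : 0 ≤ ξ) (hξ1 : ξ ≤ 1)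
    (h0 : 0 ≤ ρ) (h1 : ρ ≤ 1) :
    HasSum (fun k : ℕ => mu k * (ξ ^ (2 * k + 2) * (1 + (mc / (1 - mc)) ^ (2 * k + 1))) *
      (1 - (ρ ^ 2) ^ (k + 1))) ((kk ρ mc (ξ * mc) - kk 1 mc (ξ * mc)) / mc) := by
  have A := hasSum_J1_ray hmc hmc2 hξ hξ1
  have B := hasSum_J1_ray (ξ := ρ * ξ) hmc hmc2 (by positivity) (by nlinarith)
  have C := A.sub B
  rw [kk_sub_kk, sub_div]
  rw [mul_assoc ρ ξ mc] at C
  refine hs_congr C (fun k => ?_) rfl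
  have : (ρ * ξ) ^ (2 * k + 2) = (ρ ^ 2) ^ (k + 1) * ξ ^ (2 * k + 2) := by
    rw [mul_pow, ← pow_mul]; congr 1
  rw [this]; ring

lemma hasSum_gain_w {w ρ : ℝ} (hw0 : 0 < w) (hw1 : w ≤ 1) (h0 : 0 ≤ ρ) (h1 : ρ ≤ 1) :
    HasSum (fun k : ℕ => mu k * w ^ (2 * k + 1) * (1 - (ρ ^ 2) ^ (k + 1)))
      ((binEntropy ((1 - ρ * w) / 2) - binEntropy ((1 - w) / 2)) / w) := by
  have A := hasSum_kapc hw0.le hw1
  have B := hasSum_kapc (t := ρ * w) (by positivity) (by nlinarith)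
  have C := (A.sub B).mul_right (1 / w)
  have e : (binEntropy ((1 - ρ * w) / 2) - binEntropy ((1 - w) / 2)) / w = (kap w - kap (ρ * w)) * (1 / w) := by
    unfold kap; ring
  rw [e]
  refine hs_congr C (fun k => ?_) rfl
  have h3 : (ρ * w) ^ (2 * k + 2) = (ρ ^ 2) ^ (k + 1) * w ^ (2 * k + 2) := by
    rw [mul_pow, ← pow_mul]; congr 1
  have h4 : w ^ (2 * k + 2) = w ^ (2 * k + 1) * w := pow_succ _ _
  rw [h3, h4]
  field_simp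

lemma antitone_ray {ξ η : ℝ} (hξ : 0 ≤ ξ) (hξ1 : ξ ≤ 1) (hη : 0 ≤ η) (hη1 : η ≤ 1) :
    Antitone (fun k : ℕ => ξ ^ (2 * k + 2) * (1 + η ^ (2 * k + 1))) := by
  intro a b hab
  have h1 : ξ ^ (2 * b + 2) ≤ ξ ^ (2 * a + 2) := pow_le_pow_of_le_one hξ hξ1 (by omega)
  have h2 : η ^ (2 * b + 1) ≤ η ^ (2 * a + 1) := pow_le_pow_of_le_one hη hη1 (by omega)
  exact mul_le_mul h1 (by linarith) (by positivity) (by positivity)

lemma eta_mono {m m' : ℝ} (h : m ≤ m') (h1 : m' < 1) : m / (1 - m) ≤ m' / (1 - m') := by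
  rw [div_le_div_iff₀ (by linarith) (by linarith)]
  nlinarith

/-- (R), second condition: closed downwards in `ρ`. -/
theorem A2R_down {ρ ρ' m mc ξ : ℝ} (h0 : 0 ≤ ρ) (hρ : ρ ≤ ρ') (h1 : ρ' < 1) (hm : 0 < m)
    (hmc : m ≤ mc) (hmc2 : mc ≤ 1 / 2) (hξ0 : 0 ≤ ξ) (hξ1 : ξ ≤ 1)
    (h : GapJ ρ' m (ξ * m) ≤ m / mc * (kk ρ' mc (ξ * mc) - kk 1 mc (ξ * mc))) :
    GapJ ρ m (ξ * m) ≤ m / mc * (kk ρ mc (ξ * mc) - kk 1 mc (ξ * mc)) := by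
  have hmc0 : 0 < mc := by linarith
  have hη0 : 0 ≤ mc / (1 - mc) := div_nonneg hmc0.le (by linarith)
  have hη1 : mc / (1 - mc) ≤ 1 := by rw [div_le_one (by linarith)]; linarith
  have hm0' : 0 ≤ m / (1 - m) := div_nonneg hm.le (by linarith)
  have hηm := eta_mono hmc (by linarith : mc < 1)
  have A := hasSum_J1_ray hmc0 hmc2 hξ0 hξ1
  have B := hasSum_J1_ray hm (by linarith : m ≤ 1 / 2) hξ0 hξ1
  have hJ : J1 m (ξ * m) / m ≤ J1 mc (ξ * mc) / mc := by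
    refine hasSum_le (fun k => ?_) B A
    have := mu_pos k
    have h2 : (m / (1 - m)) ^ (2 * k + 1) ≤ (mc / (1 - mc)) ^ (2 * k + 1) := pow_le_pow_left₀ hm0' hηm _
    have : 0 ≤ mu k * ξ ^ (2 * k + 2) := by positivity
    apply mul_le_mul_of_nonneg_left _ this
    linarith
  have hGX : HasSum (fun k : ℕ => mu k * (ξ ^ (2 * k + 2) * (1 + (mc / (1 - mc)) ^ (2 * k + 1))))
      (J1 mc (ξ * mc) / mc) := by
    exact hs_congr A (fun k => by ring) rfl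
  have D := A2_down (antitone_ray hξ0 hξ1 hη0 hη1) hGX hJ
    (hasSum_gain_ray hmc0 hmc2 hξ0 hξ1 h0 (hρ.trans h1.le))
    (hasSum_gain_ray hmc0 hmc2 hξ0 hξ1 (h0.trans hρ) h1.le) h0 hρ h1 (c := 4 * m * ξ ^ 2)
  have conv : ∀ σ : ℝ, (GapJ σ m (ξ * m) ≤ m / mc * (kk σ mc (ξ * mc) - kk 1 mc (ξ * mc))) ↔
      ((1 - σ ^ 2) * (J1 m (ξ * m) / m) + bb σ * (4 * m * ξ ^ 2) ≤
        (kk σ mc (ξ * mc) - kk 1 mc (ξ * mc)) / mc) := by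
    intro σ
    rw [GapJ_eq]
    have e1 : (1 - σ ^ 2) * J1 m (ξ * m) + bb σ * (4 * (ξ * m) ^ 2) =
      m * ((1 - σ ^ 2) * (J1 m (ξ * m) / m) + bb σ * (4 * m * ξ ^ 2)) := by field_simp
    have e2 : m / mc * (kk σ mc (ξ * mc) - kk 1 mc (ξ * mc)) =
      m * ((kk σ mc (ξ * mc) - kk 1 mc (ξ * mc)) / mc) := by ring
    rw [e1, e2]
    exact mul_le_mul_iff_right₀ hm
  rw [conv] at h ⊢
  exact D h

/-- (S), second condition: closed downwards in `ρ`. -/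
theorem A2S_down {ρ ρ' m e w : ℝ} (h0 : 0 ≤ ρ) (hρ : ρ ≤ ρ') (h1 : ρ' < 1) (he : 0 < e)
    (hw0 : 0 < w) (hw1 : w ≤ 1) (hG : J1 m e ≤ 2 * e / w * kap w)
    (h : GapJ ρ' m e ≤ 2 * e / w * (binEntropy ((1 - ρ' * w) / 2) - binEntropy ((1 - w) / 2))) :
    GapJ ρ m e ≤ 2 * e / w * (binEntropy ((1 - ρ * w) / 2) - binEntropy ((1 - w) / 2)) := by
  have hX : Antitone (fun k : ℕ => 2 * e * w ^ (2 * k + 1)) := by
    intro a b hab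
    have h1 : w ^ (2 * b + 1) ≤ w ^ (2 * a + 1) := pow_le_pow_of_le_one hw0.le hw1 (by omega)
    exact mul_le_mul_of_nonneg_left h1 (by positivity)
  have hGX : HasSum (fun k : ℕ => mu k * (2 * e * w ^ (2 * k + 1))) (2 * e / w * kap w) := by
    refine hs_congr ((hasSum_kapc hw0.le hw1).mul_left (2 * e / w)) (fun k => ?_) rfl
    have h4 : w ^ (2 * k + 2) = w ^ (2 * k + 1) * w := pow_succ _ _
    rw [h4]
    field_simp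
  have hS : ∀ σ : ℝ, 0 ≤ σ → σ ≤ 1 → HasSum (fun k : ℕ => mu k * (2 * e * w ^ (2 * k + 1)) * (1 - (σ ^ 2) ^ (k + 1)))
      (2 * e / w * (binEntropy ((1 - σ * w) / 2) - binEntropy ((1 - w) / 2))) := by
    intro σ hσ0 hσ1
    have := (hasSum_gain_w hw0 hw1 hσ0 hσ1).mul_left (2 * e)
    exact hs_congr this (fun k => by ring) (by ring)
  have D := A2_down hX hGX hG (hS ρ h0 (hρ.trans h1.le)) (hS ρ' (h0.trans hρ) h1.le) h0 hρ h1 (c := 4 * e ^ 2)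
  rw [GapJ_eq] at h ⊢
  exact D h

/-- box lemma on rays (positive lower `ξ`). -/
theorem ray_box {x : ℕ → ℝ} {ρ m m2 ξ ξ1 G G1 : ℝ} (h0 : 0 ≤ ρ) (h1 : ρ ≤ 1) (hm : 0 < m)
    (hmm : m ≤ m2) (hm2 : m2 ≤ 1 / 2) (hx : ∀ k : ℕ, 1 + (m2 / (1 - m2)) ^ (2 * k + 1) ≤ x k)
    (hξ1 : 0 < ξ1) (hξ : ξ1 ≤ ξ) (hξu : ξ ≤ 1)
    (hG : HasSum (fun k : ℕ => mu k * x k * ξ ^ (2 * k + 2) * (1 - (ρ ^ 2) ^ (k + 1))) G)
    (hG1 : HasSum (fun k : ℕ => mu k * x k * ξ1 ^ (2 * k + 2) * (1 - (ρ ^ 2) ^ (k + 1))) G1)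
    (h : GapJ ρ m2 (ξ1 * m2) / m2 ≤ G1) : GapJ ρ m (ξ * m) / m ≤ G := by
  have hξ0 : 0 < ξ := by linarith
  have hm20 : 0 < m2 := by linarith
  have hb := bb_nonneg h0 h1
  have A := (hasSum_J1_ray hm (by linarith : m ≤ 1 / 2) hξ0.le hξu).mul_left (1 - ρ ^ 2)
  have B := (hasSum_J1_ray hm20 hm2 hξ1.le (hξ.trans hξu)).mul_left (1 - ρ ^ 2)
  have D := hG.sub A
  have D1 := (hG1.sub B).mul_left ((ξ / ξ1) ^ 2)
  have hle : (ξ / ξ1) ^ 2 * (G1 - (1 - ρ ^ 2) * (J1 m2 (ξ1 * m2) / m2)) ≤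
      G - (1 - ρ ^ 2) * (J1 m (ξ * m) / m) := by
    refine hasSum_le (fun k => ?_) D1 D
    have hmu := mu_pos k
    have hη0 : 0 ≤ m / (1 - m) := div_nonneg hm.le (by linarith)
    have hηm : (m / (1 - m)) ^ (2 * k + 1) ≤ (m2 / (1 - m2)) ^ (2 * k + 1) :=
      pow_le_pow_left₀ hη0 (eta_mono hmm (by linarith)) _
    have hr : 0 ≤ 1 - ρ ^ 2 := by nlinarith
    have hr2 : 1 - ρ ^ 2 ≤ 1 - (ρ ^ 2) ^ (k + 1) := by
      have : (ρ ^ 2) ^ (k + 1) ≤ (ρ ^ 2) ^ 1 := pow_le_pow_of_le_one (by positivity) (by nlinarith) (by omega)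
      rw [pow_one] at this; linarith
    have hxk := hx k
    have hη20 : 0 ≤ (m2 / (1 - m2)) ^ (2 * k + 1) := by
      have : 0 ≤ m2 / (1 - m2) := div_nonneg hm20.le (by linarith)
      positivity
    have hZ2 : 0 ≤ x k * (1 - (ρ ^ 2) ^ (k + 1)) - (1 - ρ ^ 2) * (1 + (m2 / (1 - m2)) ^ (2 * k + 1)) := by
      have : (1 - ρ ^ 2) * (1 + (m2 / (1 - m2)) ^ (2 * k + 1)) ≤ (1 - (ρ ^ 2) ^ (k + 1)) * x k :=
        mul_le_mul hr2 hxk (by positivity) (by linarith)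
      linarith
    have hZ : x k * (1 - (ρ ^ 2) ^ (k + 1)) - (1 - ρ ^ 2) * (1 + (m2 / (1 - m2)) ^ (2 * k + 1)) ≤
      x k * (1 - (ρ ^ 2) ^ (k + 1)) - (1 - ρ ^ 2) * (1 + (m / (1 - m)) ^ (2 * k + 1)) := by
      have := mul_le_mul_of_nonneg_left hηm hr
      linarith
    have hp : (ξ / ξ1) ^ 2 * ξ1 ^ (2 * k + 2) ≤ ξ ^ (2 * k + 2) := by
      have e1 : (ξ / ξ1) ^ 2 * ξ1 ^ (2 * k + 2) = ξ ^ 2 * ξ1 ^ (2 * k) := by
        rw [div_pow, pow_add]; field_simp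
      have e2 : ξ ^ (2 * k + 2) = ξ ^ 2 * ξ ^ (2 * k) := by rw [← pow_add]; congr 1; ring
      rw [e1, e2]
      exact mul_le_mul_of_nonneg_left (pow_le_pow_left₀ hξ1.le hξ _) (by positivity)
    set Z2 := x k * (1 - (ρ ^ 2) ^ (k + 1)) - (1 - ρ ^ 2) * (1 + (m2 / (1 - m2)) ^ (2 * k + 1)) with hZ2d
    set Z := x k * (1 - (ρ ^ 2) ^ (k + 1)) - (1 - ρ ^ 2) * (1 + (m / (1 - m)) ^ (2 * k + 1)) with hZd
    calc (ξ / ξ1) ^ 2 * (mu k * x k * ξ1 ^ (2 * k + 2) * (1 - (ρ ^ 2) ^ (k + 1)) -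
          (1 - ρ ^ 2) * (mu k * ξ1 ^ (2 * k + 2) * (1 + (m2 / (1 - m2)) ^ (2 * k + 1))))
        = mu k * (((ξ / ξ1) ^ 2 * ξ1 ^ (2 * k + 2)) * Z2) := by rw [hZ2d]; ring
      _ ≤ mu k * (ξ ^ (2 * k + 2) * Z) := by
          apply mul_le_mul_of_nonneg_left _ hmu.le
          exact mul_le_mul hp hZ hZ2 (by positivity)
      _ = mu k * x k * ξ ^ (2 * k + 2) * (1 - (ρ ^ 2) ^ (k + 1)) -
          (1 - ρ ^ 2) * (mu k * ξ ^ (2 * k + 2) * (1 + (m / (1 - m)) ^ (2 * k + 1))) := by rw [hZd]; ring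
  rw [GapJ_eq] at h ⊢
  have e1 : ((1 - ρ ^ 2) * J1 m2 (ξ1 * m2) + bb ρ * (4 * (ξ1 * m2) ^ 2)) / m2 =
    (1 - ρ ^ 2) * (J1 m2 (ξ1 * m2) / m2) + 4 * m2 * bb ρ * ξ1 ^ 2 := by field_simp
  have e2 : ((1 - ρ ^ 2) * J1 m (ξ * m) + bb ρ * (4 * (ξ * m) ^ 2)) / m =
    (1 - ρ ^ 2) * (J1 m (ξ * m) / m) + 4 * m * bb ρ * ξ ^ 2 := by field_simp
  rw [e1] at h
  rw [e2]
  have h3 : 4 * m2 * bb ρ * ξ1 ^ 2 ≤ G1 - (1 - ρ ^ 2) * (J1 m2 (ξ1 * m2) / m2) := by linarith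
  have h4 := mul_le_mul_of_nonneg_left h3 (by positivity : 0 ≤ (ξ / ξ1) ^ 2)
  have e3 : (ξ / ξ1) ^ 2 * (4 * m2 * bb ρ * ξ1 ^ 2) = 4 * m2 * bb ρ * ξ ^ 2 := by field_simp
  rw [e3] at h4
  have h5 : 4 * m * bb ρ * ξ ^ 2 ≤ 4 * m2 * bb ρ * ξ ^ 2 := by
    have := mul_le_mul_of_nonneg_right hmm (by positivity : 0 ≤ 4 * bb ρ * ξ ^ 2)
    linarith
  linarith

/-- box lemma on rays, from the limit `ξ → 0`. -/
theorem ray_box0 {x : ℕ → ℝ} {ρ m m2 ξ G : ℝ} (h0 : 0 ≤ ρ) (h1 : ρ ≤ 1) (hm : 0 < m)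
    (hmm : m ≤ m2) (hm2 : m2 ≤ 1 / 2) (hx : ∀ k : ℕ, 1 + (m2 / (1 - m2)) ^ (2 * k + 1) ≤ x k)
    (hξ0 : 0 ≤ ξ) (hξu : ξ ≤ 1)
    (hG : HasSum (fun k : ℕ => mu k * x k * ξ ^ (2 * k + 2) * (1 - (ρ ^ 2) ^ (k + 1))) G)
    (h : 4 * m2 * bb ρ ≤ (1 - ρ ^ 2) / 2 * (x 0 - (1 + m2 / (1 - m2)))) :
    GapJ ρ m (ξ * m) / m ≤ G := by
  have hm20 : 0 < m2 := by linarith
  have hb := bb_nonneg h0 h1
  have A := (hasSum_J1_ray hm (by linarith : m ≤ 1 / 2) hξ0 hξu).mul_left (1 - ρ ^ 2)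
  have D := hG.sub A
  have hle : ξ ^ 2 * ((1 - ρ ^ 2) / 2 * (x 0 - (1 + m2 / (1 - m2)))) ≤
      G - (1 - ρ ^ 2) * (J1 m (ξ * m) / m) := by
    have hs := sum_le_hasSum (range 1) (fun k _ => ?_) D
    · refine le_trans ?_ hs
      rw [sum_range_one, mu_zero]
      have hηm : m / (1 - m) ≤ m2 / (1 - m2) := eta_mono hmm (by linarith)
      have hr : 0 ≤ 1 - ρ ^ 2 := by nlinarith
      norm_num
      have : 0 ≤ ξ ^ 2 * (1 - ρ ^ 2) * (m2 / (1 - m2) - m / (1 - m)) := by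
        apply mul_nonneg (by positivity); linarith
      nlinarith
    · have hmu := mu_pos k
      have hη0 : 0 ≤ m / (1 - m) := div_nonneg hm.le (by linarith)
      have hηm : (m / (1 - m)) ^ (2 * k + 1) ≤ (m2 / (1 - m2)) ^ (2 * k + 1) :=
        pow_le_pow_left₀ hη0 (eta_mono hmm (by linarith)) _
      have hr : 0 ≤ 1 - ρ ^ 2 := by nlinarith
      have hr2 : 1 - ρ ^ 2 ≤ 1 - (ρ ^ 2) ^ (k + 1) := by
        have : (ρ ^ 2) ^ (k + 1) ≤ (ρ ^ 2) ^ 1 := pow_le_pow_of_le_one (by positivity) (by nlinarith) (by omega)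
        rw [pow_one] at this; linarith
      have hxk := hx k
      have hη20 : 0 ≤ (m / (1 - m)) ^ (2 * k + 1) := by positivity
      have : (1 - ρ ^ 2) * (1 + (m / (1 - m)) ^ (2 * k + 1)) ≤ (1 - (ρ ^ 2) ^ (k + 1)) * x k :=
        mul_le_mul hr2 (by linarith) (by positivity) (by linarith)
      have hp : 0 ≤ mu k * ξ ^ (2 * k + 2) := by positivity
      nlinarith [mul_nonneg hp (sub_nonneg.mpr this)]
  rw [GapJ_eq]
  have e2 : ((1 - ρ ^ 2) * J1 m (ξ * m) + bb ρ * (4 * (ξ * m) ^ 2)) / m =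
    (1 - ρ ^ 2) * (J1 m (ξ * m) / m) + 4 * m * bb ρ * ξ ^ 2 := by field_simp
  rw [e2]
  have h4 := mul_le_mul_of_nonneg_left h (by positivity : 0 ≤ ξ ^ 2)
  have h5 : 4 * m * bb ρ * ξ ^ 2 ≤ ξ ^ 2 * (4 * m2 * bb ρ) := by
    have := mul_le_mul_of_nonneg_right hmm (by positivity : 0 ≤ 4 * bb ρ * ξ ^ 2)
    linarith
  linarith

end P322
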