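import Vale.Agent.Lib.P322.Engine
import Vale.Agent.Lib.P322.KapB
import Vale.Agent.Lib.P322.MonoB

/-!
P322 (Courtade-Kumar): a fast one-sided fixed-point evaluator for `kap` (scale `2^40`), written
with raw `Nat` operations so that the kernel evaluates it quickly.
-/

namespace P322.H19

open Real

/-- `horLo y 6 0`, unrolled. -/
def hL (y : ℕ) : ℕ :=
  Nat.add (nat_lit 1099511627776) (Nat.div (Nat.mul y (
  Nat.add (nat_lit 366503875925) (Nat.div (Nat.mul y (
  Nat.add (nat_lit 219902325555) (Nat.div (Nat.mul y (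
  Nat.add (nat_lit 157073089682) (Nat.div (Nat.mul y (
  Nat.add (nat_lit 122167958641) (Nat.div (Nat.mul y (
  Nat.add (nat_lit 99955602525) (Nat.div (Nat.mul y (nat_lit 0)) (nat_lit 1099511627776))))
  (nat_lit 1099511627776)))) (nat_lit 1099511627776)))) (nat_lit 1099511627776))))
  (nat_lit 1099511627776)))) (nat_lit 1099511627776))

/-- `horHi y 6 0`, unrolled. -/
def hH (y : ℕ) : ℕ :=
  Nat.add (nat_lit 1099511627778) (Nat.div (Nat.mul y (
  Nat.add (nat_lit 366503875927) (Nat.div (Nat.mul y (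
  Nat.add (nat_lit 219902325557) (Nat.div (Nat.mul y (
  Nat.add (nat_lit 157073089684) (Nat.div (Nat.mul y (
  Nat.add (nat_lit 122167958643) (Nat.div (Nat.mul y (
  Nat.add (nat_lit 99955602527) (Nat.div (Nat.mul y (nat_lit 95150044712)) (nat_lit 1099511627776))))
  (nat_lit 1099511627776)))) (nat_lit 1099511627776)))) (nat_lit 1099511627776))))
  (nat_lit 1099511627776)))) (nat_lit 1099511627776))

lemma hL_eq (y : ℕ) : hL y = horLo y 6 0 := rfl

lemma hH_eq (y : ℕ) : hH y = horHi y 6 0 := rfl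

/-- lower bound of `log ((1+z)/(1-z))`. -/
def atLo (z : ℕ) : ℕ :=
  Nat.div (Nat.mul z (hL (Nat.div (Nat.mul z z) (nat_lit 1099511627776)))) (nat_lit 549755813888)

/-- upper bound of `log ((1+z)/(1-z))`. -/
def atHi (z : ℕ) : ℕ :=
  Nat.add (Nat.div (Nat.mul z (hH (Nat.add (Nat.div (Nat.mul z z) (nat_lit 1099511627776)) (nat_lit 1))))
    (nat_lit 549755813888)) (nat_lit 1)

lemma atLo_eq (z : ℕ) : atLo z = z * hL (z * z / 1099511627776) / 549755813888 := rfl

lemma atHi_eq (z : ℕ) : atHi z = z * hH (z * z / 1099511627776 + 1) / 549755813888 + 1 := rfl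

lemma atLo_le {z : ℕ} {x : ℝ} (hz : (z : ℝ) / 1099511627776 ≤ x) (hx : x < 1) :
    (atLo z : ℝ) / 1099511627776 ≤ log (1 + x) - log (1 - x) := by
  have hx0 : 0 ≤ x := le_trans (by positivity) hz
  refine le_trans ?_ (two_mul_PS_le hx0 hx 6)
  rw [atLo_eq, hL_eq]
  have h2 : ((z * z / 1099511627776 : ℕ) : ℝ) / 1099511627776 ≤ x ^ 2 := by
    have := div_le_cast (z * z) 1099511627776
    calc ((z * z / 1099511627776 : ℕ) : ℝ) / 1099511627776 ≤
        (((z * z : ℕ) : ℝ) / ((1099511627776 : ℕ) : ℝ)) / 1099511627776 :=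
          div_le_div_of_nonneg_right this (by norm_num)
      _ = ((z : ℝ) / 1099511627776) ^ 2 := by push_cast; ring
      _ ≤ x ^ 2 := pow_le_pow_left₀ (by positivity) hz 2
  have h3 := horLo_le h2 6 0
  set hh := horLo (z * z / 1099511627776) 6 0
  have h4 := div_le_cast (z * hh) 549755813888
  have h5 : ((z : ℝ) / 1099511627776) * ((hh : ℝ) / 1099511627776) ≤ x * PS (x ^ 2) 6 0 :=
    mul_le_mul hz h3 (by positivity) hx0
  push_cast at h4 ⊢
  calc ((z * hh / 549755813888 : ℕ) : ℝ) / 1099511627776 ≤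
      ((z : ℝ) * hh / 549755813888) / 1099511627776 :=
        div_le_div_of_nonneg_right h4 (by norm_num)
    _ = 2 * (((z : ℝ) / 1099511627776) * ((hh : ℝ) / 1099511627776)) := by ring
    _ ≤ 2 * x * PS (x ^ 2) 6 0 := by linarith

lemma QS_nonneg {y : ℝ} (hy : 0 ≤ y) : ∀ n k, 0 ≤ QS y n k := by
  intro n
  induction n with
  | zero => intro k; rw [QS]; positivity
  | succ n ih => intro k; rw [QS]; have := ih (k + 1); positivity

lemma le_atHi {z : ℕ} {x : ℝ} (hz : x ≤ (z : ℝ) / 1099511627776) (hx0 : 0 ≤ x) (hx : x ≤ 1 / 3) :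
    log (1 + x) - log (1 - x) ≤ (atHi z : ℝ) / 1099511627776 := by
  refine le_trans (le_two_mul_QS hx0 hx 6) ?_
  rw [atHi_eq, hH_eq]
  have h2 : x ^ 2 ≤ ((z * z / 1099511627776 + 1 : ℕ) : ℝ) / 1099511627776 := by
    have := cast_le_div_add_one (z * z) 1099511627776 (by norm_num)
    calc x ^ 2 ≤ ((z : ℝ) / 1099511627776) ^ 2 := pow_le_pow_left₀ hx0 hz 2
      _ = (((z * z : ℕ) : ℝ) / ((1099511627776 : ℕ) : ℝ)) / 1099511627776 := by push_cast; ring
      _ ≤ _ := by
        apply div_le_div_of_nonneg_right _ (by norm_num)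
        push_cast at this ⊢
        exact this
  have h3 := le_horHi (sq_nonneg x) h2 6 0
  set hh := horHi (z * z / 1099511627776 + 1) 6 0
  have h4 := cast_le_div_add_one (z * hh) 549755813888 (by norm_num)
  have h5 : x * QS (x ^ 2) 6 0 ≤ ((z : ℝ) / 1099511627776) * ((hh : ℝ) / 1099511627776) :=
    mul_le_mul hz h3 (QS_nonneg (sq_nonneg x) 6 0) (by positivity)
  push_cast at h4 ⊢
  calc 2 * x * QS (x ^ 2) 6 0 = 2 * (x * QS (x ^ 2) 6 0) := by ring
    _ ≤ 2 * (((z : ℝ) / 1099511627776) * ((hh : ℝ) / 1099511627776)) := by linarith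
    _ = ((z : ℝ) * hh / 549755813888) / 1099511627776 := by ring
    _ ≤ (((z * hh / 549755813888 : ℕ) : ℝ) + 1) / 1099511627776 :=
        div_le_div_of_nonneg_right h4 (by norm_num)

/-- bounds for `log (1 + v)`. -/
def l1Lo (v : ℕ) : ℕ :=
  atLo (Nat.div (Nat.mul v (nat_lit 1099511627776)) (Nat.add (nat_lit 2199023255552) v))

def l1Hi (v : ℕ) : ℕ :=
  atHi (Nat.add (Nat.div (Nat.mul v (nat_lit 1099511627776)) (Nat.add (nat_lit 2199023255552) v)) (nat_lit 1))

lemma l1Lo_eq (v : ℕ) : l1Lo v = atLo (v * 1099511627776 / (2199023255552 + v)) := rfl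

lemma l1Hi_eq (v : ℕ) : l1Hi v = atHi (v * 1099511627776 / (2199023255552 + v) + 1) := rfl

lemma log_one_add_eq {x : ℝ} (h0 : 0 ≤ x) :
    log (1 + x / (2 + x)) - log (1 - x / (2 + x)) = log (1 + x) := by
  have e1 : 1 + x / (2 + x) = 2 * (1 + x) / (2 + x) := by field_simp; ring
  have e2 : 1 - x / (2 + x) = 2 / (2 + x) := by field_simp; ring
  rw [e1, e2, log_div (by positivity) (by positivity), log_div (by norm_num) (by positivity),
    log_mul (by norm_num) (by positivity)]
  ring

lemma log_one_sub_eq {x : ℝ} (h1 : x < 1) :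
    log (1 + x / (2 - x)) - log (1 - x / (2 - x)) = - log (1 - x) := by
  have h2 : (2 : ℝ) - x ≠ 0 := by linarith
  have h3 : (1 : ℝ) - x ≠ 0 := by linarith
  have e1 : 1 + x / (2 - x) = 2 / (2 - x) := by field_simp; ring
  have e2 : 1 - x / (2 - x) = 2 * (1 - x) / (2 - x) := by field_simp; ring
  rw [e1, e2, log_div (by norm_num) h2, log_div (by simpa using h3) h2, log_mul (by norm_num) h3]
  ring

lemma l1Lo_le (v : ℕ) : (l1Lo v : ℝ) / 1099511627776 ≤ log (1 + (v : ℝ) / 1099511627776) := by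
  rw [← log_one_add_eq (by positivity), l1Lo_eq]
  have hv : (0 : ℝ) ≤ v := by positivity
  apply atLo_le
  · have := div_le_cast (v * 1099511627776) (2199023255552 + v)
    rw [div_le_iff₀ (by norm_num)]
    refine le_trans this (le_of_eq ?_)
    push_cast
    field_simp
    ring
  · rw [div_lt_one (by positivity)]
    linarith

lemma le_l1Hi {v : ℕ} (hv1 : v ≤ 1099511627776) :
    log (1 + (v : ℝ) / 1099511627776) ≤ (l1Hi v : ℝ) / 1099511627776 := by
  rw [← log_one_add_eq (by positivity), l1Hi_eq]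
  have hv : (0 : ℝ) ≤ v := by positivity
  have hv1R : (v : ℝ) ≤ 1099511627776 := by exact_mod_cast hv1
  apply le_atHi
  · have := cast_le_div_add_one (v * 1099511627776) (2199023255552 + v) (by omega)
    rw [le_div_iff₀ (by norm_num)]
    push_cast at this ⊢
    refine le_trans (le_of_eq ?_) this
    field_simp
    ring
  · positivity
  · rw [div_le_div_iff₀ (by positivity) (by norm_num)]
    have : (v : ℝ) / 1099511627776 ≤ 1 := by rw [div_le_one (by norm_num)]; exact hv1R
    linarith

/-- bounds for `- log (1 - v)`, large `v`; `n = 2^40 - v`, `p = 2^j`, `j = log2 n`. -/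
def l2LoB (n p j : ℕ) : ℕ :=
  Nat.sub (Nat.mul (Nat.sub (nat_lit 40) j) (nat_lit 762123384784))
    (atHi (Nat.add (Nat.div (Nat.mul (Nat.sub n p) (nat_lit 1099511627776)) (Nat.add n p)) (nat_lit 1)))

def l2HiB (n p j : ℕ) : ℕ :=
  Nat.sub (Nat.mul (Nat.sub (nat_lit 40) j) (nat_lit 762123384788))
    (atLo (Nat.div (Nat.mul (Nat.sub n p) (nat_lit 1099511627776)) (Nat.add n p)))

lemma l2LoB_eq (n p j : ℕ) : l2LoB n p j = (40 - j) * 762123384784 -
    atHi ((n - p) * 1099511627776 / (n + p) + 1) := rfl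

lemma l2HiB_eq (n p j : ℕ) : l2HiB n p j = (40 - j) * 762123384788 -
    atLo ((n - p) * 1099511627776 / (n + p)) := rfl

/-- bounds for `- log (1 - v)`. -/
def l2Lo (v : ℕ) : ℕ :=
  bif Nat.ble v (nat_lit 549755813888) then
    atLo (Nat.div (Nat.mul v (nat_lit 1099511627776)) (Nat.sub (nat_lit 2199023255552) v))
  else
    l2LoB (Nat.sub (nat_lit 1099511627776) v)
      (Nat.pow (nat_lit 2) (Nat.log2 (Nat.sub (nat_lit 1099511627776) v)))
      (Nat.log2 (Nat.sub (nat_lit 1099511627776) v))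

def l2Hi (v : ℕ) : ℕ :=
  bif Nat.ble v (nat_lit 549755813888) then
    atHi (Nat.add (Nat.div (Nat.mul v (nat_lit 1099511627776)) (Nat.sub (nat_lit 2199023255552) v)) (nat_lit 1))
  else
    l2HiB (Nat.sub (nat_lit 1099511627776) v)
      (Nat.pow (nat_lit 2) (Nat.log2 (Nat.sub (nat_lit 1099511627776) v)))
      (Nat.log2 (Nat.sub (nat_lit 1099511627776) v))

lemma l2Lo_eq (v : ℕ) : l2Lo v = bif Nat.ble v 549755813888 then
    atLo (v * 1099511627776 / (2199023255552 - v)) else
    l2LoB (1099511627776 - v) (2 ^ Nat.log2 (1099511627776 - v)) (Nat.log2 (1099511627776 - v)) := rfl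

lemma l2Hi_eq (v : ℕ) : l2Hi v = bif Nat.ble v 549755813888 then
    atHi (v * 1099511627776 / (2199023255552 - v) + 1) else
    l2HiB (1099511627776 - v) (2 ^ Nat.log2 (1099511627776 - v)) (Nat.log2 (1099511627776 - v)) := rfl

lemma l2_aux {v : ℕ} (hv : v < 1099511627776) :
    1 - (v : ℝ) / 1099511627776 = ((1099511627776 - v : ℕ) : ℝ) / 1099511627776 := by
  rw [Nat.cast_sub hv.le]
  push_cast
  ring

lemma l2LoB_le {n : ℕ} (hn0 : 0 < n) (hnS : n ≤ 1099511627776) :
    (l2LoB n (2 ^ Nat.log2 n) (Nat.log2 n) : ℝ) / 1099511627776 ≤ - log ((n : ℝ) / 1099511627776) := by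
  have he := log2_le_forty hn0 hnS
  have hpos : 0 ≤ - log ((n : ℝ) / 1099511627776) := by
    have := Real.log_nonpos (x := (n : ℝ) / 1099511627776) (by positivity)
      (by rw [div_le_one (by norm_num)]; exact_mod_cast hnS)
    linarith
  rw [l2LoB_eq]
  obtain ⟨z, hz0, hz1, hz, hlog⟩ := log_ratio hn0
  generalize 2 ^ Nat.log2 n = p at *
  generalize Nat.log2 n = j at *
  have h1 : z ≤ (((n - p) * 1099511627776 / (n + p) + 1 : ℕ) : ℝ) / 1099511627776 := by
    have := cast_le_div_add_one ((n - p) * 1099511627776) (n + p) (Nat.add_pos_left hn0 _)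
    rw [le_div_iff₀ (by norm_num), hz]
    push_cast at this ⊢
    refine le_trans (le_of_eq ?_) this
    ring
  have h2 := le_atHi h1 hz0 hz1
  rw [hlog] at h2
  generalize atHi ((n - p) * 1099511627776 / (n + p) + 1) = A at *
  rcases le_total A ((40 - j) * 762123384784) with hle | hle
  · rw [Nat.cast_sub hle, log_div_scale hn0]
    push_cast
    rw [Nat.cast_sub he, sub_div]
    have h3 : (0 : ℝ) ≤ (40 : ℕ) - (j : ℝ) := by
      have : (j : ℝ) ≤ 40 := by exact_mod_cast he
      push_cast; linarith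
    have h4 := mul_le_mul_of_nonneg_left log2_bounds.1 h3
    push_cast at h3 h4 ⊢
    have h5 : (40 - (j : ℝ)) * 762123384784 / 1099511627776 =
      (40 - (j : ℝ)) * (762123384784 / 1099511627776) := by ring
    rw [h5]
    linarith
  · rw [Nat.sub_eq_zero_of_le hle]
    simpa using hpos

lemma le_l2HiB {n : ℕ} (hn0 : 0 < n) (hnS : n ≤ 1099511627776) :
    - log ((n : ℝ) / 1099511627776) ≤ (l2HiB n (2 ^ Nat.log2 n) (Nat.log2 n) : ℝ) / 1099511627776 := by
  have he := log2_le_forty hn0 hnS
  rw [l2HiB_eq]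
  obtain ⟨z, hz0, hz1, hz, hlog⟩ := log_ratio hn0
  generalize 2 ^ Nat.log2 n = p at *
  generalize Nat.log2 n = j at *
  have h1 : (((n - p) * 1099511627776 / (n + p) : ℕ) : ℝ) / 1099511627776 ≤ z := by
    have := div_le_cast ((n - p) * 1099511627776) (n + p)
    rw [div_le_iff₀ (by norm_num), hz]
    refine le_trans this (le_of_eq ?_)
    push_cast; ring
  have h2 := atLo_le h1 (by linarith)
  rw [hlog] at h2
  generalize atLo ((n - p) * 1099511627776 / (n + p)) = A at *
  have h3 : (0 : ℝ) ≤ (40 : ℕ) - (j : ℝ) := by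
    have : (j : ℝ) ≤ 40 := by exact_mod_cast he
    push_cast; linarith
  have h4 := mul_le_mul_of_nonneg_left log2_bounds.2 h3
  obtain ⟨B, hB⟩ : ∃ B, B = (40 - j) * 762123384788 := ⟨_, rfl⟩
  rw [← hB]
  have h6 : B ≤ A + (B - A) := by omega
  have h6R : (B : ℝ) ≤ (A : ℝ) + ((B - A : ℕ) : ℝ) := by exact_mod_cast h6
  have hBR : (B : ℝ) = ((40 : ℕ) - (j : ℝ)) * 762123384788 := by
    rw [hB]; push_cast; rw [Nat.cast_sub he]; push_cast; ring
  rw [hBR] at h6R
  rw [log_div_scale hn0]
  push_cast at h3 h4 h6R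
  have h7 := div_le_div_of_nonneg_right h6R (by norm_num : (0:ℝ) ≤ 1099511627776)
  rw [add_div] at h7
  have h5 : (40 - (j : ℝ)) * 762123384788 / 1099511627776 =
      (40 - (j : ℝ)) * (762123384788 / 1099511627776) := by ring
  rw [h5] at h7
  linarith

lemma at_small_lo {v : ℕ} (hv : v < 1099511627776) :
    (atLo (v * 1099511627776 / (2199023255552 - v)) : ℝ) / 1099511627776 ≤
      - log (1 - (v : ℝ) / 1099511627776) := by
  have hvR : (v : ℝ) < 1099511627776 := by exact_mod_cast hv
  have hv0 : (0 : ℝ) ≤ v := by positivity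
  have h3 : (v : ℝ) / 1099511627776 < 1 := by rw [div_lt_one (by norm_num)]; exact hvR
  rw [← log_one_sub_eq h3]
  have e0 : (2 : ℝ) - v / 1099511627776 = (2199023255552 - v) / 1099511627776 := by ring
  have hc : ((2199023255552 - v : ℕ) : ℝ) = 2199023255552 - v := by
    rw [Nat.cast_sub (by omega)]; norm_num
  obtain ⟨q, hqe⟩ : ∃ q, q = (2199023255552 - v : ℕ) := ⟨_, rfl⟩
  rw [← hqe] at hc ⊢
  apply atLo_le
  · have := div_le_cast (v * 1099511627776) q
    rw [div_le_iff₀ (by norm_num)]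
    refine le_trans this (le_of_eq ?_)
    rw [hc, e0, div_div_div_cancel_right₀ (by norm_num)]
    push_cast
    ring
  · rw [div_lt_one (by linarith)]
    linarith

lemma at_small_hi {v : ℕ} (hv : v ≤ 549755813888) :
    - log (1 - (v : ℝ) / 1099511627776) ≤
      (atHi (v * 1099511627776 / (2199023255552 - v) + 1) : ℝ) / 1099511627776 := by
  have hvR : (v : ℝ) ≤ 549755813888 := by exact_mod_cast hv
  have hv0 : (0 : ℝ) ≤ v := by positivity
  have h3 : (v : ℝ) / 1099511627776 ≤ 1 / 2 := by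
    rw [div_le_div_iff₀ (by norm_num) (by norm_num)]; linarith
  have h4 : 0 ≤ (v : ℝ) / 1099511627776 := by positivity
  rw [← log_one_sub_eq (by linarith)]
  have e0 : (2 : ℝ) - v / 1099511627776 = (2199023255552 - v) / 1099511627776 := by ring
  have hc : ((2199023255552 - v : ℕ) : ℝ) = 2199023255552 - v := by
    rw [Nat.cast_sub (by omega)]; norm_num
  have hq : 0 < (2199023255552 - v : ℕ) := by omega
  obtain ⟨q, hqe⟩ : ∃ q, q = (2199023255552 - v : ℕ) := ⟨_, rfl⟩
  rw [← hqe] at hc hq ⊢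
  apply le_atHi
  · have := cast_le_div_add_one (v * 1099511627776) q hq
    rw [le_div_iff₀ (by norm_num)]
    push_cast at this ⊢
    refine le_trans (le_of_eq ?_) this
    rw [hc, e0, div_div_div_cancel_right₀ (by norm_num)]
    ring
  · apply div_nonneg h4; linarith
  · rw [div_le_div_iff₀ (by linarith) (by norm_num)]
    linarith

lemma l2Lo_le {v : ℕ} (hv : v < 1099511627776) :
    (l2Lo v : ℝ) / 1099511627776 ≤ - log (1 - (v : ℝ) / 1099511627776) := by
  rw [l2Lo_eq]
  by_cases hb : Nat.ble v 549755813888 = true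
  · rw [hb, cond_true]
    exact at_small_lo hv
  · rw [Bool.eq_false_iff.mpr hb, cond_false, l2_aux hv]
    have hn0 : 0 < 1099511627776 - v := by omega
    have hnS : 1099511627776 - v ≤ 1099511627776 := by omega
    generalize 1099511627776 - v = n at *
    exact l2LoB_le hn0 hnS

lemma le_l2Hi {v : ℕ} (hv : v < 1099511627776) :
    - log (1 - (v : ℝ) / 1099511627776) ≤ (l2Hi v : ℝ) / 1099511627776 := by
  rw [l2Hi_eq]
  by_cases hb : Nat.ble v 549755813888 = true
  · rw [hb, cond_true]
    exact at_small_hi (Nat.le_of_ble_eq_true hb)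
  · rw [Bool.eq_false_iff.mpr hb, cond_false, l2_aux hv]
    have hn0 : 0 < 1099511627776 - v := by omega
    have hnS : 1099511627776 - v ≤ 1099511627776 := by omega
    generalize 1099511627776 - v = n at *
    exact le_l2HiB hn0 hnS

/-- bounds for `kap v`, `v ≤ 1`. -/
def kapLo (v : ℕ) : ℕ :=
  Nat.div (Nat.sub (Nat.mul (Nat.add (nat_lit 1099511627776) v) (l1Lo v))
    (Nat.mul (Nat.sub (nat_lit 1099511627776) v) (l2Hi v))) (nat_lit 2199023255552)

def kapHi (v : ℕ) : ℕ :=
  bif Nat.ble (nat_lit 1099511627776) v then (nat_lit 762123384788) else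
  Nat.add (Nat.div (Nat.sub (Nat.mul (Nat.add (nat_lit 1099511627776) v) (l1Hi v))
    (Nat.mul (Nat.sub (nat_lit 1099511627776) v) (l2Lo v))) (nat_lit 2199023255552)) (nat_lit 1)

lemma kapLo_eq (v : ℕ) : kapLo v = ((1099511627776 + v) * l1Lo v - (1099511627776 - v) * l2Hi v) /
    2199023255552 := rfl

lemma kapHi_eq (v : ℕ) : kapHi v = bif Nat.ble 1099511627776 v then 762123384788 else
    ((1099511627776 + v) * l1Hi v - (1099511627776 - v) * l2Lo v) / 2199023255552 + 1 := rfl

lemma kapLo_le {a : ℕ} {v : ℝ} (ha : (a : ℝ) / 1099511627776 ≤ v) (hv : v ≤ 1) :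
    (kapLo a : ℝ) / 1099511627776 ≤ kap v := by
  have ha0 : 0 ≤ (a : ℝ) / 1099511627776 := by positivity
  have haS : a ≤ 1099511627776 := by
    have : (a : ℝ) / 1099511627776 ≤ 1 := ha.trans hv
    rw [div_le_one (by norm_num)] at this
    exact_mod_cast this
  refine le_trans ?_ (kap_mono ha0 ha hv)
  rw [kapLo_eq, kap_eq]
  have h1 := l1Lo_le a
  set A := l1Lo a
  rcases Nat.lt_or_ge a 1099511627776 with hlt | hge
  · have h2 := le_l2Hi hlt
    set B := l2Hi a
    have haR : (a : ℝ) ≤ 1099511627776 := by exact_mod_cast haS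
    rcases le_total ((1099511627776 - a) * B) ((1099511627776 + a) * A) with hle | hle
    · have h3 := div_le_cast ((1099511627776 + a) * A - (1099511627776 - a) * B) 2199023255552
      rw [Nat.cast_sub hle] at h3
      push_cast at h3
      rw [Nat.cast_sub haS] at h3
      push_cast at h3
      have h4 : (((1099511627776 + a) * A - (1099511627776 - a) * B : ℕ) / 2199023255552 : ℕ) ≤
        (((1099511627776 : ℝ) + a) * A - (1099511627776 - a) * B) / 2199023255552 := h3
      rw [div_le_iff₀ (by norm_num)]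
      refine h4.trans ?_
      have k1 := mul_le_mul_of_nonneg_left h1 (by positivity : 0 ≤ 1 + (a : ℝ) / 1099511627776)
      have k2 := mul_le_mul_of_nonneg_left h2 (by
        rw [sub_nonneg, div_le_one (by norm_num)]; exact haR : 0 ≤ 1 - (a : ℝ) / 1099511627776)
      have e1 : (((1099511627776 : ℝ) + a) * A - (1099511627776 - a) * B) / 2199023255552 =
        ((1 + (a : ℝ) / 1099511627776) * (A / 1099511627776) -
          (1 - (a : ℝ) / 1099511627776) * (B / 1099511627776)) / 2 * 1099511627776 := by ring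
      rw [e1]
      apply mul_le_mul_of_nonneg_right _ (by norm_num)
      linarith
    · rw [Nat.sub_eq_zero_of_le hle]
      have : 0 ≤ kap ((a : ℝ) / 1099511627776) := by
        have := kap_mono le_rfl ha0 (ha.trans hv)
        rwa [kap_zero] at this
      rw [kap_eq] at this
      simpa using this
  · have haeq : a = 1099511627776 := le_antisymm haS hge
    have e0 : (a : ℝ) / 1099511627776 = 1 := by rw [haeq]; norm_num
    rw [e0] at h1 ⊢
    have e1 : 1099511627776 - a = 0 := by omega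
    rw [e1, zero_mul, Nat.sub_zero, haeq]
    have h3 := div_le_cast ((1099511627776 + 1099511627776) * A) 2199023255552
    rw [div_le_iff₀ (by norm_num)]
    refine h3.trans ?_
    rw [div_le_iff₀ (by norm_num)] at h1
    push_cast
    norm_num at h1 ⊢
    linarith

lemma le_kapHi {a : ℕ} {v : ℝ} (ha : v ≤ (a : ℝ) / 1099511627776) (hv0 : 0 ≤ v) (hv : v ≤ 1) :
    kap v ≤ (kapHi a : ℝ) / 1099511627776 := by
  rw [kapHi_eq]
  by_cases hb : Nat.ble 1099511627776 a = true
  · rw [hb]
    simp only [cond_true]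
    refine le_trans (kap_le_log_two (by linarith) hv) ?_
    exact_mod_cast log2_bounds.2
  · have hb' : Nat.ble 1099511627776 a = false := Bool.eq_false_iff.mpr hb
    rw [hb']
    simp only [cond_false]
    have hlt : a < 1099511627776 := by
      by_contra hcon
      push Not at hcon
      exact hb (Nat.ble_eq_true_of_le hcon)
    have haR : (a : ℝ) ≤ 1099511627776 := by exact_mod_cast hlt.le
    have ha1 : (a : ℝ) / 1099511627776 ≤ 1 := by rw [div_le_one (by norm_num)]; exact haR
    refine le_trans (kap_mono hv0 ha ha1) ?_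
    rw [kap_eq]
    have h1 := le_l1Hi hlt.le
    have h2 := l2Lo_le hlt
    set A := l1Hi a
    set B := l2Lo a
    have h3 := cast_le_div_add_one ((1099511627776 + a) * A - (1099511627776 - a) * B) 2199023255552 (by norm_num)
    have h5 : (((1099511627776 : ℝ) + a) * A - (1099511627776 - a) * B) ≤
        (((1099511627776 + a) * A - (1099511627776 - a) * B : ℕ) : ℝ) := by
      have h6 : (1099511627776 + a) * A ≤ (1099511627776 - a) * B +
        ((1099511627776 + a) * A - (1099511627776 - a) * B) := by omega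
      have h6R : (((1099511627776 + a) * A : ℕ) : ℝ) ≤ (((1099511627776 - a) * B : ℕ) : ℝ) +
        (((1099511627776 + a) * A - (1099511627776 - a) * B : ℕ) : ℝ) := by exact_mod_cast h6
      push_cast at h6R
      rw [Nat.cast_sub hlt.le] at h6R
      push_cast at h6R
      linarith
    rw [le_div_iff₀ (by norm_num)]
    push_cast at h3 ⊢
    refine le_trans ?_ h3
    have h7 := div_le_div_of_nonneg_right h5 (by norm_num : (0:ℝ) ≤ 2199023255552)
    refine le_trans ?_ h7
    have k1 := mul_le_mul_of_nonneg_left h1 (by positivity : 0 ≤ 1 + (a : ℝ) / 1099511627776)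
    have k2 := mul_le_mul_of_nonneg_left h2 (by linarith : 0 ≤ 1 - (a : ℝ) / 1099511627776)
    have e1 : (((1099511627776 : ℝ) + a) * A - (1099511627776 - a) * B) / 2199023255552 =
        ((1 + (a : ℝ) / 1099511627776) * (A / 1099511627776) -
          (1 - (a : ℝ) / 1099511627776) * (B / 1099511627776)) / 2 * 1099511627776 := by ring
    rw [e1]
    apply mul_le_mul_of_nonneg_right _ (by norm_num)
    linarith

end P322.H19
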