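import Vale.Agent.Lib.P322.HomIneq

/-!
P322 (Courtade-Kumar): the static inequality and the flow in the last coordinate.
-/

namespace P322

open Real Set

/-- derivative of the binary entropy. -/
noncomputable def dh (z : ℝ) : ℝ := log (1 - z) - log z

lemma binEntropy_eq' (z : ℝ) : binEntropy z = - (z * log z) - (1 - z) * log (1 - z) := by
  rw [binEntropy_eq_negMulLog_add_negMulLog_one_sub]
  unfold negMulLog
  ring

/-- the `STAT` expression divided by `W` in homogeneous coordinates. -/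
lemma stat_hom {a0 c0 a c : ℝ} (ha0 : 0 < a0) (hc0 : 0 < c0) :
    ell a0 c0 * (((log (1 + a) - log a) + (log (1 + c) - log c)) / 2
        - ((log (1 + a0) - log a0) + (log (1 + c0) - log c0)) / 2
        + (1 + a0 + c0) / 2 * (a / (a0 * (1 + c0)) - (1 + a) / ((1 + a0) * c0)))
      + 1 / (2 * (c0 * (1 + c0))) * (EE a c - a * (log (1 + c0) - log a0)
          - (1 + a) * (log c0 - log (1 + a0))) =
    ell a0 c0 / 2 * (ff (1 / KK a0 c0) (- Gs (KK a0 c0) c0) a c
        - ff (1 / KK a0 c0) (- Gs (KK a0 c0) c0) a0 c0) := by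
  have hL := ell_pos ha0.le hc0
  unfold Gs
  rw [al_of_KK ha0.le hc0]
  unfold ff KK
  have hE0 : EE a0 c0 = (1 + a0 + c0) * (ell a0 c0 + log c0 + log (1 + c0)) - a0 * log a0 - (1 + a0) * log (1 + a0)
    - c0 * log c0 - (1 + c0) * log (1 + c0) := by
    unfold EE ell; ring
  have hell : ell c0 a0 = ell a0 c0 + log c0 + log (1 + c0) - log a0 - log (1 + a0) := by
    unfold ell
    have : 1 + c0 + a0 = 1 + a0 + c0 := by ring
    rw [this]; ring
  rw [hE0, hell]
  have h1 : 1 + a0 ≠ 0 := by positivity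
  have h2 : 1 + c0 ≠ 0 := by positivity
  field_simp
  ring

/-- the static expression. -/
noncomputable def stat (U0 V0 U V : ℝ) : ℝ :=
  (- log (1 - U0) - log (1 - V0)) * ((V - U) / 2 * (dh U - dh V) - (V - U) / 2 * (dh U0 - dh V0)
      + (V0 - U0) / 2 * (U / (U0 * (1 - U0)) - V / (V0 * (1 - V0))))
    + ((V0 - U0) ^ 2 / (2 * ((1 - U0) * (1 - V0)))) *
      (binEntropy U + binEntropy V - U * dh U0 - V * dh V0)

/-- homogeneous substitution -/
lemma log_sub {U V : ℝ} (hU : 0 < U) (hUV : U < V) (hV : V < 1) :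
    log U = log (U / (V - U)) + log (V - U) ∧ log V = log (1 + U / (V - U)) + log (V - U) ∧
    log (1 - U) = log (1 + (1 - V) / (V - U)) + log (V - U) ∧
    log (1 - V) = log ((1 - V) / (V - U)) + log (V - U) ∧
    log (1 + U / (V - U) + (1 - V) / (V - U)) = - log (V - U) := by
  have hW : 0 < V - U := by linarith
  have hV0 : 0 < V := by linarith
  have hU1 : 0 < 1 - U := by linarith
  have hV1 : 0 < 1 - V := by linarith
  have e1 : 1 + U / (V - U) = V / (V - U) := by field_simp; ring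
  have e2 : 1 + (1 - V) / (V - U) = (1 - U) / (V - U) := by field_simp; ring
  have e3 : 1 + U / (V - U) + (1 - V) / (V - U) = 1 / (V - U) := by field_simp; ring
  rw [e3, e1, e2, log_div hU.ne' hW.ne', log_div hV0.ne' hW.ne', log_div hU1.ne' hW.ne',
    log_div hV1.ne' hW.ne', log_div one_ne_zero hW.ne', log_one]
  refine ⟨by ring, by ring, by ring, by ring, by ring⟩

lemma stat_eq_hom {U0 V0 U V : ℝ} (hU0 : 0 < U0) (hUV0 : U0 < V0) (hV0 : V0 < 1)
    (hU : 0 < U) (hUV : U < V) (hV : V < 1) :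
    stat U0 V0 U V = (V - U) * (ell (U0 / (V0 - U0)) ((1 - V0) / (V0 - U0)) / 2 *
      (ff (1 / KK (U0 / (V0 - U0)) ((1 - V0) / (V0 - U0)))
          (- Gs (KK (U0 / (V0 - U0)) ((1 - V0) / (V0 - U0))) ((1 - V0) / (V0 - U0)))
          (U / (V - U)) ((1 - V) / (V - U))
        - ff (1 / KK (U0 / (V0 - U0)) ((1 - V0) / (V0 - U0)))
          (- Gs (KK (U0 / (V0 - U0)) ((1 - V0) / (V0 - U0))) ((1 - V0) / (V0 - U0)))
          (U0 / (V0 - U0)) ((1 - V0) / (V0 - U0)))) := by
  have hW0 : 0 < V0 - U0 := by linarith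
  have hW : 0 < V - U := by linarith
  have hV1 : 0 < 1 - V := by linarith
  have hV01 : 0 < 1 - V0 := by linarith
  have hU01 : 0 < 1 - U0 := by linarith
  have hV0' : 0 < V0 := by linarith
  obtain ⟨l1, l2, l3, l4, l5⟩ := log_sub hU hUV hV
  obtain ⟨m1, m2, m3, m4, m5⟩ := log_sub hU0 hUV0 hV0
  rw [← stat_hom (a0 := U0 / (V0 - U0)) (c0 := (1 - V0) / (V0 - U0)) (by positivity) (by positivity)]
  unfold stat dh
  rw [binEntropy_eq', binEntropy_eq']
  set a := U / (V - U) with ha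
  set c := (1 - V) / (V - U) with hc
  set a0 := U0 / (V0 - U0) with ha0
  set c0 := (1 - V0) / (V0 - U0) with hc0
  have ha0p : 0 < a0 := by positivity
  have hc0p : 0 < c0 := by positivity
  have hell : ell a0 c0 = - log (1 - U0) - log (1 - V0) := by
    unfold ell; rw [m5, m3, m4]; ring
  have hEE : (V - U) * EE a c = - (U * log U) - (1 - U) * log (1 - U) + (- (V * log V) - (1 - V) * log (1 - V)) := by
    unfold EE
    rw [l5, l1, l2, l3, l4]
    have f1 : (V - U) * a = U := by rw [ha]; field_simp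
    have f2 : (V - U) * c = 1 - V := by rw [hc]; field_simp
    have f3 : (V - U) * (1 + a + c) = 1 := by rw [mul_add, mul_add, f1, f2]; ring
    have f4 : (V - U) * (1 + a) = V := by rw [mul_add, f1]; ring
    have f5 : (V - U) * (1 + c) = 1 - U := by rw [mul_add, f2]; ring
    calc (V - U) * (2 * ((1 + a + c) * -log (V - U)) - a * log a - (1 + a) * log (1 + a) - c * log c - (1 + c) * log (1 + c))
        = - 2 * ((V - U) * (1 + a + c)) * log (V - U) - ((V - U) * a) * log a - ((V - U) * (1 + a)) * log (1 + a) - ((V - U) * c) * log c - ((V - U) * (1 + c)) * log (1 + c) := by ring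
      _ = _ := by rw [f1, f2, f3, f4, f5]; ring
  have hR : (log (1 - U) - log U - (log (1 - V) - log V)) = (log (1 + a) - log a) + (log (1 + c) - log c) := by
    rw [l1, l2, l3, l4]; ring
  have hR0 : (log (1 - U0) - log U0 - (log (1 - V0) - log V0)) = (log (1 + a0) - log a0) + (log (1 + c0) - log c0) := by
    rw [m1, m2, m3, m4]; ring
  have g1 : log (1 - U0) - log U0 = log (1 + c0) - log a0 := by rw [m1, m3]; ring
  have g2 : log (1 - V0) - log V0 = log c0 - log (1 + a0) := by rw [m2, m4]; ring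
  have f1 : (V - U) * a = U := by rw [ha]; field_simp
  have f4 : (V - U) * (1 + a) = V := by rw [mul_add, f1]; ring
  have k1 : (V - U) * ((1 + a0 + c0) / 2 * (a / (a0 * (1 + c0)) - (1 + a) / ((1 + a0) * c0))) =
      (V0 - U0) / 2 * (U / (U0 * (1 - U0)) - V / (V0 * (1 - V0))) := by
    have q1 : 1 + a0 + c0 = 1 / (V0 - U0) := by rw [ha0, hc0]; field_simp; ring
    have q2 : 1 + c0 = (1 - U0) / (V0 - U0) := by rw [hc0]; field_simp; ring
    have q3 : 1 + a0 = V0 / (V0 - U0) := by rw [ha0]; field_simp; ring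
    rw [q1, q2, q3, ha0, hc0]
    calc (V - U) * (1 / (V0 - U0) / 2 * (a / (U0 / (V0 - U0) * ((1 - U0) / (V0 - U0))) - (1 + a) / (V0 / (V0 - U0) * ((1 - V0) / (V0 - U0)))))
        = (1 / (V0 - U0) / 2 * (((V - U) * a) / (U0 / (V0 - U0) * ((1 - U0) / (V0 - U0))) - ((V - U) * (1 + a)) / (V0 / (V0 - U0) * ((1 - V0) / (V0 - U0))))) := by ring
      _ = _ := by rw [f1, f4]; field_simp
  have k2 : 1 / (2 * (c0 * (1 + c0))) = (V0 - U0) ^ 2 / (2 * ((1 - U0) * (1 - V0))) := by
    have q2 : 1 + c0 = (1 - U0) / (V0 - U0) := by rw [hc0]; field_simp; ring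
    rw [q2, hc0]; field_simp
  rw [← hell, g1, g2, ← k1, ← k2]
  have hEE' : binEntropy U + binEntropy V = (V - U) * EE a c := by
    rw [binEntropy_eq', binEntropy_eq', hEE]
  have hR' := hR
  have : -(U * log U) - (1 - U) * log (1 - U) + (-(V * log V) - (1 - V) * log (1 - V)) = (V - U) * EE a c := hEE.symm
  rw [this, hR]
  have r1 : (log (1 + c0) - log a0 - (log c0 - log (1 + a0))) = (log (1 + a0) - log a0) + (log (1 + c0) - log c0) := by ring
  rw [r1]
  set X1 := (1 + a0 + c0) / 2 * (a / (a0 * (1 + c0)) - (1 + a) / ((1 + a0) * c0)) with hX1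
  set X2 := 1 / (2 * (c0 * (1 + c0))) with hX2
  linear_combination X2 * (log (1 + c0) - log a0) * f1 + X2 * (log c0 - log (1 + a0)) * f4

lemma stat_nonneg_lt {U0 V0 U V : ℝ} (hU0 : 0 < U0) (hUV0 : U0 < V0) (hV0 : V0 < 1)
    (hS : U0 + V0 ≤ 1) (hU : 0 < U) (hUV : U < V) (hV : V < 1) : 0 ≤ stat U0 V0 U V := by
  have hW0 : 0 < V0 - U0 := by linarith
  have hW : 0 < V - U := by linarith
  have hV1 : 0 < 1 - V := by linarith
  have hV01 : 0 < 1 - V0 := by linarith
  rw [stat_eq_hom hU0 hUV0 hV0 hU hUV hV]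
  have ha0 : 0 < U0 / (V0 - U0) := by positivity
  have hc0 : 0 < (1 - V0) / (V0 - U0) := by positivity
  have hac0 : U0 / (V0 - U0) ≤ (1 - V0) / (V0 - U0) := by
    apply div_le_div_of_nonneg_right _ hW0.le
    linarith
  have h := hom_ineq ha0 hac0 (a := U / (V - U)) (c := (1 - V) / (V - U)) (by positivity) (by positivity)
  have hl := ell_pos ha0.le hc0
  apply mul_nonneg hW.le
  apply mul_nonneg (by positivity)
  linarith

/-- coefficient `p` of `U`, `q` of `V`. -/
noncomputable def pp (U0 V0 : ℝ) : ℝ :=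
  (- log (1 - U0) - log (1 - V0)) * ((dh U0 - dh V0) / 2 + (V0 - U0) / 2 / (U0 * (1 - U0)))
    - ((V0 - U0) ^ 2 / (2 * ((1 - U0) * (1 - V0)))) * dh U0

noncomputable def qq (U0 V0 : ℝ) : ℝ :=
  (- log (1 - U0) - log (1 - V0)) * (- (dh U0 - dh V0) / 2 - (V0 - U0) / 2 / (V0 * (1 - V0)))
    - ((V0 - U0) ^ 2 / (2 * ((1 - U0) * (1 - V0)))) * dh V0

lemma stat_eq (U0 V0 U V : ℝ) : stat U0 V0 U V =
    (- log (1 - U0) - log (1 - V0)) * ((V - U) / 2 * (dh U - dh V))
    + ((V0 - U0) ^ 2 / (2 * ((1 - U0) * (1 - V0)))) * (binEntropy U + binEntropy V)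
    + U * pp U0 V0 + V * qq U0 V0 := by
  unfold stat pp qq
  ring

lemma pp_add_qq_nonneg {U0 V0 : ℝ} (hU0 : 0 < U0) (hUV0 : U0 < V0) (hV0 : V0 < 1)
    (hS : U0 + V0 ≤ 1) : 0 ≤ pp U0 V0 + qq U0 V0 := by
  have hW0 : 0 < V0 - U0 := by linarith
  have hV01 : 0 < 1 - V0 := by linarith
  have hU01 : 0 < 1 - U0 := by linarith
  have hV0' : 0 < V0 := by linarith
  have ha0 : 0 < U0 / (V0 - U0) := by positivity
  have hc0 : 0 < (1 - V0) / (V0 - U0) := by positivity
  have hac0 : U0 / (V0 - U0) ≤ (1 - V0) / (V0 - U0) := by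
    apply div_le_div_of_nonneg_right _ hW0.le
    linarith
  have h := KK_swap_le ha0 hac0
  obtain ⟨m1, m2, m3, m4, m5⟩ := log_sub hU0 hUV0 hV0
  have q2 : 1 + (1 - V0) / (V0 - U0) = (1 - U0) / (V0 - U0) := by field_simp; ring
  have q3 : 1 + U0 / (V0 - U0) = V0 / (V0 - U0) := by field_simp; ring
  have l1 : ell (U0 / (V0 - U0)) ((1 - V0) / (V0 - U0)) = - log (1 - U0) - log (1 - V0) := by
    unfold ell; rw [m5, m3, m4]; ring
  have l2 : ell ((1 - V0) / (V0 - U0)) (U0 / (V0 - U0)) = - log U0 - log V0 := by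
    unfold ell
    have : 1 + (1 - V0) / (V0 - U0) + U0 / (V0 - U0) = 1 + U0 / (V0 - U0) + (1 - V0) / (V0 - U0) := by ring
    rw [this, m5, m1, m2]; ring
  unfold KK at h
  rw [l1, l2, q2, q3] at h
  have h' : U0 * V0 * (- log U0 - log V0) ≤ (1 - U0) * (1 - V0) * (- log (1 - U0) - log (1 - V0)) := by
    have e1 : U0 / (V0 - U0) * (V0 / (V0 - U0)) * (- log U0 - log V0) =
      (U0 * V0 * (- log U0 - log V0)) / (V0 - U0) ^ 2 := by field_simp
    have e2 : (1 - V0) / (V0 - U0) * ((1 - U0) / (V0 - U0)) * (- log (1 - U0) - log (1 - V0)) =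
      ((1 - U0) * (1 - V0) * (- log (1 - U0) - log (1 - V0))) / (V0 - U0) ^ 2 := by field_simp
    rw [e1, e2] at h
    exact (div_le_div_iff_of_pos_right (by positivity)).mp h
  have e : pp U0 V0 + qq U0 V0 = (V0 - U0) ^ 2 / (2 * (U0 * V0 * ((1 - U0) * (1 - V0)))) *
      ((1 - U0) * (1 - V0) * (- log (1 - U0) - log (1 - V0)) - U0 * V0 * (- log U0 - log V0)) := by
    unfold pp qq dh
    field_simp
    ring
  rw [e]
  apply mul_nonneg (by positivity)
  linarith

lemma stat_self {U0 V0 : ℝ} (hU0 : 0 < U0) (hUV0 : U0 < V0) (hV0 : V0 < 1) :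
    stat U0 V0 U0 V0 = 0 := by
  have hV01 : 0 < 1 - V0 := by linarith
  have hU01 : 0 < 1 - U0 := by linarith
  have hV0' : 0 < V0 := by linarith
  unfold stat dh
  rw [binEntropy_eq', binEntropy_eq']
  field_simp
  ring

lemma dh_antitone {U V : ℝ} (hU : 0 < U) (hUV : U ≤ V) (hV : V < 1) : dh V ≤ dh U := by
  unfold dh
  have h1 : log (1 - V) ≤ log (1 - U) := Real.log_le_log (by linarith) (by linarith)
  have h2 : log U ≤ log V := Real.log_le_log hU hUV
  linarith

lemma binEntropy_nonneg' {z : ℝ} (h0 : 0 ≤ z) (h1 : z ≤ 1) : 0 ≤ binEntropy z :=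
  binEntropy_nonneg h0 h1

lemma qq_nonpos {U0 V0 : ℝ} (hU0 : 0 < U0) (hUV0 : U0 < V0) (hV0 : V0 < 1)
    (hS : U0 + V0 ≤ 1) : qq U0 V0 ≤ 0 := by
  have hV01 : 0 < 1 - V0 := by linarith
  have hU01 : 0 < 1 - U0 := by linarith
  have hV0' : 0 < V0 := by linarith
  have hW0 : 0 < V0 - U0 := by linarith
  have h1 := pp_add_qq_nonneg hU0 hUV0 hV0 hS
  have h2 := stat_self hU0 hUV0 hV0
  rw [stat_eq] at h2
  have h3 : 0 ≤ (V0 - U0) / 2 * (dh U0 - dh V0) := by
    have := dh_antitone hU0 hUV0.le hV0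
    apply mul_nonneg (by linarith)
    linarith
  have h4 : 0 ≤ - log (1 - U0) - log (1 - V0) := by
    have := Real.log_nonpos hU01.le (by linarith)
    have := Real.log_nonpos hV01.le (by linarith)
    linarith
  have h5 : 0 ≤ binEntropy U0 + binEntropy V0 := by
    have := binEntropy_nonneg hU0.le (by linarith : U0 ≤ 1)
    have := binEntropy_nonneg hV0'.le (by linarith : V0 ≤ 1)
    linarith
  have h6 : 0 ≤ (V0 - U0) ^ 2 / (2 * ((1 - U0) * (1 - V0))) := by positivity
  have h7 := mul_nonneg h4 h3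
  have h8 := mul_nonneg h6 h5
  have h9 : U0 * pp U0 V0 + V0 * qq U0 V0 ≤ 0 := by linarith
  have h10 : U0 * (pp U0 V0 + qq U0 V0) + (V0 - U0) * qq U0 V0 ≤ 0 := by linarith
  have h11 := mul_nonneg hU0.le h1
  by_contra hcon
  push Not at hcon
  have := mul_pos hW0 hcon
  linarith

theorem stat_nonneg {U0 V0 U V : ℝ} (hU0 : 0 < U0) (hUV0 : U0 < V0) (hV0 : V0 < 1)
    (hS : U0 + V0 ≤ 1) (hU : 0 < U) (hU1 : U < 1) (hV : 0 < V) (hV1 : V < 1) :
    0 ≤ stat U0 V0 U V := by
  have hV01 : 0 < 1 - V0 := by linarith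
  have hU01 : 0 < 1 - U0 := by linarith
  have hV0' : 0 < V0 := by linarith
  have hq := qq_nonpos hU0 hUV0 hV0 hS
  have hpq := pp_add_qq_nonneg hU0 hUV0 hV0 hS
  rcases lt_trichotomy U V with h | h | h
  · exact stat_nonneg_lt hU0 hUV0 hV0 hS hU h hV1
  · subst h
    rw [stat_eq]
    have h5 : 0 ≤ binEntropy U := binEntropy_nonneg hU.le hU1.le
    have h6 : 0 ≤ (V0 - U0) ^ 2 / (2 * ((1 - U0) * (1 - V0))) := by positivity
    have h7 : 0 ≤ (V0 - U0) ^ 2 / (2 * ((1 - U0) * (1 - V0))) * (binEntropy U + binEntropy U) := by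
      positivity
    have h8 : 0 ≤ U * (pp U0 V0 + qq U0 V0) := mul_nonneg hU.le hpq
    have h9 : (- log (1 - U0) - log (1 - V0)) * ((U - U) / 2 * (dh U - dh U)) = 0 := by ring
    rw [h9]
    linarith
  · have h1 := stat_nonneg_lt hU0 hUV0 hV0 hS hV h hU1
    rw [stat_eq] at h1 ⊢
    have h2 : (V - U) / 2 * (dh U - dh V) = (U - V) / 2 * (dh V - dh U) := by ring
    rw [h2]
    have h3 : 0 ≤ (U - V) * (pp U0 V0 - qq U0 V0) := by
      apply mul_nonneg (by linarith)
      linarith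
    linarith

/-! The flow -/

noncomputable def LL (m η r : ℝ) : ℝ := - log (1 - (m - r * η)) - log (1 - (m + r * η))

noncomputable def Nu (x y m η r : ℝ) : ℝ :=
  binEntropy (x - r * y) + binEntropy (x + r * y) - (x - r * y) * dh (m - r * η)
    - (x + r * y) * dh (m + r * η)

lemma hasDerivAt_dh {z : ℝ} (h0 : 0 < z) (h1 : z < 1) : HasDerivAt dh (- 1 / (z * (1 - z))) z := by
  have i1 : HasDerivAt (fun z : ℝ => 1 - z) (-1) z := by
    simpa using (hasDerivAt_id z).const_sub (1 : ℝ)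
  have h := (i1.log (by linarith)).sub (Real.hasDerivAt_log h0.ne')
  refine h.congr_deriv ?_
  have : 1 - z ≠ 0 := by linarith
  field_simp
  ring

lemma hasDerivAt_binEntropy' {z : ℝ} (h0 : 0 < z) (h1 : z < 1) :
    HasDerivAt binEntropy (dh z) z := by
  have := Real.hasDerivAt_binEntropy h0.ne' h1.ne
  exact this

lemma phi_antitone {x y m η ρ : ℝ} (hρ : 0 < ρ) (hη : 0 < η) (hηm : η < m) (hm : m ≤ 1 / 2)
    (h1 : 0 < x - y) (h2 : x - y < 1) (h3 : 0 < x + y) (h4 : x + y < 1) :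
    AntitoneOn (fun r => Nu x y m η r / LL m η r) (Icc ρ 1) := by
  have hmem : ∀ r ∈ Icc ρ 1, 0 < r ∧ 0 < x - r * y ∧ x - r * y < 1 ∧ 0 < x + r * y ∧ x + r * y < 1
      ∧ 0 < m - r * η ∧ m - r * η < m + r * η ∧ m + r * η < 1 := by
    intro r hr
    have hr0 : 0 < r := lt_of_lt_of_le hρ hr.1
    have hr1 : r ≤ 1 := hr.2
    refine ⟨hr0, ?_, ?_, ?_, ?_, ?_, ?_, ?_⟩ <;> nlinarith
  have hder : ∀ r ∈ Icc ρ 1, HasDerivAt (fun r => Nu x y m η r / LL m η r)
      (- (stat (m - r * η) (m + r * η) (x - r * y) (x + r * y)) / (r * (LL m η r) ^ 2)) r ∧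
      0 < LL m η r := by
    intro r hr
    obtain ⟨hr0, hU, hU1, hV, hV1, hU0, hUV0, hV0⟩ := hmem r hr
    have hV01 : 0 < 1 - (m + r * η) := by linarith
    have hU01 : 0 < 1 - (m - r * η) := by linarith
    have hV0' : 0 < m + r * η := by linarith
    have hLL : 0 < LL m η r := by
      unfold LL
      have a1 := Real.log_neg hV01 (by linarith)
      have a2 := Real.log_neg hU01 (by linarith)
      linarith
    refine ⟨?_, hLL⟩
    have dU : HasDerivAt (fun r : ℝ => x - r * y) (-y) r := by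
      have := ((hasDerivAt_id r).mul_const y).const_sub x
      exact this.congr_deriv (by simp)
    have dV : HasDerivAt (fun r : ℝ => x + r * y) y r := by
      have := ((hasDerivAt_id r).mul_const y).const_add x
      exact this.congr_deriv (by simp)
    have dU0 : HasDerivAt (fun r : ℝ => m - r * η) (-η) r := by
      have := ((hasDerivAt_id r).mul_const η).const_sub m
      exact this.congr_deriv (by simp)
    have dV0 : HasDerivAt (fun r : ℝ => m + r * η) η r := by
      have := ((hasDerivAt_id r).mul_const η).const_add m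
      exact this.congr_deriv (by simp)
    have d1U0 : HasDerivAt (fun r : ℝ => 1 - (m - r * η)) η r := by
      exact (dU0.const_sub 1).congr_deriv (by ring)
    have d1V0 : HasDerivAt (fun r : ℝ => 1 - (m + r * η)) (-η) r := dV0.const_sub 1
    have bU : HasDerivAt (fun r => binEntropy (x - r * y)) (dh (x - r * y) * (-y)) r :=
      HasDerivAt.comp (h₂ := binEntropy) (h := fun r => x - r * y) r (hasDerivAt_binEntropy' hU hU1) dU
    have bV : HasDerivAt (fun r => binEntropy (x + r * y)) (dh (x + r * y) * y) r :=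
      HasDerivAt.comp (h₂ := binEntropy) (h := fun r => x + r * y) r (hasDerivAt_binEntropy' hV hV1) dV
    have eU : HasDerivAt (fun r => dh (m - r * η)) (-1 / ((m - r * η) * (1 - (m - r * η))) * (-η)) r :=
      HasDerivAt.comp (h₂ := dh) (h := fun r => m - r * η) r (hasDerivAt_dh hU0 (by linarith)) dU0
    have eV : HasDerivAt (fun r => dh (m + r * η)) (-1 / ((m + r * η) * (1 - (m + r * η))) * η) r :=
      HasDerivAt.comp (h₂ := dh) (h := fun r => m + r * η) r (hasDerivAt_dh hV0' hV0) dV0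
    have dN := ((bU.add bV).sub (dU.mul eU)).sub (dV.mul eV)
    have dL := ((d1U0.log hU01.ne').neg).sub (d1V0.log hV01.ne')
    have d := dN.div dL (by
      have : LL m η r ≠ 0 := hLL.ne'
      exact this)
    refine d.congr_deriv ?_
    simp only [Pi.add_apply, Pi.sub_apply, Pi.mul_apply, Pi.neg_apply]
    have hLe : - log (1 - (m - r * η)) - log (1 - (m + r * η)) = LL m η r := rfl
    rw [hLe]
    unfold stat
    rw [hLe]
    set L := LL m η r
    set U := x - r * y with hUdef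
    set V := x + r * y with hVdef
    set U0 := m - r * η with hU0def
    set V0 := m + r * η with hV0def
    have ey : y = (V - U) / (2 * r) := by rw [hUdef, hVdef]; field_simp; ring
    have eη : η = (V0 - U0) / (2 * r) := by rw [hU0def, hV0def]; field_simp; ring
    have eA : dh U * (-y) + dh V * y - (-y * dh U0 + U * (-1 / (U0 * (1 - U0)) * (-η))) -
        (y * dh V0 + V * (-1 / (V0 * (1 - V0)) * η)) = - (1 / r) * ((V - U) / 2 * (dh U - dh V) -
          (V - U) / 2 * (dh U0 - dh V0) + (V0 - U0) / 2 * (U / (U0 * (1 - U0)) - V / (V0 * (1 - V0)))) := by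
      rw [ey, eη]
      field_simp
      ring
    have eB : -(η / (1 - U0)) - -η / (1 - V0) = (1 / r) * ((V0 - U0) ^ 2 / (2 * ((1 - U0) * (1 - V0)))) := by
      rw [eη]
      field_simp
      ring
    rw [eA, eB]
    field_simp
    ring
  apply antitoneOn_of_deriv_nonpos (convex_Icc _ _)
  · intro r hr
    exact (hder r hr).1.continuousAt.continuousWithinAt
  · intro r hr
    exact (hder r (interior_subset hr)).1.differentiableAt.differentiableWithinAt
  · intro r hr
    have hr' := interior_subset hr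
    obtain ⟨hr0, hU, hU1, hV, hV1, hU0, hUV0, hV0⟩ := hmem r hr'
    rw [(hder r hr').1.deriv]
    have hs := stat_nonneg hU0 hUV0 hV0 (by linarith) hU hU1 hV hV1
    have hL := (hder r hr').2
    apply div_nonpos_of_nonpos_of_nonneg (by linarith) (by positivity)

/-- **Pointwise inequality (PW)** in the open square. -/
theorem pw_open {x y m η ρ : ℝ} (hρ : 0 < ρ) (hρ1 : ρ ≤ 1) (hη : 0 < η) (hηm : η < m)
    (hm : m ≤ 1 / 2) (h1 : 0 < x - y) (h2 : x - y < 1) (h3 : 0 < x + y) (h4 : x + y < 1) :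
    LL m η ρ / LL m η 1 * Nu x y m η 1 ≤ Nu x y m η ρ := by
  have h := phi_antitone hρ hη hηm hm h1 h2 h3 h4 (left_mem_Icc.mpr hρ1) (right_mem_Icc.mpr hρ1) hρ1
  simp only at h
  have hL : ∀ r, 0 < r → r ≤ 1 → 0 < LL m η r := by
    intro r hr0 hr1
    unfold LL
    have a1 := Real.log_neg (x := 1 - (m + r * η)) (by nlinarith) (by nlinarith)
    have a2 := Real.log_neg (x := 1 - (m - r * η)) (by nlinarith) (by nlinarith)
    linarith
  have hL1 := hL 1 one_pos le_rfl
  have hLρ := hL ρ hρ hρ1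
  rw [le_div_iff₀ hLρ] at h
  calc LL m η ρ / LL m η 1 * Nu x y m η 1 = Nu x y m η 1 / LL m η 1 * LL m η ρ := by ring
    _ ≤ Nu x y m η ρ := h

/-- **Pointwise inequality (PW)** in the closed square, in the variables `u`, `v`. -/
theorem pw_closed {u v m η ρ : ℝ} (hρ : 0 < ρ) (hρ1 : ρ ≤ 1) (hη : 0 < η) (hηm : η < m)
    (hm : m ≤ 1 / 2) (hu : u ∈ Icc (0 : ℝ) 1) (hv : v ∈ Icc (0 : ℝ) 1) :
    LL m η ρ / LL m η 1 * Nu ((u + v) / 2) ((v - u) / 2) m η 1 ≤
      Nu ((u + v) / 2) ((v - u) / 2) m η ρ := by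
  have hcl : IsClosed {p : ℝ × ℝ | LL m η ρ / LL m η 1 * Nu ((p.1 + p.2) / 2) ((p.2 - p.1) / 2) m η 1 ≤
      Nu ((p.1 + p.2) / 2) ((p.2 - p.1) / 2) m η ρ} := by
    apply isClosed_le
    · unfold Nu
      have := binEntropy_continuous
      fun_prop
    · unfold Nu
      have := binEntropy_continuous
      fun_prop
  have hsub : (Ioo (0 : ℝ) 1 ×ˢ Ioo (0 : ℝ) 1) ⊆ {p : ℝ × ℝ | LL m η ρ / LL m η 1 * Nu ((p.1 + p.2) / 2) ((p.2 - p.1) / 2) m η 1 ≤
      Nu ((p.1 + p.2) / 2) ((p.2 - p.1) / 2) m η ρ} := by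
    rintro ⟨p, q⟩ ⟨hp, hq⟩
    simp only [mem_ofPred_eq]
    simp only [mem_Ioo] at hp hq
    apply pw_open hρ hρ1 hη hηm hm <;> linarith [hp.1, hp.2, hq.1, hq.2]
  have h := closure_minimal hsub hcl
  rw [closure_prod_eq, closure_Ioo (by norm_num)] at h
  exact h (mk_mem_prod hu hv)

end P322
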