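import Vale.Agent.Lib.P322.Leaf

/-!
P322 (Courtade-Kumar): the (S) leaf in `(m, e)` coordinates.
-/

namespace P322

open Real Finset

lemma pow_sub_pow_ge {a b c d : ℝ} (hd : 0 ≤ d) (hcd : d ≤ c) (hbc : c ≤ b) (hab : b ≤ a)
    (h : c - d ≤ a - b) (n : ℕ) : c ^ n - d ^ n ≤ a ^ n - b ^ n := by
  have hb : 0 ≤ b := by linarith
  have hc : 0 ≤ c := by linarith
  have ha : 0 ≤ a := by linarith
  have e1 := geom_sum₂_mul a b n
  have e2 := geom_sum₂_mul c d n
  rw [← e1, ← e2]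
  apply mul_le_mul _ h (by linarith) (sum_nonneg (fun i _ => by positivity))
  apply sum_le_sum
  intro i _
  exact mul_le_mul (pow_le_pow_left₀ hc (by linarith) _) (pow_le_pow_left₀ hd (by linarith) _)
    (by positivity) (by positivity)

lemma inv_pow_add_antitone {m m' : ℝ} (h0 : 0 < m) (hm : m ≤ m') (h1 : m' ≤ 1 / 2) (n : ℕ) :
    (1 / m') ^ n + (1 / (1 - m')) ^ n ≤ (1 / m) ^ n + (1 / (1 - m)) ^ n := by
  have h0' : 0 < m' := by linarith
  have k := pow_sub_pow_ge (a := 1 / m) (b := 1 / m') (c := 1 / (1 - m')) (d := 1 / (1 - m))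
    (by apply div_nonneg zero_le_one; linarith)
    (one_div_le_one_div_of_le (by linarith) (by linarith))
    (one_div_le_one_div_of_le (by linarith) (by linarith))
    (one_div_le_one_div_of_le (by linarith) (by linarith)) ?_ n
  · linarith
  · have e1 : 1 / (1 - m') - 1 / (1 - m) = (m' - m) / ((1 - m) * (1 - m')) := by
      rw [div_sub_div _ _ (by linarith) (by linarith)]
      congr 1 <;> ring
    have e2 : 1 / m - 1 / m' = (m' - m) / (m * m') := by
      rw [div_sub_div _ _ (by linarith) (by linarith)]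
      congr 1; ring
    rw [e1, e2]
    apply div_le_div_of_nonneg_left (by linarith) (by positivity)
    nlinarith

/-- series of `J1` in `(m, e)` coordinates. -/
lemma hasSum_J1 {m e : ℝ} (hm : 0 < m) (hm2 : m ≤ 1 / 2) (he : 0 ≤ e) (hem : e ≤ m) :
    HasSum (fun k : ℕ => mu k * e ^ (2 * k + 2) * ((1 / m) ^ (2 * k + 1) + (1 / (1 - m)) ^ (2 * k + 1))) (J1 m e) := by
  have A := (hasSum_J1_ray (ξ := e / m) hm hm2 (by positivity) (by rw [div_le_one hm]; exact hem)).mul_left m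
  have e1 : e / m * m = e := by field_simp
  rw [e1] at A
  refine hs_congr A (fun k => ?_) (by field_simp)
  have h1m : 1 - m ≠ 0 := by linarith
  have e2 : (e / m) ^ (2 * k + 2) = e ^ (2 * k + 2) * (1 / m) ^ (2 * k + 1) * (1 / m) := by
    rw [div_eq_mul_one_div, mul_pow, pow_succ (1 / m) (2 * k + 1)]; ring
  have e3 : (m / (1 - m)) ^ (2 * k + 1) * (1 / m) ^ (2 * k + 1) = (1 / (1 - m)) ^ (2 * k + 1) := by
    rw [← mul_pow]; congr 1; field_simp
  rw [e2]
  calc mu k * e ^ (2 * k + 2) * ((1 / m) ^ (2 * k + 1) + (1 / (1 - m)) ^ (2 * k + 1))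
      = mu k * e ^ (2 * k + 2) * ((1 / m) ^ (2 * k + 1) + (m / (1 - m)) ^ (2 * k + 1) * (1 / m) ^ (2 * k + 1)) := by rw [e3]
    _ = m * (1 / m) * (mu k * e ^ (2 * k + 2) * ((1 / m) ^ (2 * k + 1) + (m / (1 - m)) ^ (2 * k + 1) * (1 / m) ^ (2 * k + 1))) := by
        rw [mul_one_div_cancel hm.ne', one_mul]
    _ = m * (mu k * (e ^ (2 * k + 2) * (1 / m) ^ (2 * k + 1) * (1 / m)) * (1 + (m / (1 - m)) ^ (2 * k + 1))) := by ring

lemma J1_antitone {m m' e : ℝ} (he : 0 ≤ e) (hem : e ≤ m) (hm : 0 < m) (hmm : m ≤ m') (hm2 : m' ≤ 1 / 2) :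
    J1 m' e ≤ J1 m e := by
  refine hasSum_le (fun k => ?_) (hasSum_J1 (by linarith) hm2 he (by linarith))
    (hasSum_J1 hm (by linarith) he hem)
  have := mu_pos k
  exact mul_le_mul_of_nonneg_left (inv_pow_add_antitone hm hmm hm2 _) (by positivity)

lemma J1_div_mono {m e e2 : ℝ} (he : 0 < e) (hee : e ≤ e2) (hem : e2 ≤ m) (hm2 : m ≤ 1 / 2) :
    J1 m e / e ≤ J1 m e2 / e2 := by
  have hm : 0 < m := by linarith
  have he2 : 0 < e2 := by linarith
  have A := (hasSum_J1 hm hm2 he.le (by linarith)).mul_right (1 / e)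
  have B := (hasSum_J1 hm hm2 he2.le hem).mul_right (1 / e2)
  rw [div_eq_mul_one_div, div_eq_mul_one_div (J1 m e2)]
  refine hasSum_le (fun k => ?_) A B
  have := mu_pos k
  have h1m : 0 < 1 - m := by linarith
  have e1 : e ^ (2 * k + 2) = e ^ (2 * k + 1) * e := pow_succ _ _
  have e3 : e2 ^ (2 * k + 2) = e2 ^ (2 * k + 1) * e2 := pow_succ _ _
  have h2 : e ^ (2 * k + 1) ≤ e2 ^ (2 * k + 1) := pow_le_pow_left₀ he.le hee _
  have q1 : mu k * e ^ (2 * k + 2) * ((1 / m) ^ (2 * k + 1) + (1 / (1 - m)) ^ (2 * k + 1)) * (1 / e) =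
    (mu k * ((1 / m) ^ (2 * k + 1) + (1 / (1 - m)) ^ (2 * k + 1))) * e ^ (2 * k + 1) := by
    rw [e1]; field_simp
  have q2 : mu k * e2 ^ (2 * k + 2) * ((1 / m) ^ (2 * k + 1) + (1 / (1 - m)) ^ (2 * k + 1)) * (1 / e2) =
    (mu k * ((1 / m) ^ (2 * k + 1) + (1 / (1 - m)) ^ (2 * k + 1))) * e2 ^ (2 * k + 1) := by
    rw [e3]; field_simp
  rw [q1, q2]
  exact mul_le_mul_of_nonneg_left h2 (by positivity)

lemma J1_diag_mono {m m' : ℝ} (hm : 0 < m) (hmm : m ≤ m') (hm2 : m' ≤ 1 / 2) :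
    J1 m m / m ≤ J1 m' m' / m' := by
  have A := hasSum_J1_ray (ξ := 1) hm (by linarith : m ≤ 1 / 2) zero_le_one le_rfl
  have B := hasSum_J1_ray (ξ := 1) (by linarith : 0 < m') hm2 zero_le_one le_rfl
  rw [one_mul] at A B
  refine hasSum_le (fun k => ?_) A B
  have := mu_pos k
  have h1 := pow_le_pow_left₀ (div_nonneg hm.le (by linarith)) (eta_mono hmm (by linarith : m' < 1)) (2 * k + 1)
  apply mul_le_mul_of_nonneg_left _ (by positivity)
  linarith

/-- worst corner of `J1/e` on a box. -/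
lemma J1_div_le_corner {m1 m e e2 : ℝ} (hm1 : m1 ≤ m) (hm2 : m ≤ 1 / 2) (he : 0 < e) (hem : e ≤ m)
    (hee : e ≤ e2) (hmax : max m1 e2 ≤ 1 / 2) : J1 m e / e ≤ J1 (max m1 e2) e2 / e2 := by
  have he2 : 0 < e2 := by linarith
  rcases le_total (max m1 e2) m with h | h
  · have h1 : e2 ≤ m := (le_max_right _ _).trans h
    refine (J1_div_mono he hee h1 hm2).trans ?_
    apply div_le_div_of_nonneg_right _ he2.le
    exact J1_antitone he2.le (le_max_right _ _) (lt_of_lt_of_le he2 (le_max_right _ _)) h hm2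
  · have hm0 : 0 < m := by linarith
    rcases le_total m1 e2 with h' | h'
    · rw [max_eq_right h'] at h hmax ⊢
      refine (J1_div_mono he hem le_rfl hm2).trans (J1_diag_mono hm0 h hmax)
    · rw [max_eq_left h'] at h hmax ⊢
      have : m = m1 := le_antisymm h hm1
      subst this
      exact J1_div_mono he hee h' hm2

lemma GapJ_div_le_corner {ρ m1 m e e2 : ℝ} (h0 : 0 ≤ ρ) (h1 : ρ ≤ 1) (hm1 : m1 ≤ m) (hm2 : m ≤ 1 / 2)
    (he : 0 < e) (hem : e ≤ m) (hee : e ≤ e2) (hmax : max m1 e2 ≤ 1 / 2) :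
    GapJ ρ m e / e ≤ GapJ ρ (max m1 e2) e2 / e2 := by
  have he2 : 0 < e2 := by linarith
  rw [GapJ_eq, GapJ_eq]
  have q1 : ((1 - ρ ^ 2) * J1 m e + bb ρ * (4 * e ^ 2)) / e = (1 - ρ ^ 2) * (J1 m e / e) + bb ρ * (4 * e) := by
    field_simp
  have q2 : ((1 - ρ ^ 2) * J1 (max m1 e2) e2 + bb ρ * (4 * e2 ^ 2)) / e2 =
    (1 - ρ ^ 2) * (J1 (max m1 e2) e2 / e2) + bb ρ * (4 * e2) := by field_simp
  rw [q1, q2]
  have u1 := mul_le_mul_of_nonneg_left (J1_div_le_corner hm1 hm2 he hem hee hmax) (by nlinarith : 0 ≤ 1 - ρ ^ 2)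
  have u2 := mul_le_mul_of_nonneg_left (by linarith : 4 * e ≤ 4 * e2) (bb_nonneg h0 h1)
  linarith

/-- (S) leaf. -/
theorem leafS {ρL ρH m1 m2 e1 e2 w : ℝ} (hL : 0 ≤ ρL) (hH : ρH < 1) (hm2 : m2 ≤ 1 / 2)
    (he1 : 0 < e1) (hw0 : 0 < w) (hw1 : w < 1) (hmax : max m1 e2 ≤ 1 / 2)
    (A1 : psi ρL m2 ≤ 2 * e1 / w * binEntropy ((1 - ρL * w) / 2))
    (A2 : GapJ ρH (max m1 e2) e2 ≤ 2 * e2 / w * (binEntropy ((1 - ρH * w) / 2) - binEntropy ((1 - w) / 2)))
    (G0 : J1 (max m1 e2) e2 ≤ 2 * e2 / w * kap w)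
    {ρ m e : ℝ} (hρ0 : 0 < ρ) (hρL : ρL ≤ ρ) (hρH : ρ ≤ ρH) (hm1m : m1 ≤ m) (hmm2 : m ≤ m2)
    (he1e : e1 ≤ e) (hee2 : e ≤ e2) (hem : e ≤ m) : Good ρ m e := by
  have he0 : 0 < e := by linarith
  have he20 : 0 < e2 := by linarith
  have hm0 : 0 < m := by linarith
  apply good_of_S hρ0 (by linarith) hw0 hw1
  · apply A1S_mono hL hρL (by linarith) he0.le hem (by linarith) hw0 hw1.le
    refine (psi_mono hL (by linarith) hm0.le hmm2 hm2).trans (A1.trans ?_)
    have hb : 0 ≤ binEntropy ((1 - ρL * w) / 2) := by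
      apply binEntropy_nonneg
      · have : ρL * w ≤ 1 := by nlinarith
        linarith
      · have : 0 ≤ ρL * w := by positivity
        linarith
    apply mul_le_mul_of_nonneg_right _ hb
    apply div_le_div_of_nonneg_right _ hw0.le
    linarith
  · apply A2S_down hρ0.le hρH hH he0 hw0 hw1.le
    · have h := J1_div_le_corner hm1m (by linarith : m ≤ 1 / 2) he0 hem hee2 hmax
      have h2 : J1 (max m1 e2) e2 / e2 ≤ 2 / w * kap w := by
        rw [div_le_iff₀ he20]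
        refine G0.trans (le_of_eq ?_); ring
      have h3 := h.trans h2
      rw [div_le_iff₀ he0] at h3
      refine h3.trans (le_of_eq ?_); ring
    · have h := GapJ_div_le_corner (ρ := ρH) (by linarith) hH.le hm1m (by linarith : m ≤ 1 / 2) he0 hem hee2 hmax
      have h2 : GapJ ρH (max m1 e2) e2 / e2 ≤ 2 / w * (binEntropy ((1 - ρH * w) / 2) - binEntropy ((1 - w) / 2)) := by
        rw [div_le_iff₀ he20]
        refine A2.trans (le_of_eq ?_); ring
      have h3 := h.trans h2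
      rw [div_le_iff₀ he0] at h3
      refine h3.trans (le_of_eq ?_); ring

end P322
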