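import Vale.Agent.Lib.P322.Fast
import Vale.Agent.Lib.P322.LeafS

/-!
P322 (Courtade-Kumar): one-sided fixed-point operations and multiplied-out forms of the leaf
conditions.
-/

namespace P322.H19

open Real

/-- `a` is a lower bound at scale `2^40`. -/
def Lb (a : ℕ) (x : ℝ) : Prop := (a : ℝ) / 1099511627776 ≤ x

/-- `a` is an upper bound at scale `2^40`. -/
def Ub (a : ℕ) (x : ℝ) : Prop := x ≤ (a : ℝ) / 1099511627776

/-- exact value. -/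
noncomputable def rv (a : ℕ) : ℝ := (a : ℝ) / 1099511627776

lemma rv_nonneg (a : ℕ) : 0 ≤ rv a := by unfold rv; positivity
lemma lb_rv (a : ℕ) : Lb a (rv a) := le_rfl
lemma ub_rv (a : ℕ) : Ub a (rv a) := le_rfl
lemma Lb.nonneg {a : ℕ} {x : ℝ} (h : Lb a x) : 0 ≤ x := le_trans (by positivity) h
lemma rv_pos {a : ℕ} (h : 1 ≤ a) : 0 < rv a := by
  unfold rv; have : (0 : ℝ) < a := by exact_mod_cast h
  positivity
lemma rv_le {a b : ℕ} (h : a ≤ b) : rv a ≤ rv b := by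
  unfold rv; exact div_le_div_of_nonneg_right (by exact_mod_cast h) (by norm_num)
lemma rv_lt {a b : ℕ} (h : a < b) : rv a < rv b := by
  unfold rv; exact div_lt_div_of_pos_right (by exact_mod_cast h) (by norm_num)
lemma rv_one : rv 1099511627776 = 1 := by unfold rv; norm_num
lemma rv_half : rv 549755813888 = 1 / 2 := by unfold rv; norm_num
lemma rv_add (a b : ℕ) : rv (a + b) = rv a + rv b := by unfold rv; push_cast; ring
lemma rv_mul_nat (a b : ℕ) : rv (a * b) = a * rv b := by unfold rv; push_cast; ring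
lemma rv_sub_one {a : ℕ} (h : a ≤ 1099511627776) : rv (1099511627776 - a) = 1 - rv a := by
  unfold rv; rw [Nat.cast_sub h]; push_cast; ring
lemma Lb.le_of_le {a b : ℕ} {x y : ℝ} (hx : Ub a x) (hy : Lb b y) (h : a ≤ b) : x ≤ y :=
  hx.trans ((rv_le h).trans hy)

def mLo (a b : ℕ) : ℕ := Nat.div (Nat.mul a b) (nat_lit 1099511627776)
def mHi (a b : ℕ) : ℕ := Nat.add (Nat.div (Nat.mul a b) (nat_lit 1099511627776)) (nat_lit 1)
def dLo (a b : ℕ) : ℕ := Nat.div (Nat.mul a (nat_lit 1099511627776)) b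
def dHi (a b : ℕ) : ℕ := Nat.add (Nat.div (Nat.mul a (nat_lit 1099511627776)) b) (nat_lit 1)

lemma mLo_eq (a b : ℕ) : mLo a b = a * b / 1099511627776 := rfl
lemma mHi_eq (a b : ℕ) : mHi a b = a * b / 1099511627776 + 1 := rfl
lemma dLo_eq (a b : ℕ) : dLo a b = a * 1099511627776 / b := rfl
lemma dHi_eq (a b : ℕ) : dHi a b = a * 1099511627776 / b + 1 := rfl

lemma Lb.mul {a b : ℕ} {x y : ℝ} (hx : Lb a x) (hy : Lb b y) : Lb (mLo a b) (x * y) := by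
  have h1 := div_le_cast (a * b) 1099511627776
  have h2 : ((a : ℝ) / 1099511627776) * ((b : ℝ) / 1099511627776) ≤ x * y :=
    mul_le_mul hx hy (by positivity) hx.nonneg
  refine le_trans ?_ h2
  rw [mLo_eq, div_le_iff₀ (by norm_num)]
  refine le_trans h1 (le_of_eq ?_)
  push_cast; ring

lemma Ub.mul {a b : ℕ} {x y : ℝ} (hx : Ub a x) (hy : Ub b y) (hx0 : 0 ≤ x) (hy0 : 0 ≤ y) :
    Ub (mHi a b) (x * y) := by
  have h1 := cast_le_div_add_one (a * b) 1099511627776 (by norm_num)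
  have h2 : x * y ≤ ((a : ℝ) / 1099511627776) * ((b : ℝ) / 1099511627776) :=
    mul_le_mul hx hy hy0 (le_trans hx0 hx)
  refine le_trans h2 ?_
  rw [mHi_eq, le_div_iff₀ (by norm_num)]
  push_cast at h1 ⊢
  refine le_trans (le_of_eq ?_) h1
  ring

lemma Lb.add {a b : ℕ} {x y : ℝ} (hx : Lb a x) (hy : Lb b y) : Lb (a + b) (x + y) := by
  unfold Lb at *; push_cast; rw [add_div]; exact add_le_add hx hy

lemma Ub.add {a b : ℕ} {x y : ℝ} (hx : Ub a x) (hy : Ub b y) : Ub (a + b) (x + y) := by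
  unfold Ub at *; push_cast; rw [add_div]; exact add_le_add hx hy

lemma Ub.sub {a b : ℕ} {x y : ℝ} (hx : Ub a x) (hy : Lb b y) : Ub (a - b) (x - y) := by
  have h : a ≤ b + (a - b) := by omega
  have hR : (a : ℝ) ≤ (b : ℝ) + ((a - b : ℕ) : ℝ) := by exact_mod_cast h
  have h2 := div_le_div_of_nonneg_right hR (by norm_num : (0:ℝ) ≤ 1099511627776)
  rw [add_div] at h2
  unfold Ub Lb at *
  linarith

lemma Lb.div {a b : ℕ} {x y : ℝ} (hx : Lb a x) (hy : Ub b y) (hy0 : 0 < y) : Lb (dLo a b) (x / y) := by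
  have hx0 := hx.nonneg
  have hb : (0 : ℝ) < b := by
    have h1 : 0 < (b : ℝ) / 1099511627776 := lt_of_lt_of_le hy0 hy
    by_contra hcon
    push Not at hcon
    have := div_nonpos_of_nonpos_of_nonneg hcon (by norm_num : (0:ℝ) ≤ 1099511627776)
    linarith
  have h1 := div_le_cast (a * 1099511627776) b
  unfold Lb Ub at *
  rw [dLo_eq, div_le_iff₀ (by norm_num)]
  refine le_trans h1 ?_
  rw [div_le_iff₀ hb]
  push_cast
  have h4 : (a : ℝ) ≤ x * 1099511627776 := by rwa [div_le_iff₀ (by norm_num)] at hx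
  have h5 : y * 1099511627776 ≤ b := by rwa [le_div_iff₀ (by norm_num)] at hy
  have h6 : x / y * 1099511627776 * b ≥ x / y * 1099511627776 * (y * 1099511627776) := by
    apply mul_le_mul_of_nonneg_left h5
    positivity
  have h7 : x / y * 1099511627776 * (y * 1099511627776) = x * 1099511627776 * 1099511627776 := by
    field_simp
  nlinarith

lemma Ub.div {a b : ℕ} {x y : ℝ} (hx : Ub a x) (hy : Lb b y) (hx0 : 0 ≤ x) (hb : 1 ≤ b) :
    Ub (dHi a b) (x / y) := by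
  have hbR : (1 : ℝ) ≤ b := by exact_mod_cast hb
  have hy1 : 0 < y := lt_of_lt_of_le (by positivity) hy
  have h1 := cast_le_div_add_one (a * 1099511627776) b (by omega)
  unfold Lb Ub at *
  rw [dHi_eq, le_div_iff₀ (by norm_num)]
  push_cast at h1 ⊢
  refine le_trans ?_ h1
  rw [le_div_iff₀ (by linarith)]
  have h4 : x * 1099511627776 ≤ a := by rwa [le_div_iff₀ (by norm_num)] at hx
  have h5 : (b : ℝ) ≤ y * 1099511627776 := by rwa [div_le_iff₀ (by norm_num)] at hy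
  have h6 : x / y * 1099511627776 * b ≤ x / y * 1099511627776 * (y * 1099511627776) := by
    apply mul_le_mul_of_nonneg_left h5
    positivity
  have h7 : x / y * 1099511627776 * (y * 1099511627776) = x * 1099511627776 * 1099511627776 := by
    field_simp
  nlinarith

lemma Lb.kap {a : ℕ} {v : ℝ} (h : Lb a v) (h1 : v ≤ 1) : Lb (kapLo a) (kap v) := kapLo_le h h1

lemma Ub.kap {a : ℕ} {v : ℝ} (h : Ub a v) (h0 : 0 ≤ v) (h1 : v ≤ 1) : Ub (kapHi a) (P322.kap v) :=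
  le_kapHi h h0 h1

lemma lb_log2 : Lb 762123384784 (log 2) := by
  have := log2_bounds.1
  unfold Lb; exact_mod_cast this

lemma ub_log2 : Ub 762123384788 (log 2) := by
  have := log2_bounds.2
  unfold Ub; exact_mod_cast this

lemma kap_nonneg' {v : ℝ} (h0 : 0 ≤ v) (h1 : v ≤ 1) : 0 ≤ kap v := by
  have := kap_mono le_rfl h0 h1
  rwa [kap_zero] at this

lemma binEntropy_eq_kap (m : ℝ) : binEntropy m = log 2 - kap (1 - 2 * m) := by
  unfold kap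
  have : (1 - (1 - 2 * m)) / 2 = m := by ring
  rw [this]; ring

/-! multiplied-out conditions -/

lemma kk_ray {ρ mc ξ : ℝ} (hmc : 0 < mc) (hmc2 : mc ≤ 1 / 2) (h0 : 0 ≤ ρ) (hξ : 0 ≤ ξ) :
    kk ρ mc (ξ * mc) = log 2 - kap (1 - 2 * mc) -
      (mc * kap (ρ * ξ) + (1 - mc) * kap (ρ * ξ * (mc / (1 - mc)))) := by
  rw [kk_eq_J1, binEntropy_eq_kap]
  have e1 : ρ * (ξ * mc) = (ρ * ξ) * mc := by ring
  rw [e1, J1_ray hmc (by linarith) (by positivity)]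

lemma R_A1 {ρ m1 mc ξ2 : ℝ} (hmc : 0 < mc) (hmc2 : mc ≤ 1 / 2) (h0 : 0 ≤ ρ) (hξ : 0 ≤ ξ2)
    (h : psi ρ m1 * mc + m1 * (mc * kap (ρ * ξ2) + (1 - mc) * kap (ρ * ξ2 * (mc / (1 - mc))) +
      kap (1 - 2 * mc)) ≤ m1 * log 2) :
    psi ρ m1 ≤ m1 / mc * kk ρ mc (ξ2 * mc) := by
  rw [kk_ray hmc hmc2 h0 hξ, div_mul_eq_mul_div, le_div_iff₀ hmc]
  linarith

lemma R_A2 {ρ m2 mc ξ e1 : ℝ} (hm20 : 0 < m2) (hm2 : m2 ≤ 1 / 2) (hmc : 0 < mc) (hmc2 : mc ≤ 1 / 2)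
    (h0 : 0 ≤ ρ) (hξ : 0 ≤ ξ) (he : ξ * m2 = e1)
    (h : mc * ((1 - ρ ^ 2) * ((1 - m2) * kap (e1 / (1 - m2))) + bb ρ * (4 * e1 * e1)) +
      m2 * (mc * kap (ρ * ξ) + (1 - mc) * kap (ρ * (ξ * (mc / (1 - mc))))) ≤
      m2 * (mc * (ρ ^ 2 * kap ξ) + (1 - mc) * kap (ξ * (mc / (1 - mc))))) :
    GapJ ρ m2 (ξ * m2) ≤ m2 / mc * (kk ρ mc (ξ * mc) - kk 1 mc (ξ * mc)) := by
  rw [kk_ray hmc hmc2 h0 hξ, kk_ray hmc hmc2 zero_le_one hξ, div_mul_eq_mul_div, le_div_iff₀ hmc,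
    GapJ_eq, J1_ray hm20 (by linarith) hξ]
  have e1' : ξ * (m2 / (1 - m2)) = e1 / (1 - m2) := by rw [← he]; ring
  rw [e1', he, one_mul]
  have e2 : ρ * ξ * (mc / (1 - mc)) = ρ * (ξ * (mc / (1 - mc))) := by ring
  rw [e2]
  nlinarith [h]

lemma N_A1 {ρ m1 ν ξ2 : ℝ} (hν : 0 < ν)
    (h : psi ρ m1 * ν + 2 * m1 * kap (ρ * (ν * ξ2)) ≤ 2 * m1 * log 2) :
    psi ρ m1 ≤ 2 * m1 / ν * binEntropy ((1 - ρ * (ν * ξ2)) / 2) := by
  have e : binEntropy ((1 - ρ * (ν * ξ2)) / 2) = log 2 - kap (ρ * (ν * ξ2)) := by unfold kap; ring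
  rw [e, div_mul_eq_mul_div, le_div_iff₀ hν]
  linarith

lemma N_A2 {ρ m2 ξ ν e1 : ℝ} (hm20 : 0 < m2) (hm2 : m2 ≤ 1 / 2) (hν : 0 < ν)
    (hξ : 0 ≤ ξ) (he : ξ * m2 = e1)
    (h : ν * ((1 - ρ ^ 2) * (m2 * kap ξ + (1 - m2) * kap (e1 / (1 - m2))) + bb ρ * (4 * e1 * e1)) +
      2 * m2 * kap (ρ * (ν * ξ)) ≤ 2 * m2 * kap (ν * ξ)) :
    GapJ ρ m2 (ξ * m2) ≤ 2 * m2 / ν *
      (binEntropy ((1 - ρ * (ν * ξ)) / 2) - binEntropy ((1 - ν * ξ) / 2)) := by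
  have e : binEntropy ((1 - ρ * (ν * ξ)) / 2) - binEntropy ((1 - ν * ξ) / 2) =
    kap (ν * ξ) - kap (ρ * (ν * ξ)) := by unfold kap; ring
  rw [e, div_mul_eq_mul_div, le_div_iff₀ hν, GapJ_eq, J1_ray hm20 (by linarith) hξ]
  have e1' : ξ * (m2 / (1 - m2)) = e1 / (1 - m2) := by rw [← he]; ring
  rw [e1', he]
  nlinarith [h]

lemma S_A1 {ρ m2 e1 w : ℝ} (hw : 0 < w)
    (h : psi ρ m2 * w + 2 * e1 * kap (ρ * w) ≤ 2 * e1 * log 2) :
    psi ρ m2 ≤ 2 * e1 / w * binEntropy ((1 - ρ * w) / 2) := by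
  have e : binEntropy ((1 - ρ * w) / 2) = log 2 - kap (ρ * w) := by unfold kap; ring
  rw [e, div_mul_eq_mul_div, le_div_iff₀ hw]
  linarith

lemma S_A2 {ρ M e2 w : ℝ} (hM0 : 0 < M) (hM : M ≤ 1 / 2) (he2 : 0 ≤ e2) (hw : 0 < w)
    (h : w * ((1 - ρ ^ 2) * (M * kap (e2 / M) + (1 - M) * kap (e2 / (1 - M))) + bb ρ * (4 * e2 * e2)) +
      2 * e2 * kap (ρ * w) ≤ 2 * e2 * kap w) :
    GapJ ρ M e2 ≤ 2 * e2 / w * (binEntropy ((1 - ρ * w) / 2) - binEntropy ((1 - w) / 2)) := by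
  have e : binEntropy ((1 - ρ * w) / 2) - binEntropy ((1 - w) / 2) = kap w - kap (ρ * w) := by
    unfold kap; ring
  rw [e, div_mul_eq_mul_div, le_div_iff₀ hw, GapJ_eq, J1_eq hM0 (by linarith) he2]
  nlinarith [h]

lemma S_G0 {M e2 w : ℝ} (hM0 : 0 < M) (hM : M ≤ 1 / 2) (he2 : 0 ≤ e2) (hw : 0 < w)
    (h : w * (M * kap (e2 / M) + (1 - M) * kap (e2 / (1 - M))) ≤ 2 * e2 * kap w) :
    J1 M e2 ≤ 2 * e2 / w * kap w := by
  rw [div_mul_eq_mul_div, le_div_iff₀ hw, J1_eq hM0 (by linarith) he2]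
  nlinarith [h]

lemma psi_eq_kap (ρ m : ℝ) : psi ρ m = (1 - ρ ^ 2) * (log 2 - kap (1 - 2 * m)) + bb ρ * (4 * m) * (1 - m) := by
  rw [psi_eq_bb, binEntropy_eq_kap]; ring

end P322.H19
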