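import Mathlib

/-!
P322 (Courtade-Kumar): the static inequality in homogeneous coordinates.
-/

namespace P322

open Real Set

/-- `log (N^2 / (c (1+c)))`, `N = 1 + a + c`. -/
noncomputable def ell (a c : ℝ) : ℝ := 2 * log (1 + a + c) - log c - log (1 + c)

/-- `c (1+c) log (N^2 / (c (1+c)))`. -/
noncomputable def KK (a c : ℝ) : ℝ := c * (1 + c) * ell a c

noncomputable def EE (a c : ℝ) : ℝ :=
  2 * ((1 + a + c) * log (1 + a + c)) - a * log a - (1 + a) * log (1 + a)
    - c * log c - (1 + c) * log (1 + c)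

noncomputable def ff (κ B a c : ℝ) : ℝ :=
  (log (1 + a) - log a) + (log (1 + c) - log c) + κ * EE a c + B * a

lemma neg_log_one_sub_ge {t : ℝ} (h0 : 0 ≤ t) (h1 : t < 1) :
    t + t ^ 2 / 2 ≤ - log (1 - t) := by
  have h := Real.hasSum_pow_div_log_of_abs_lt_one (x := t) (by rw [abs_of_nonneg h0]; exact h1)
  have h2 := sum_le_hasSum (Finset.range 2) (fun i _ => by positivity) h
  simp only [Finset.sum_range_succ, Finset.sum_range_zero] at h2
  norm_num at h2
  linarith

lemma ell_eq {a c : ℝ} (ha : 0 ≤ a) (hc : 0 < c) :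
    ell a c = - log (c * (1 + c) / (1 + a + c) ^ 2) := by
  have hN : 0 < 1 + a + c := by linarith
  rw [ell, log_div (by positivity) (by positivity), log_mul (by positivity) (by positivity),
    log_pow]
  push_cast
  ring

lemma ell_ge {a c : ℝ} (ha : 0 ≤ a) (hc : 0 < c) :
    1 - c * (1 + c) / (1 + a + c) ^ 2 ≤ ell a c := by
  rw [ell_eq ha hc]
  have h := Real.log_le_sub_one_of_pos (x := c * (1 + c) / (1 + a + c) ^ 2) (by positivity)
  linarith

lemma ell_pos {a c : ℝ} (ha : 0 ≤ a) (hc : 0 < c) : 0 < ell a c := by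
  refine lt_of_lt_of_le ?_ (ell_ge ha hc)
  rw [sub_pos, div_lt_one (by positivity)]
  nlinarith

lemma KK_pos {a c : ℝ} (ha : 0 ≤ a) (hc : 0 < c) : 0 < KK a c := by
  have := ell_pos ha hc
  unfold KK
  positivity

lemma hasDerivAt_ell {a c : ℝ} (ha : 0 ≤ a) (hc : 0 < c) :
    HasDerivAt (fun c => ell a c) (2 / (1 + a + c) - 1 / c - 1 / (1 + c)) c := by
  have h1 : HasDerivAt (fun c : ℝ => log (1 + a + c)) (1 / (1 + a + c)) c := by
    have := ((hasDerivAt_id c).const_add (1 + a)).log (by simp; linarith)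
    simpa using this
  have h2 : HasDerivAt (fun c : ℝ => log c) (1 / c) c := by
    simpa using (Real.hasDerivAt_log hc.ne')
  have h3 : HasDerivAt (fun c : ℝ => log (1 + c)) (1 / (1 + c)) c := by
    have := ((hasDerivAt_id c).const_add (1 : ℝ)).log (by simp; linarith)
    simpa using this
  have := ((h1.const_mul 2).sub h2).sub h3
  exact this.congr_deriv (by ring)

lemma hasDerivAt_KK {a c : ℝ} (ha : 0 ≤ a) (hc : 0 < c) :
    HasDerivAt (fun c => KK a c)
      ((1 + 2 * c) * ell a c + c * (1 + c) * (2 / (1 + a + c) - 1 / c - 1 / (1 + c))) c := by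
  have h1 : HasDerivAt (fun c : ℝ => c * (1 + c)) (1 + 2 * c) c := by
    have := (hasDerivAt_id c).mul ((hasDerivAt_id c).const_add (1 : ℝ))
    exact this.congr_deriv (by simp only [id]; ring)
  exact h1.mul (hasDerivAt_ell ha hc)

lemma KK_deriv_pos {a c : ℝ} (ha : 0 ≤ a) (hc : 0 < c) :
    0 < (1 + 2 * c) * ell a c + c * (1 + c) * (2 / (1 + a + c) - 1 / c - 1 / (1 + c)) := by
  have h := ell_ge ha hc
  have h2 : (1 + 2 * c) * (1 - c * (1 + c) / (1 + a + c) ^ 2) +
      c * (1 + c) * (2 / (1 + a + c) - 1 / c - 1 / (1 + c)) =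
      c * (1 + c) * (1 + 2 * a) / (1 + a + c) ^ 2 := by
    field_simp
    ring
  have h3 : 0 < c * (1 + c) * (1 + 2 * a) / (1 + a + c) ^ 2 := by positivity
  nlinarith

lemma KK_strictMono {a : ℝ} (ha : 0 ≤ a) : StrictMonoOn (fun c => KK a c) (Ioi 0) := by
  apply strictMonoOn_of_deriv_pos (convex_Ioi 0)
  · intro c hc
    exact (hasDerivAt_KK ha hc).continuousAt.continuousWithinAt
  · intro c hc
    rw [interior_Ioi] at hc
    rw [(hasDerivAt_KK ha hc).deriv]
    exact KK_deriv_pos ha hc

/-- monotone in `a`. -/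
lemma ell_lt_ell {a a' c : ℝ} (ha : 0 ≤ a) (haa : a < a') (hc : 0 < c) : ell a c < ell a' c := by
  unfold ell
  have : log (1 + a + c) < log (1 + a' + c) := Real.log_lt_log (by linarith) (by linarith)
  linarith

lemma KK_lt_KK {a a' c : ℝ} (ha : 0 ≤ a) (haa : a < a') (hc : 0 < c) : KK a c < KK a' c := by
  unfold KK
  have := ell_lt_ell ha haa hc
  have hp : 0 < c * (1 + c) := by positivity
  exact (mul_lt_mul_iff_right₀ hp).mpr this

/-- derivative of `ff` in `c`. -/
lemma hasDerivAt_ff_c {κ B a c : ℝ} (ha : 0 ≤ a) (hc : 0 < c) :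
    HasDerivAt (fun c => ff κ B a c) ((κ * KK a c - 1) / (c * (1 + c))) c := by
  have h1 : HasDerivAt (fun c : ℝ => log (1 + a + c)) (1 / (1 + a + c)) c := by
    have := ((hasDerivAt_id c).const_add (1 + a)).log (by simp; linarith)
    simpa using this
  have h2 : HasDerivAt (fun c : ℝ => log c) (1 / c) c := by
    simpa using (Real.hasDerivAt_log hc.ne')
  have h3 : HasDerivAt (fun c : ℝ => log (1 + c)) (1 / (1 + c)) c := by
    have := ((hasDerivAt_id c).const_add (1 : ℝ)).log (by simp; linarith)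
    simpa using this
  have i1 : HasDerivAt (fun c : ℝ => 1 + a + c) 1 c := by
    simpa using (hasDerivAt_id c).const_add (1 + a)
  have i2 : HasDerivAt (fun c : ℝ => c) 1 c := hasDerivAt_id c
  have i3 : HasDerivAt (fun c : ℝ => 1 + c) 1 c := by
    simpa using (hasDerivAt_id c).const_add (1 : ℝ)
  have e1 := ((((i1.mul h1).const_mul 2).sub_const (a * log a)).sub_const ((1 + a) * log (1 + a)))
  have e2 := (e1.sub (i2.mul h2)).sub (i3.mul h3)
  have e3 := ((((h3.sub h2).const_add (log (1 + a) - log a)).add (e2.const_mul κ)).add_const (B * a))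
  refine e3.congr_deriv ?_
  have hN : (1 + a + c) ≠ 0 := by positivity
  have hc' : (1 + c) ≠ 0 := by positivity
  unfold KK ell
  field_simp
  ring

/-- derivative of `ff` in `a`. -/
lemma hasDerivAt_EE_comp {A C : ℝ → ℝ} {A' C' x : ℝ} (hA : HasDerivAt A A' x)
    (hC : HasDerivAt C C' x) (ha : 0 < A x) (hc : 0 < C x) :
    HasDerivAt (fun t => EE (A t) (C t))
      (A' * ell (C x) (A x) + C' * ell (A x) (C x)) x := by
  have i1 : HasDerivAt (fun t : ℝ => 1 + A t + C t) (A' + C') x := (hA.const_add 1).add hC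
  have i2 : HasDerivAt (fun t : ℝ => 1 + A t) A' x := (hA.const_add 1)
  have i3 : HasDerivAt (fun t : ℝ => 1 + C t) C' x := (hC.const_add 1)
  have h1 := i1.log (by positivity)
  have h2 := i2.log (by positivity)
  have h3 := i3.log (by positivity)
  have h4 := hA.log (by positivity)
  have h5 := hC.log (by positivity)
  have e := ((((i1.mul h1).const_mul 2).sub (hA.mul h4)).sub (i2.mul h2)).sub (hC.mul h5)
    |>.sub (i3.mul h3)
  refine e.congr_deriv ?_
  have hN : (1 + A x + C x) ≠ 0 := by positivity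
  have hN' : (1 + C x + A x) ≠ 0 := by positivity
  have hc' : (1 + C x) ≠ 0 := by positivity
  have ha' : (1 + A x) ≠ 0 := by positivity
  unfold ell
  have : 1 + C x + A x = 1 + A x + C x := by ring
  rw [this]
  field_simp
  ring

/-- the inequality (sharp) in the variables `S = U + V`, `x = U V`. -/
lemma sharp {S x : ℝ} (hS0 : 0 < S) (hS1 : S ≤ 1) (hx0 : 0 < x) (hx : x ≤ S ^ 2 / 4) :
    0 ≤ S * ((2 - S) * (- log (1 - S + x) - 1) + 2 * (1 - S + x)) *
        ((1 - S + x) * (- log (1 - S + x)) - x)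
      + 2 * (2 - S) * x ^ 2 * (- log (1 - S + x) - 1) := by
  set t : ℝ := S - x with ht
  set y : ℝ := 1 - S + x with hy
  have hyt : y = 1 - t := by rw [hy, ht]; ring
  have ht0 : 0 < t := by rw [ht]; nlinarith
  have hy0 : 0 < y := by rw [hy]; linarith
  have ht1 : t < 1 := by linarith
  set L : ℝ := - log y with hL
  have hLt : t + t ^ 2 / 2 ≤ L := by
    rw [hL, hyt]; exact neg_log_one_sub_ge ht0.le ht1
  have hD : S * y ≤ (2 - S) * (L - 1) + 2 * y := by
    have : t ≤ L := by nlinarith [sq_nonneg t]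
    have h2 : (2 - S) * t ≤ (2 - S) * L := by
      apply mul_le_mul_of_nonneg_left this; linarith
    have h3 : (2 - S) * (t - 1) + 2 * y = S * y := by rw [hyt, ht]; rw [hyt] at hy; nlinarith
    nlinarith
  by_cases hL1 : 1 ≤ L
  · have h1 : 0 ≤ y * L - x := by nlinarith
    have h2 : 0 ≤ (2 - S) * (L - 1) + 2 * y := le_trans (by positivity) hD
    have h3 : 0 ≤ S * ((2 - S) * (L - 1) + 2 * y) * (y * L - x) := by positivity
    have h4 : 0 ≤ 2 * (2 - S) * x ^ 2 * (L - 1) := by
      have : 0 ≤ L - 1 := by linarith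
      have : 0 ≤ 2 - S := by linarith
      positivity
    linarith
  · push Not at hL1
    have hye : 0.3678 < y := by
      have h1 : -1 < log y := by rw [hL] at hL1; linarith
      have h2 : exp (-1) < y := by
        rwa [← Real.lt_log_iff_exp_lt hy0]
      have h3 : (0.3678 : ℝ) < exp (-1) := by
        rw [Real.exp_neg, lt_inv_comm₀ (by norm_num) (exp_pos _)]
        have := Real.exp_one_lt_d9
        norm_num at this ⊢
        linarith
      linarith
    have ht2 : t < 0.6322 := by linarith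
    have hSt : S ≤ 4 * t / 3 := by rw [ht]; nlinarith
    have hSt' : t ≤ S := by linarith
    have hx2 : x ≤ 4 * t ^ 2 / 9 := by nlinarith
    have key : x * (2 - S / 2) ≤ y * L := by
      have h1 : x * (2 - S / 2) ≤ (4 * t ^ 2 / 9) * (2 - t / 2) := by
        apply mul_le_mul hx2 (by linarith) (by linarith) (by positivity)
      have h2 : y * (t + t ^ 2 / 2) ≤ y * L := by
        apply mul_le_mul_of_nonneg_left hLt hy0.le
      have h3 : (4 * t ^ 2 / 9) * (2 - t / 2) ≤ y * (t + t ^ 2 / 2) := by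
        rw [hyt]
        have : 0 ≤ t * (1 - 25 * t / 18 - 5 * t ^ 2 / 18) := by
          apply mul_nonneg ht0.le
          nlinarith
        nlinarith
      linarith
    have h1L : 1 - L ≤ y := by nlinarith [sq_nonneg t]
    have h5 : 0 ≤ y * L - x := by nlinarith
    have h6 : S * (S * y) * (y * L - x) ≤ S * ((2 - S) * (L - 1) + 2 * y) * (y * L - x) := by
      apply mul_le_mul_of_nonneg_right _ h5
      exact mul_le_mul_of_nonneg_left hD hS0.le
    have h7 : 2 * (2 - S) * x ^ 2 * (1 - L) ≤ 2 * (2 - S) * x ^ 2 * y := by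
      apply mul_le_mul_of_nonneg_left h1L
      have : 0 ≤ 2 - S := by linarith
      positivity
    have h8 : 2 * (2 - S) * x ^ 2 ≤ S ^ 2 * (x * (1 - S / 2)) := by
      have : x * x ≤ x * (S ^ 2 / 4) := mul_le_mul_of_nonneg_left hx hx0.le
      have h2S : 0 ≤ 2 - S := by linarith
      nlinarith [mul_le_mul_of_nonneg_left this h2S]
    have h9 : 0 ≤ y * (S ^ 2 * (y * L - x * (2 - S / 2))) := by
      have : 0 ≤ y * L - x * (2 - S / 2) := by linarith
      positivity
    have h10 : 2 * (2 - S) * x ^ 2 * y ≤ S ^ 2 * (x * (1 - S / 2)) * y :=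
      mul_le_mul_of_nonneg_right h8 hy0.le
    nlinarith

lemma negMulLog_mono {x z : ℝ} (hx : 0 < x) (hxz : x ≤ z) (hz : z ≤ exp (-1)) :
    - (x * log x) ≤ - (z * log z) := by
  have hz0 : 0 < z := by linarith
  have h1 : log z ≤ -1 := by
    rw [← Real.log_exp (-1)]; exact Real.log_le_log hz0 hz
  have h2 : log z - log x ≤ z / x - 1 := by
    rw [← Real.log_div hz0.ne' hx.ne']
    exact Real.log_le_sub_one_of_pos (by positivity)
  have h3 : x * (log z - log x) ≤ z - x := by
    calc x * (log z - log x) ≤ x * (z / x - 1) := mul_le_mul_of_nonneg_left h2 hx.le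
      _ = z - x := by field_simp
  nlinarith

lemma mul_neg_log_le {w : ℝ} (hw : 0 < w) : w * (- log w) ≤ exp (-1) := by
  have h := Real.log_le_sub_one_of_pos (x := exp (-1) / w) (by positivity)
  rw [Real.log_div (exp_pos _).ne' hw.ne', Real.log_exp] at h
  have h2 : - log w ≤ exp (-1) / w := by linarith
  calc w * (- log w) ≤ w * (exp (-1) / w) := mul_le_mul_of_nonneg_left h2 hw.le
    _ = exp (-1) := by field_simp

lemma g_le_g {x y : ℝ} (hx : 0 < x) (hxy : x ≤ y) (hy1 : y < 1) (hs : √x + √y ≤ 1) :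
    - (x * log x) ≤ - (y * log y) := by
  have hy : 0 < y := by linarith
  by_cases hye : y ≤ exp (-1)
  · exact negMulLog_mono hx hxy hye
  · push Not at hye
    set r : ℝ := √y with hr
    have hr0 : 0 < r := Real.sqrt_pos.mpr hy
    have hr2 : r ^ 2 = y := Real.sq_sqrt hy.le
    have hr1 : r < 1 := by nlinarith
    set w : ℝ := 1 - r with hw
    have hw0 : 0 < w := by linarith
    have hxw : x ≤ w ^ 2 := by
      have h1 : √x ≤ w := by linarith
      have h2 : 0 ≤ √x := Real.sqrt_nonneg x
      have h3 : √x ^ 2 = x := Real.sq_sqrt hx.le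
      nlinarith
    have hwe : w ^ 2 ≤ exp (-1) := by
      -- exp(-1) ≥ 1/4 so r ≥ 1/2, w ≤ 1/2
      have h4 : (1 / 4 : ℝ) < exp (-1) := by
        rw [Real.exp_neg, lt_inv_comm₀ (by norm_num) (exp_pos _)]
        have := Real.exp_one_lt_d9
        norm_num
        linarith
      have h5 : 1 / 2 < r := by nlinarith
      have h6 : w < 1 / 2 := by linarith
      nlinarith
    have h1 : - (x * log x) ≤ - (w ^ 2 * log (w ^ 2)) := negMulLog_mono hx hxw hwe
    have h2 : - (w ^ 2 * log (w ^ 2)) = 2 * w * (w * (- log w)) := by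
      rw [Real.log_pow]; push_cast; ring
    have h3 := mul_neg_log_le hw0
    have h4 : - (y * log y) = 2 * y * (- log (1 - w)) := by
      have : 1 - w = r := by rw [hw]; ring
      rw [this]
      have : log y = 2 * log r := by rw [← hr2, Real.log_pow]; push_cast; ring
      rw [this]; ring
    have h5 := neg_log_one_sub_ge hw0.le (by linarith : w < 1)
    have h6 : w ≤ - log (1 - w) := by nlinarith [sq_nonneg w]
    have h7 : exp (-1) * w ≤ y * (- log (1 - w)) :=
      mul_le_mul hye.le h6 hw0.le hy.le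
    rw [h4]
    rw [h2] at h1
    nlinarith

/-- (iii): for `a ≤ c`, `a(1+a) log(N^2/(a(1+a))) ≤ c(1+c) log(N^2/(c(1+c)))`. -/
lemma KK_swap_le {a c : ℝ} (ha : 0 < a) (hac : a ≤ c) : KK c a ≤ KK a c := by
  have hc : 0 < c := by linarith
  have hN : 0 < 1 + a + c := by linarith
  set N := 1 + a + c with hNdef
  set x : ℝ := a * (1 + a) / N ^ 2 with hx
  set y : ℝ := c * (1 + c) / N ^ 2 with hy
  have hx0 : 0 < x := by positivity
  have hxy : x ≤ y := by
    rw [hx, hy]
    apply div_le_div_of_nonneg_right _ (by positivity)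
    nlinarith
  have hy1 : y < 1 := by
    rw [hy, div_lt_one (by positivity)]
    nlinarith
  have hs : √x + √y ≤ 1 := by
    have h1 : √x ≤ (1 + 2 * a) / (2 * N) := by
      rw [hx]
      apply Real.sqrt_le_iff.mpr
      refine ⟨by positivity, ?_⟩
      rw [div_pow, mul_pow, div_le_div_iff₀ (by positivity) (by positivity)]
      nlinarith [sq_nonneg N, mul_nonneg (sq_nonneg N) (sq_nonneg N), sq_nonneg (1 + 2 * a)]
    have h2 : √y ≤ (1 + 2 * c) / (2 * N) := by
      rw [hy]
      apply Real.sqrt_le_iff.mpr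
      refine ⟨by positivity, ?_⟩
      rw [div_pow, mul_pow, div_le_div_iff₀ (by positivity) (by positivity)]
      nlinarith [sq_nonneg N, mul_nonneg (sq_nonneg N) (sq_nonneg N), sq_nonneg (1 + 2 * a)]
    have h3 : (1 + 2 * a) / (2 * N) + (1 + 2 * c) / (2 * N) = 1 := by
      rw [← add_div, div_eq_one_iff_eq (by positivity), hNdef]; ring
    linarith
  have h := g_le_g hx0 hxy hy1 hs
  have e1 : KK c a = N ^ 2 * (- (x * log x)) := by
    unfold KK
    rw [ell_eq hc.le ha]
    have : 1 + c + a = N := by rw [hNdef]; ring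
    rw [this, ← hx, hx]
    field_simp
  have e2 : KK a c = N ^ 2 * (- (y * log y)) := by
    unfold KK
    rw [ell_eq ha.le hc, ← hNdef, ← hy, hy]
    field_simp
  rw [e1, e2]
  exact mul_le_mul_of_nonneg_left h (by positivity)

/-- (sharp) in homogeneous coordinates. -/
lemma sharp_hom {a c : ℝ} (ha : 0 < a) (hac : a ≤ c) :
    0 ≤ ((1 + a + c) * (1 + 2 * c) * (ell a c - 1) + 2 * (c * (1 + c))) * (1 + 2 * a) *
        (c * (1 + c) * ell a c - a * (1 + a))
      + 2 * (1 + 2 * c) * (ell a c - 1) * (a * (1 + a)) ^ 2 := by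
  have hc : 0 < c := by linarith
  have hN : 0 < 1 + a + c := by linarith
  have hell := ell_eq ha.le hc
  set N := 1 + a + c with hNdef
  set S : ℝ := (1 + 2 * a) / N with hS
  set x : ℝ := a * (1 + a) / N ^ 2 with hx
  have h0 : 0 < S := by positivity
  have h1 : S ≤ 1 := by rw [hS, div_le_one hN]; linarith
  have hx0 : 0 < x := by positivity
  have hxS : x ≤ S ^ 2 / 4 := by
    rw [hx, hS, div_pow, div_div, div_le_div_iff₀ (by positivity) (by positivity)]
    nlinarith [sq_nonneg N]
  have hy : 1 - S + x = c * (1 + c) / N ^ 2 := by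
    rw [hS, hx]; field_simp; rw [hNdef]; ring
  have h := sharp h0 h1 hx0 hxS
  rw [hy, ← hell] at h
  set L := ell a c with hL
  have h2S : 2 - S = (1 + 2 * c) / N := by rw [hS]; field_simp; rw [hNdef]; ring
  rw [h2S] at h
  have e : (N * (1 + 2 * c) * (L - 1) + 2 * (c * (1 + c))) * (1 + 2 * a) *
        (c * (1 + c) * L - a * (1 + a))
      + 2 * (1 + 2 * c) * (L - 1) * (a * (1 + a)) ^ 2 = N ^ 5 * (S * ((1 + 2 * c) / N * (L - 1) + 2 * (c * (1 + c) / N ^ 2)) * (c * (1 + c) / N ^ 2 * L - x) +
      2 * ((1 + 2 * c) / N) * x ^ 2 * (L - 1)) := by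
    rw [hS, hx]; field_simp
  rw [e]
  positivity

/-! The level curve `KK a c = M`. -/

/-- `N` on the level curve. -/
noncomputable def NN (M c : ℝ) : ℝ := exp ((log c + log (1 + c) + M / (c * (1 + c))) / 2)

noncomputable def al (M c : ℝ) : ℝ := NN M c - 1 - c

lemma one_add_al (M c : ℝ) : 1 + al M c + c = NN M c := by unfold al; ring

lemma one_add_al' (M c : ℝ) : 1 + c + al M c = NN M c := by unfold al; ring

lemma ell_al {M c : ℝ} : ell (al M c) c = M / (c * (1 + c)) := by
  unfold ell
  rw [one_add_al, NN, Real.log_exp]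
  ring

lemma KK_al {M c : ℝ} (hc : 0 < c) : KK (al M c) c = M := by
  unfold KK
  rw [ell_al]
  field_simp

lemma al_of_KK {a c : ℝ} (ha : 0 ≤ a) (hc : 0 < c) : al (KK a c) c = a := by
  have h : NN (KK a c) c = 1 + a + c := by
    unfold NN KK
    have hc1 : 0 < 1 + c := by linarith
    have hN : 0 < 1 + a + c := by linarith
    have : (log c + log (1 + c) + c * (1 + c) * ell a c / (c * (1 + c))) / 2 = log (1 + a + c) := by
      rw [mul_div_cancel_left₀ _ (by positivity)]
      unfold ell
      ring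
    rw [this, Real.exp_log hN]
  unfold al
  rw [h]; ring

/-- positivity of `al` is downward closed in `c`. -/
lemma al_pos_of_le {M c c1 : ℝ} (hc : 0 < c) (hcc : c ≤ c1) (h1 : 0 < al M c1) : 0 < al M c := by
  have hc1 : 0 < c1 := by linarith
  have hK : KK 0 c1 < M := by
    have := KK_lt_KK le_rfl h1 hc1
    rwa [KK_al hc1] at this
  have hK0 : KK 0 c ≤ KK 0 c1 := (KK_strictMono le_rfl).monotoneOn hc hc1 hcc
  have hKM : KK 0 c < M := by linarith
  have hP : 0 < c * (1 + c) := by positivity
  have h2 : ell 0 c < M / (c * (1 + c)) := by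
    rw [lt_div_iff₀ hP]
    unfold KK at hKM
    linarith
  have h3 : log (1 + c) < (log c + log (1 + c) + M / (c * (1 + c))) / 2 := by
    unfold ell at h2
    simp only [add_zero] at h2
    linarith
  have h4 : 1 + c < NN M c := by
    unfold NN
    rwa [← Real.log_lt_iff_lt_exp (by linarith)]
  unfold al
  linarith

lemma hasDerivAt_al {M c : ℝ} (hc : 0 < c) :
    HasDerivAt (fun c => al M c)
      (- (NN M c * (1 + 2 * c) * (M / (c * (1 + c)) - 1) + 2 * (c * (1 + c))) / (2 * (c * (1 + c)))) c := by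
  have h2 : HasDerivAt (fun c : ℝ => log c) (1 / c) c := by
    simpa using (Real.hasDerivAt_log hc.ne')
  have i3 : HasDerivAt (fun c : ℝ => 1 + c) 1 c := by
    simpa using (hasDerivAt_id c).const_add (1 : ℝ)
  have h3 := i3.log (by positivity)
  have hP : HasDerivAt (fun c : ℝ => c * (1 + c)) (1 + 2 * c) c := by
    have := (hasDerivAt_id c).mul i3
    exact this.congr_deriv (by simp only [id]; ring)
  have hPinv := (hasDerivAt_const c M).div hP (by positivity)
  have e := ((((h2.add h3).add hPinv).div_const 2).exp.sub_const 1).sub (hasDerivAt_id c)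
  refine e.congr_deriv ?_
  have hN : exp (((((fun c : ℝ => log c) + fun c : ℝ => log (1 + c)) +
    (fun c : ℝ => M) / fun c : ℝ => c * (1 + c)) c) / 2) = NN M c := by
    unfold NN
    simp
  rw [hN]
  have hc1 : (1 + c) ≠ 0 := by positivity
  field_simp
  ring

/-- derivative sign -/
lemma W_pos {M c : ℝ} (hc : 0 < c) (ha : 0 < al M c) :
    0 < NN M c * (1 + 2 * c) * (M / (c * (1 + c)) - 1) + 2 * (c * (1 + c)) := by
  have h := KK_deriv_pos ha.le hc
  rw [ell_al, one_add_al] at h
  have hN : 0 < NN M c := exp_pos _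
  have hc1 : (1 + c) ≠ 0 := by positivity
  have e : NN M c * (1 + 2 * c) * (M / (c * (1 + c)) - 1) + 2 * (c * (1 + c)) =
    NN M c * ((1 + 2 * c) * (M / (c * (1 + c))) + c * (1 + c) * (2 / NN M c - 1 / c - 1 / (1 + c))) := by
    field_simp
    ring
  rw [e]
  positivity

lemma al_deriv_neg {M c : ℝ} (hc : 0 < c) (ha : 0 < al M c) :
    - (NN M c * (1 + 2 * c) * (M / (c * (1 + c)) - 1) + 2 * (c * (1 + c))) / (2 * (c * (1 + c))) < 0 := by
  have := W_pos hc ha
  rw [neg_div]
  have : 0 < (NN M c * (1 + 2 * c) * (M / (c * (1 + c)) - 1) + 2 * (c * (1 + c))) / (2 * (c * (1 + c))) := by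
    positivity
  linarith

lemma al_antitone {M c0 c1 : ℝ} (hc0 : 0 < c0) (h1 : 0 < al M c1) :
    AntitoneOn (fun c => al M c) (Icc c0 c1) := by
  apply antitoneOn_of_deriv_nonpos (convex_Icc _ _)
  · intro c hc
    exact (hasDerivAt_al (lt_of_lt_of_le hc0 hc.1)).continuousAt.continuousWithinAt
  · intro c hc
    rw [interior_Icc] at hc
    exact (hasDerivAt_al (lt_trans hc0 hc.1)).differentiableAt.differentiableWithinAt
  · intro c hc
    rw [interior_Icc] at hc
    rw [(hasDerivAt_al (lt_trans hc0 hc.1)).deriv]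
    exact (al_deriv_neg (lt_trans hc0 hc.1) (al_pos_of_le (lt_trans hc0 hc.1) hc.2.le h1)).le

/-- `∂_a (ff - B a)` along the curve. -/
noncomputable def Gs (M c : ℝ) : ℝ :=
  - 1 / (al M c * (1 + al M c)) + 1 / M * ell c (al M c)

lemma hasDerivAt_Gs {M c : ℝ} (hc : 0 < c) (ha : 0 < al M c) {A' : ℝ}
    (hA : HasDerivAt (fun c => al M c) A' c) :
    HasDerivAt (fun c => Gs M c)
      ((1 + 2 * al M c) * A' / (al M c * (1 + al M c)) ^ 2 +
        1 / M * (2 * (1 + A') / NN M c - (1 + 2 * al M c) * A' / (al M c * (1 + al M c)))) c := by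
  set a := al M c with hadef
  have i2 : HasDerivAt (fun c : ℝ => 1 + al M c) A' c := hA.const_add 1
  have i1 : HasDerivAt (fun c : ℝ => 1 + c + al M c) (1 + A') c := by
    have := ((hasDerivAt_id c).const_add (1 : ℝ)).add hA
    exact this
  have h1 := i1.log (by rw [one_add_al']; exact (exp_pos _).ne')
  have h2 := i2.log (by positivity)
  have h4 := hA.log (by positivity)
  have e1 := (((h1.const_mul 2).sub h4).sub h2).const_mul (1 / M)
  have hQ := hA.mul i2
  have e2 := (hasDerivAt_const c (-1 : ℝ)).div hQ (by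
    simp only [Pi.mul_apply]
    positivity)
  have e := e2.add e1
  refine e.congr_deriv ?_
  simp only [Pi.mul_apply]
  rw [one_add_al', ← hadef]
  have hN : NN M c ≠ 0 := (exp_pos _).ne'
  have ha1 : 1 + a ≠ 0 := by positivity
  field_simp
  ring

lemma Gs_deriv_nonpos {M c : ℝ} (hM : 0 < M) (hc : 0 < c) (ha : 0 < al M c) (hac : al M c ≤ c) :
    (1 + 2 * al M c) * (- (NN M c * (1 + 2 * c) * (M / (c * (1 + c)) - 1) + 2 * (c * (1 + c))) / (2 * (c * (1 + c)))) / (al M c * (1 + al M c)) ^ 2 +
        1 / M * (2 * (1 + (- (NN M c * (1 + 2 * c) * (M / (c * (1 + c)) - 1) + 2 * (c * (1 + c))) / (2 * (c * (1 + c))))) / NN M c - (1 + 2 * al M c) * (- (NN M c * (1 + 2 * c) * (M / (c * (1 + c)) - 1) + 2 * (c * (1 + c))) / (2 * (c * (1 + c)))) / (al M c * (1 + al M c))) ≤ 0 := by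
  have h := sharp_hom ha hac
  rw [ell_al, one_add_al] at h
  set a := al M c with hadef
  set N := NN M c with hN
  have hN0 : 0 < N := exp_pos _
  have hP : 0 < c * (1 + c) := by positivity
  have hQ : 0 < a * (1 + a) := by positivity
  set P := c * (1 + c) with hPdef
  set Q := a * (1 + a) with hQdef
  set W := N * (1 + 2 * c) * (M / P - 1) + 2 * P with hW
  have e : (1 + 2 * a) * (-W / (2 * P)) / Q ^ 2 +
        1 / M * (2 * (1 + -W / (2 * P)) / N - (1 + 2 * a) * (-W / (2 * P)) / Q) =
      - (W * (1 + 2 * a) * (P * (M / P) - Q) + 2 * (1 + 2 * c) * (M / P - 1) * Q ^ 2) / (2 * P * Q ^ 2 * M) := by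
    rw [hW]
    field_simp
    ring
  rw [e, neg_div]
  have : 0 ≤ (W * (1 + 2 * a) * (P * (M / P) - Q) + 2 * (1 + 2 * c) * (M / P - 1) * Q ^ 2) / (2 * P * Q ^ 2 * M) := by
    apply div_nonneg h
    positivity
  linarith

lemma Gs_nonneg {M c : ℝ} (hM : 0 < M) (hc : 0 < c) (hac : c ≤ al M c) : 0 ≤ Gs M c := by
  have ha : 0 < al M c := by linarith
  have h := KK_swap_le hc hac
  rw [KK_al hc] at h
  unfold KK at h
  unfold Gs
  set a := al M c with hadef
  have hQ : 0 < a * (1 + a) := by positivity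
  have : 1 / (a * (1 + a)) ≤ 1 / M * ell c a := by
    rw [div_le_iff₀ hQ]
    have : 1 / M * ell c a * (a * (1 + a)) = (a * (1 + a) * ell c a) / M := by ring
    rw [this, le_div_iff₀ hM]
    linarith
  rw [neg_div]
  linarith

lemma hasDerivAt_ff_curve {M B c : ℝ} (hM : 0 < M) (hc : 0 < c) (ha : 0 < al M c) {A' : ℝ}
    (hA : HasDerivAt (fun c => al M c) A' c) :
    HasDerivAt (fun c => ff (1 / M) B (al M c) c) (A' * (Gs M c + B)) c := by
  have i2 : HasDerivAt (fun c : ℝ => 1 + al M c) A' c := hA.const_add 1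
  have i3 : HasDerivAt (fun c : ℝ => 1 + c) 1 c := by
    simpa using (hasDerivAt_id c).const_add (1 : ℝ)
  have h2 := i2.log (by positivity)
  have h3 := i3.log (by positivity)
  have h4 := hA.log (by positivity)
  have h5 : HasDerivAt (fun c : ℝ => log c) (1 / c) c := by
    simpa using (Real.hasDerivAt_log hc.ne')
  have hE := hasDerivAt_EE_comp hA (hasDerivAt_id c) ha hc
  have e := (((h2.sub h4).add (h3.sub h5)).add (hE.const_mul (1 / M))).add (hA.const_mul B)
  refine e.congr_deriv ?_
  simp only [id]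
  rw [ell_al]
  unfold Gs
  set a := al M c with hadef
  have ha1 : 1 + a ≠ 0 := by positivity
  have hc1 : 1 + c ≠ 0 := by positivity
  field_simp
  ring

/-- On the curve, the minimum is at the contact. -/
lemma ff_curve_ge {a0 c0 c1 : ℝ} (ha0 : 0 < a0) (hac0 : a0 ≤ c0)
    (hc1 : 0 < c1) (h1 : 0 < al (KK a0 c0) c1) :
    ff (1 / KK a0 c0) (- Gs (KK a0 c0) c0) a0 c0 ≤
      ff (1 / KK a0 c0) (- Gs (KK a0 c0) c0) (al (KK a0 c0) c1) c1 := by
  have hc0 : 0 < c0 := by linarith
  set M := KK a0 c0 with hMdef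
  have hM : 0 < M := KK_pos ha0.le hc0
  have hal0 : al M c0 = a0 := al_of_KK ha0.le hc0
  set B := - Gs M c0 with hB
  have e0 : ff (1 / M) B a0 c0 = (fun c => ff (1 / M) B (al M c) c) c0 := by
    simp only [hal0]
  have e1 : ff (1 / M) B (al M c1) c1 = (fun c => ff (1 / M) B (al M c) c) c1 := rfl
  rw [e0, e1]
  have hBnn : 0 ≤ B := by
    have h := KK_swap_le ha0 hac0
    rw [← hMdef] at h
    unfold KK at h
    rw [hB]
    unfold Gs
    rw [hal0]
    have hQ : 0 < a0 * (1 + a0) := by positivity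
    have : 1 / M * ell c0 a0 ≤ 1 / (a0 * (1 + a0)) := by
      rw [le_div_iff₀ hQ]
      have : 1 / M * ell c0 a0 * (a0 * (1 + a0)) = (a0 * (1 + a0) * ell c0 a0) / M := by ring
      rw [this, div_le_one hM]
      linarith
    rw [neg_div]
    linarith
  -- antitonicity of Gs on intervals where al ≤ c
  have hGs : ∀ {x y : ℝ}, 0 < x → x ≤ y → 0 < al M y → al M x ≤ x → Gs M y ≤ Gs M x := by
    intro x y hx hxy hy hxx
    have hanti : AntitoneOn (fun c => Gs M c) (Icc x y) := by
      have hpos : ∀ c ∈ Icc x y, 0 < c ∧ 0 < al M c ∧ al M c ≤ c := by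
        intro c hc
        have hc0 : 0 < c := lt_of_lt_of_le hx hc.1
        refine ⟨hc0, al_pos_of_le hc0 hc.2 hy, ?_⟩
        have := al_antitone hx hy (left_mem_Icc.mpr hxy) hc hc.1
        simp only at this
        linarith [hc.1]
      apply antitoneOn_of_deriv_nonpos (convex_Icc _ _)
      · intro c hc
        obtain ⟨h1, h2, h3⟩ := hpos c hc
        exact (hasDerivAt_Gs h1 h2 (hasDerivAt_al h1)).continuousAt.continuousWithinAt
      · intro c hc
        obtain ⟨h1, h2, h3⟩ := hpos c (interior_subset hc)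
        exact (hasDerivAt_Gs h1 h2 (hasDerivAt_al h1)).differentiableAt.differentiableWithinAt
      · intro c hc
        obtain ⟨h1, h2, h3⟩ := hpos c (interior_subset hc)
        rw [(hasDerivAt_Gs h1 h2 (hasDerivAt_al h1)).deriv]
        exact Gs_deriv_nonpos hM h1 h2 h3
    exact hanti (left_mem_Icc.mpr hxy) (right_mem_Icc.mpr hxy) hxy
  rcases le_total c0 c1 with hle | hle
  · -- c0 ≤ c1
    have hpos : ∀ c ∈ Icc c0 c1, 0 < c ∧ 0 < al M c := by
      intro c hc
      have hc0 : 0 < c := lt_of_lt_of_le hc0 hc.1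
      exact ⟨hc0, al_pos_of_le hc0 hc.2 h1⟩
    have hmono : MonotoneOn (fun c => ff (1 / M) B (al M c) c) (Icc c0 c1) := by
      apply monotoneOn_of_deriv_nonneg (convex_Icc _ _)
      · intro c hc
        obtain ⟨h1, h2⟩ := hpos c hc
        exact (hasDerivAt_ff_curve hM h1 h2 (hasDerivAt_al h1)).continuousAt.continuousWithinAt
      · intro c hc
        obtain ⟨h1, h2⟩ := hpos c (interior_subset hc)
        exact (hasDerivAt_ff_curve hM h1 h2 (hasDerivAt_al h1)).differentiableAt.differentiableWithinAt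
      · intro c hc
        have hc' := interior_subset hc
        obtain ⟨h1, h2⟩ := hpos c hc'
        rw [(hasDerivAt_ff_curve hM h1 h2 (hasDerivAt_al h1)).deriv]
        apply mul_nonneg_of_nonpos_of_nonpos (al_deriv_neg h1 h2).le
        have := hGs hc0 hc'.1 h2 (by rw [hal0]; exact hac0)
        linarith
    exact hmono (left_mem_Icc.mpr hle) (right_mem_Icc.mpr hle) hle
  · -- c1 ≤ c0
    have hpos : ∀ c ∈ Icc c1 c0, 0 < c ∧ 0 < al M c := by
      intro c hc
      have hc0 : 0 < c := lt_of_lt_of_le hc1 hc.1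
      exact ⟨hc0, al_pos_of_le hc0 hc.2 (by rw [hal0]; exact ha0)⟩
    have hanti : AntitoneOn (fun c => ff (1 / M) B (al M c) c) (Icc c1 c0) := by
      apply antitoneOn_of_deriv_nonpos (convex_Icc _ _)
      · intro c hc
        obtain ⟨h1, h2⟩ := hpos c hc
        exact (hasDerivAt_ff_curve hM h1 h2 (hasDerivAt_al h1)).continuousAt.continuousWithinAt
      · intro c hc
        obtain ⟨h1, h2⟩ := hpos c (interior_subset hc)
        exact (hasDerivAt_ff_curve hM h1 h2 (hasDerivAt_al h1)).differentiableAt.differentiableWithinAt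
      · intro c hc
        have hc' := interior_subset hc
        obtain ⟨h1, h2⟩ := hpos c hc'
        rw [(hasDerivAt_ff_curve hM h1 h2 (hasDerivAt_al h1)).deriv]
        apply mul_nonpos_of_nonpos_of_nonneg (al_deriv_neg h1 h2).le
        rcases le_total (al M c) c with h3 | h3
        · have := hGs h1 hc'.2 (by rw [hal0]; exact ha0) h3
          linarith
        · have := Gs_nonneg hM h1 h3
          linarith
    exact hanti (left_mem_Icc.mpr hle) (right_mem_Icc.mpr hle) hle

/-- existence of the point of the curve above a given `a`. -/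
lemma exists_KK_eq {a M : ℝ} (ha : 0 ≤ a) (hM : 0 < M) : ∃ c, 0 < c ∧ KK a c = M := by
  have hcont : ContinuousOn (fun c => KK a c) (Icc 0 ((1 + a) ^ 2 * M)) := by
    have : ∀ c ∈ Icc 0 ((1 + a) ^ 2 * M), KK a c =
        2 * (c * (1 + c)) * log (1 + a + c) - (1 + c) * (c * log c) - c * ((1 + c) * log (1 + c)) := by
      intro c _
      unfold KK ell
      ring
    refine ContinuousOn.congr ?_ this
    apply ContinuousOn.sub
    · apply ContinuousOn.sub
      · apply ContinuousOn.mul (by fun_prop)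
        apply ContinuousOn.log (by fun_prop)
        intro c hc
        have := hc.1
        positivity
      · apply ContinuousOn.mul (by fun_prop)
        exact Real.continuous_mul_log.continuousOn
    · apply ContinuousOn.mul (by fun_prop)
      exact (Real.continuous_mul_log.comp (continuous_const.add continuous_id)).continuousOn
  have hb : 0 < (1 + a) ^ 2 * M := by positivity
  set b := (1 + a) ^ 2 * M with hbdef
  have h0 : KK a 0 = 0 := by unfold KK; simp
  have h1 : M ≤ KK a b := by
    have h := ell_ge ha hb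
    have hP : 0 < b * (1 + b) := by positivity
    have h2 : b * (1 + b) * (1 - b * (1 + b) / (1 + a + b) ^ 2) ≤ KK a b :=
      mul_le_mul_of_nonneg_left h hP.le
    have h3 : M ≤ b * (1 + b) * (1 - b * (1 + b) / (1 + a + b) ^ 2) := by
      have e : b * (1 + b) * (1 - b * (1 + b) / (1 + a + b) ^ 2) =
        b * (1 + b) * ((1 + a + b) ^ 2 - b * (1 + b)) / (1 + a + b) ^ 2 := by
        field_simp
      rw [e, le_div_iff₀ (by positivity)]
      have h4 : (1 + b) ≤ (1 + a + b) ^ 2 - b * (1 + b) := by nlinarith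
      have h5 : b * (1 + b) * (1 + b) ≤ b * (1 + b) * ((1 + a + b) ^ 2 - b * (1 + b)) :=
        mul_le_mul_of_nonneg_left h4 hP.le
      have h6 : M * (1 + a + b) ^ 2 ≤ b * (1 + b) * (1 + b) := by
        have : (1 + a + b) ≤ (1 + a) * (1 + b) := by nlinarith
        have : (1 + a + b) ^ 2 ≤ ((1 + a) * (1 + b)) ^ 2 := by
          apply pow_le_pow_left₀ (by positivity) this
        calc M * (1 + a + b) ^ 2 ≤ M * ((1 + a) * (1 + b)) ^ 2 :=
              mul_le_mul_of_nonneg_left this hM.le
          _ = b * (1 + b) * (1 + b) := by rw [hbdef]; ring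
      linarith
    linarith
  have := intermediate_value_Icc hb.le hcont
  have hmem : M ∈ Icc (KK a 0) (KK a b) := ⟨by rw [h0]; exact hM.le, h1⟩
  obtain ⟨c, hc, hcM⟩ := this hmem
  refine ⟨c, ?_, hcM⟩
  rcases hc.1.lt_or_eq with h | h
  · exact h
  · exfalso
    rw [← h] at hcM
    simp only at hcM
    rw [h0] at hcM
    linarith

/-- **The static inequality in homogeneous coordinates.** -/
theorem hom_ineq {a0 c0 a c : ℝ} (ha0 : 0 < a0) (hac0 : a0 ≤ c0) (ha : 0 < a) (hc : 0 < c) :
    ff (1 / KK a0 c0) (- Gs (KK a0 c0) c0) a0 c0 ≤ ff (1 / KK a0 c0) (- Gs (KK a0 c0) c0) a c := by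
  have hc0 : 0 < c0 := by linarith
  set M := KK a0 c0 with hMdef
  have hM : 0 < M := KK_pos ha0.le hc0
  obtain ⟨c1, hc1, hK1⟩ := exists_KK_eq ha.le hM
  have hal : al M c1 = a := by rw [← hK1]; exact al_of_KK ha.le hc1
  have h := ff_curve_ge (c1 := c1) ha0 hac0 hc1 (by rw [← hMdef, hal]; exact ha)
  rw [← hMdef, hal] at h
  refine le_trans h ?_
  set B := - Gs M c0
  rcases le_total c1 c with hle | hle
  · have hmono : MonotoneOn (fun c => ff (1 / M) B a c) (Icc c1 c) := by
      apply monotoneOn_of_deriv_nonneg (convex_Icc _ _)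
      · intro x hx
        exact (hasDerivAt_ff_c ha.le (lt_of_lt_of_le hc1 hx.1)).continuousAt.continuousWithinAt
      · intro x hx
        have hx' := interior_subset hx
        exact (hasDerivAt_ff_c ha.le (lt_of_lt_of_le hc1 hx'.1)).differentiableAt.differentiableWithinAt
      · intro x hx
        have hx' := interior_subset hx
        have hx0 : 0 < x := lt_of_lt_of_le hc1 hx'.1
        rw [(hasDerivAt_ff_c ha.le hx0).deriv]
        apply div_nonneg _ (by positivity)
        have : M ≤ KK a x := by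
          rw [← hK1]
          exact (KK_strictMono ha.le).monotoneOn hc1 hx0 hx'.1
        have : 1 ≤ 1 / M * KK a x := by
          rw [one_div, ← div_eq_inv_mul, le_div_iff₀ hM]; linarith
        linarith
    exact hmono (left_mem_Icc.mpr hle) (right_mem_Icc.mpr hle) hle
  · have hanti : AntitoneOn (fun c => ff (1 / M) B a c) (Icc c c1) := by
      apply antitoneOn_of_deriv_nonpos (convex_Icc _ _)
      · intro x hx
        exact (hasDerivAt_ff_c ha.le (lt_of_lt_of_le hc hx.1)).continuousAt.continuousWithinAt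
      · intro x hx
        have hx' := interior_subset hx
        exact (hasDerivAt_ff_c ha.le (lt_of_lt_of_le hc hx'.1)).differentiableAt.differentiableWithinAt
      · intro x hx
        have hx' := interior_subset hx
        have hx0 : 0 < x := lt_of_lt_of_le hc hx'.1
        rw [(hasDerivAt_ff_c ha.le hx0).deriv]
        apply div_nonpos_of_nonpos_of_nonneg _ (by positivity)
        have : KK a x ≤ M := by
          rw [← hK1]
          exact (KK_strictMono ha.le).monotoneOn hx0 hc1 hx'.2
        have : 1 / M * KK a x ≤ 1 := by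
          rw [one_div, ← div_eq_inv_mul, div_le_iff₀ hM]; linarith
        linarith
    exact hanti (left_mem_Icc.mpr hle) (right_mem_Icc.mpr hle) hle

end P322
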