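import Vale.Agent.Lib.P322.Cube

/-!
P322 (Courtade-Kumar): mutual information and the reduction to the entropy inequality.
-/

namespace P322

open Real Set

/-- Probability mass of the pair `(x, z)`: `x` uniform on `{-1,1}^n`, and the coordinates of the
noise `z` independent of `x` and of each other with `P(z i = -1) = ε`. -/
noncomputable def pXZ (n : ℕ) (ε : ℝ) (ω : (Fin n → ℤˣ) × (Fin n → ℤˣ)) : ℝ :=
  (1 / 2 : ℝ) ^ n * ∏ i, (if ω.2 i = -1 then ε else 1 - ε)

open Classical in
/-- Probability of an event on a finite space with mass function `p`. -/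
noncomputable def prob {Ω : Type*} [Fintype Ω] (p : Ω → ℝ) (S : Set Ω) : ℝ :=
  ∑ ω, if ω ∈ S then p ω else 0

/-- Mutual information in bits of the random variables `A`, `B` on a finite probability space. -/
noncomputable def mutualInfo {Ω α β : Type*} [Fintype Ω] [Fintype α] [Fintype β]
    (p : Ω → ℝ) (A : Ω → α) (B : Ω → β) : ℝ :=
  ∑ a, ∑ b, prob p {ω | A ω = a ∧ B ω = b} *
    Real.logb 2 (prob p {ω | A ω = a ∧ B ω = b} / (prob p {ω | A ω = a} * prob p {ω | B ω = b}))

/-- Binary entropy in bits. -/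
noncomputable def h2 (p : ℝ) : ℝ := -p * Real.logb 2 p - (1 - p) * Real.logb 2 (1 - p)

lemma h2_eq (p : ℝ) : h2 p = binEntropy p / log 2 := by
  unfold h2 Real.logb
  rw [binEntropy_eq']
  ring

lemma units_mul_eq_neg_one_iff (a b : ℤˣ) : a * b = -1 ↔ ¬ (a = b) := by
  revert a b; decide

/-- change of variables `z = x y`. -/
lemma prob_joint {n : ℕ} (ε : ℝ) (S : (Fin n → ℤˣ) → Prop) [DecidablePred S] (y : Fin n → ℤˣ) :
    prob (pXZ n ε) {ω | S ω.1 ∧ ω.1 * ω.2 = y} =
      (1 / 2 : ℝ) ^ n * TT ε (fun x => if S x then 1 else 0) y := by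
  classical
  unfold prob TT
  rw [Fintype.sum_prod_type, Finset.mul_sum]
  apply Finset.sum_congr rfl
  intro x _
  rw [Finset.sum_eq_single (x * y)]
  · have h1 : x * (x * y) = y := by
      rw [← mul_assoc]
      have : x * x = 1 := by
        funext i
        simp [Int.units_mul_self]
      rw [this, one_mul]
    have hk : pXZ n ε (x, x * y) = (1 / 2 : ℝ) ^ n * ker ε x y := by
      unfold pXZ ker
      congr 1
      apply Finset.prod_congr rfl
      intro i _
      simp only [Pi.mul_apply]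
      by_cases h : x i = y i
      · rw [if_neg, if_pos h]
        rw [units_mul_eq_neg_one_iff]; simpa using h
      · rw [if_pos, if_neg h]
        rw [units_mul_eq_neg_one_iff]; exact h
    by_cases hS : S x
    · rw [if_pos, hk]
      · simp only [if_pos hS]; ring
      exact ⟨hS, h1⟩
    · rw [if_neg]
      · simp only [if_neg hS]; ring
      intro h; exact hS h.1
  · intro z _ hz
    rw [if_neg]
    rintro ⟨_, h⟩
    apply hz
    rw [← h, ← mul_assoc]
    have : x * x = 1 := by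
      funext i
      simp [Int.units_mul_self]
    rw [this, one_mul]
  · intro h; exact absurd (Finset.mem_univ _) h

lemma prob_eq_sum_joint {Ω β : Type*} [Fintype Ω] [Fintype β] (p : Ω → ℝ) (S : Ω → Prop)
    (B : Ω → β) : prob p {ω | S ω} = ∑ b, prob p {ω | S ω ∧ B ω = b} := by
  classical
  unfold prob
  rw [Finset.sum_comm]
  apply Finset.sum_congr rfl
  intro ω _
  by_cases hS : S ω
  · rw [if_pos (by exact hS)]
    rw [Finset.sum_eq_single (B ω)]
    · rw [if_pos]; exact ⟨hS, rfl⟩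
    · intro b _ hb
      rw [if_neg]; rintro ⟨_, h⟩; exact hb h.symm
    · intro h; exact absurd (Finset.mem_univ _) h
  · rw [if_neg (by exact hS)]
    symm
    apply Finset.sum_eq_zero
    intro b _
    rw [if_neg]; rintro ⟨h, _⟩; exact hS h

lemma TT_one (ε : ℝ) {n : ℕ} (y : Fin n → ℤˣ) : TT ε (fun _ => (1 : ℝ)) y = 1 := by
  unfold TT; simp [sum_ker]

lemma prob_Y {n : ℕ} (ε : ℝ) (y : Fin n → ℤˣ) :
    prob (pXZ n ε) {ω | ω.1 * ω.2 = y} = (1 / 2 : ℝ) ^ n := by
  have h := prob_joint ε (fun _ : Fin n → ℤˣ => True) y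
  simp only [true_and, if_true] at h
  rw [h, TT_one, mul_one]

lemma prob_S {n : ℕ} (ε : ℝ) (S : (Fin n → ℤˣ) → Prop) [DecidablePred S] :
    prob (pXZ n ε) {ω | S ω.1} = (1 / 2 : ℝ) ^ n * ∑ x, (if S x then (1 : ℝ) else 0) := by
  rw [prob_eq_sum_joint (pXZ n ε) (fun ω => S ω.1) (fun ω => ω.1 * ω.2)]
  simp only [prob_joint]
  rw [← Finset.mul_sum, sum_TT]

lemma TT_compl (ε : ℝ) {n : ℕ} (g : (Fin n → ℤˣ) → ℝ) (y : Fin n → ℤˣ) :
    TT ε (fun x => 1 - g x) y = 1 - TT ε g y := by
  unfold TT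
  have : ∀ x, ker ε x y * (1 - g x) = ker ε x y - ker ε x y * g x := fun x => by ring
  rw [Finset.sum_congr rfl (fun x _ => this x), Finset.sum_sub_distrib, sum_ker]

/-- reduction to the entropy inequality. -/
theorem mi_le {n : ℕ} {ε : ℝ} (h0 : 0 ≤ ε) (h1 : ε ≤ 1) (f : (Fin n → ℤˣ) → ℤˣ)
    (hE : binEntropy ((∑ x, (if f x = 1 then (1 : ℝ) else 0)) / 2 ^ n) - log 2 + binEntropy ε ≤
      (∑ y, binEntropy (TT ε (fun x => if f x = 1 then (1 : ℝ) else 0) y)) / 2 ^ n) :
    mutualInfo (pXZ n ε) (fun ω => f ω.1) (fun ω => ω.1 * ω.2) ≤ 1 - h2 ε := by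
  set g : (Fin n → ℤˣ) → ℝ := fun x => if f x = 1 then (1 : ℝ) else 0 with hg
  have hg' : (fun x => if f x = -1 then (1 : ℝ) else 0) = fun x => 1 - g x := by
    funext x
    rcases Int.units_eq_one_or (f x) with h | h
    · simp [hg, h]
    · simp [hg, h]
  have hlog2 : 0 < log 2 := Real.log_pos (by norm_num)
  have h2n : (0 : ℝ) < 2 ^ n := by positivity
  have hq : ((1 : ℝ) / 2) ^ n = 1 / 2 ^ n := by rw [div_pow, one_pow]
  set T : (Fin n → ℤˣ) → ℝ := TT ε g with hT
  set p : ℝ := (∑ x, g x) / 2 ^ n with hp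
  have hgI : ∀ x, g x ∈ Icc (0 : ℝ) 1 := by
    intro x; simp only [hg]; split_ifs <;> constructor <;> norm_num
  have hTm : ∀ y, T y ∈ Icc (0 : ℝ) 1 := TT_mem h0 h1 g hgI
  have hTp : (∑ y, T y) / 2 ^ n = p := by rw [hT, sum_TT]
  -- expand the mutual information
  have hjoint : ∀ a y, prob (pXZ n ε) {ω | f ω.1 = a ∧ ω.1 * ω.2 = y} =
      (1 / 2 : ℝ) ^ n * TT ε (fun x => if f x = a then (1 : ℝ) else 0) y := fun a y =>
    prob_joint ε (fun x => f x = a) y
  have hA : ∀ a, prob (pXZ n ε) {ω | f ω.1 = a} = (1 / 2 : ℝ) ^ n * ∑ x, (if f x = a then (1 : ℝ) else 0) :=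
    fun a => prob_S ε (fun x => f x = a)
  have hMI : mutualInfo (pXZ n ε) (fun ω => f ω.1) (fun ω => ω.1 * ω.2) =
      ∑ y, ((1 / 2 : ℝ) ^ n * T y * Real.logb 2 ((1 / 2 : ℝ) ^ n * T y / (p * (1 / 2 : ℝ) ^ n))) +
      ∑ y, ((1 / 2 : ℝ) ^ n * (1 - T y) * Real.logb 2 ((1 / 2 : ℝ) ^ n * (1 - T y) / ((1 - p) * (1 / 2 : ℝ) ^ n))) := by
    unfold mutualInfo
    rw [sum_units]
    congr 1
    · apply Finset.sum_congr rfl
      intro y _
      rw [hjoint, hA, prob_Y]
      have : (1 / 2 : ℝ) ^ n * ∑ x, (if f x = 1 then (1 : ℝ) else 0) = p := by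
        rw [hp, hq]; simp only [hg]; ring
      rw [this]
    · apply Finset.sum_congr rfl
      intro y _
      rw [hjoint, hA, prob_Y]
      have : (1 / 2 : ℝ) ^ n * ∑ x, (if f x = -1 then (1 : ℝ) else 0) = 1 - p := by
        have h3 : ∑ x, (if f x = -1 then (1 : ℝ) else 0) = ∑ x, (1 - g x) := by
          apply Finset.sum_congr rfl
          intro x _
          exact congrFun hg' x
        rw [h3, Finset.sum_sub_distrib, hp, hq]
        have : ∑ x : Fin n → ℤˣ, (1 : ℝ) = 2 ^ n := by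
          rw [Finset.sum_const, nsmul_eq_mul, mul_one, Finset.card_univ, Fintype.card_fun,
            Fintype.card_units_int, Fintype.card_fin]
          push_cast; ring
        rw [this]
        field_simp
      rw [this, hg', TT_compl]
  have hterm : ∀ (t q : ℝ), (q = 0 → t = 0) → (1 / 2 : ℝ) ^ n * t * Real.logb 2 ((1 / 2 : ℝ) ^ n * t / (q * (1 / 2 : ℝ) ^ n)) =
      (1 / 2 ^ n) * ((t * log t - t * log q) / log 2) := by
    intro t q hqt
    by_cases ht : t = 0
    · rw [ht]; simp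
    · have hq0 : q ≠ 0 := fun h => ht (hqt h)
      have : (1 / 2 : ℝ) ^ n * t / (q * (1 / 2 : ℝ) ^ n) = t / q := by
        have : ((1 : ℝ) / 2) ^ n ≠ 0 := by positivity
        field_simp
      rw [this, Real.logb, Real.log_div ht hq0, hq]
      ring
  have hsumz : ∀ (F : (Fin n → ℤˣ) → ℝ), (∀ y, 0 ≤ F y) → (∑ y, F y) / 2 ^ n = 0 → ∀ y, F y = 0 := by
    intro F hF h y
    have h4 : ∑ y, F y = 0 := by
      rcases div_eq_zero_iff.mp h with h | h
      · exact h
      · exact absurd h h2n.ne'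
    exact (Finset.sum_eq_zero_iff_of_nonneg (fun i _ => hF i)).mp h4 y (Finset.mem_univ y)
  have hsum1 : (∑ y, (1 - T y)) / 2 ^ n = 1 - p := by
    rw [Finset.sum_sub_distrib, sub_div, hTp]
    have : ∑ x : Fin n → ℤˣ, (1 : ℝ) = 2 ^ n := by
      rw [Finset.sum_const, nsmul_eq_mul, mul_one, Finset.card_univ, Fintype.card_fun,
        Fintype.card_units_int, Fintype.card_fin]
      push_cast; ring
    rw [this, div_self h2n.ne']
  rw [hMI]
  rw [Finset.sum_congr rfl (fun y _ => hterm (T y) p (fun h => hsumz T (fun y => (hTm y).1) (by rw [hTp, h]) y)),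
    Finset.sum_congr rfl (fun y _ => hterm (1 - T y) (1 - p) (fun h => hsumz (fun y => 1 - T y) (fun y => by linarith [(hTm y).2]) (by rw [hsum1, h]) y)),
    ← Finset.sum_add_distrib]
  have e3 : ∀ y, (1 / 2 ^ n) * ((T y * log (T y) - T y * log p) / log 2) +
      (1 / 2 ^ n) * (((1 - T y) * log (1 - T y) - (1 - T y) * log (1 - p)) / log 2) =
      (1 / log 2) * (- (binEntropy (T y) / 2 ^ n) - (T y / 2 ^ n) * log p - ((1 - T y) / 2 ^ n) * log (1 - p)) := by
    intro y
    rw [binEntropy_eq']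
    field_simp
    ring
  rw [Finset.sum_congr rfl (fun y _ => e3 y), ← Finset.mul_sum, Finset.sum_sub_distrib,
    Finset.sum_sub_distrib, ← Finset.sum_mul, ← Finset.sum_mul, Finset.sum_neg_distrib,
    ← Finset.sum_div, ← Finset.sum_div, ← Finset.sum_div, hTp, hsum1, h2_eq]
  have e4 : -((∑ y, binEntropy (T y)) / 2 ^ n) - p * log p - (1 - p) * log (1 - p) ≤ log 2 - binEntropy ε := by
    have := binEntropy_eq' p
    linarith
  calc 1 / log 2 * (-((∑ y, binEntropy (T y)) / 2 ^ n) - p * log p - (1 - p) * log (1 - p))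
      ≤ 1 / log 2 * (log 2 - binEntropy ε) := mul_le_mul_of_nonneg_left e4 (by positivity)
    _ = 1 - binEntropy ε / log 2 := by field_simp

/-- `log 2 - h(p) ≥ (1-2p)^2/2`. -/
lemma pinsker {p : ℝ} (h0 : 0 ≤ p) (h1 : p ≤ 1) : (1 - 2 * p) ^ 2 / 2 ≤ log 2 - binEntropy p := by
  -- function F(p) = log 2 - h p - (1-2p)^2/2 on [0,1/2], F' = -(log(1-p) - log p) + 2(1-2p) ≤ 0
  have main : ∀ p : ℝ, 0 ≤ p → p ≤ 1 / 2 → (1 - 2 * p) ^ 2 / 2 ≤ log 2 - binEntropy p := by
    intro p h0 h1
    have hanti : AntitoneOn (fun p : ℝ => log 2 - binEntropy p - (1 - 2 * p) ^ 2 / 2) (Icc 0 (1 / 2)) := by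
      apply antitoneOn_of_deriv_nonpos (convex_Icc _ _)
      · have := binEntropy_continuous
        fun_prop
      · intro x hx
        rw [interior_Icc] at hx
        have hb := (hasDerivAt_binEntropy' hx.1 (by linarith [hx.2])).differentiableAt
        apply DifferentiableAt.differentiableWithinAt
        fun_prop
      · intro x hx
        rw [interior_Icc] at hx
        have hb := hasDerivAt_binEntropy' hx.1 (by linarith [hx.2] : x < 1)
        have hp : HasDerivAt (fun p : ℝ => (1 - 2 * p) ^ 2 / 2) (-2 * (1 - 2 * x)) x := by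
          have i1 : HasDerivAt (fun p : ℝ => 1 - 2 * p) (-2) x := by
            simpa using ((hasDerivAt_id x).const_mul (2 : ℝ)).const_sub 1
          have := (i1.pow 2).div_const 2
          refine this.congr_deriv ?_
          simp; ring
        have hd : HasDerivAt (fun p : ℝ => log 2 - binEntropy p - (1 - 2 * p) ^ 2 / 2)
          (-dh x - -2 * (1 - 2 * x)) x := (hb.const_sub (log 2)).sub hp
        rw [hd.deriv]
        -- log((1-x)/x) ≥ 2(1-2x)
        have h5 : 2 * (1 - 2 * x) ≤ dh x := by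
          unfold dh
          have hx1 : 0 < 1 - x := by linarith [hx.2]
          have hy : (1 - 2 * x) < 1 := by linarith [hx.1]
          have hy0 : 0 ≤ 1 - 2 * x := by linarith [hx.2]
          have h6 := Real.hasSum_log_sub_log_of_abs_lt_one (x := 1 - 2 * x) (by rw [abs_of_nonneg hy0]; exact hy)
          have h7 := sum_le_hasSum (Finset.range 1) (fun i _ => by positivity) h6
          simp at h7
          have e1 : (1 : ℝ) + (1 - 2 * x) = 2 * (1 - x) := by ring
          have e2 : (1 : ℝ) - (1 - 2 * x) = 2 * x := by ring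
          rw [e1, Real.log_mul (by norm_num) hx1.ne', Real.log_mul (by norm_num) hx.1.ne'] at h7
          linarith
        linarith
    have := hanti ⟨h0, h1⟩ (right_mem_Icc.mpr (by norm_num)) h1
    simp only at this
    have hh : binEntropy (1 / 2 : ℝ) = log 2 := by
      rw [one_div]; exact binEntropy_two_inv
    rw [hh] at this
    norm_num at this
    linarith
  rcases le_total p (1 / 2) with h | h
  · exact main p h0 h
  · have := main (1 - p) (by linarith) (by linarith)
    rw [binEntropy_one_sub] at this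
    have e : (1 - 2 * (1 - p)) ^ 2 = (1 - 2 * p) ^ 2 := by ring
    rw [e] at this
    exact this

/-- `psi` dominates the Courtade-Kumar bound. -/
lemma psi_ge {ρ p : ℝ} (hρ0 : 0 ≤ ρ) (hρ1 : ρ ≤ 1) (h0 : 0 ≤ p) (h1 : p ≤ 1) :
    binEntropy p - log 2 + binEntropy ((1 - ρ) / 2) ≤ psi ρ p := by
  unfold psi
  have hp := pinsker h0 h1
  have hρ := pinsker (p := (1 - ρ) / 2) (by linarith) (by linarith)
  have e : (1 - 2 * ((1 - ρ) / 2)) = ρ := by ring
  rw [e] at hρ
  have hlog2 : log 2 < 1 := by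
    have := Real.log_two_lt_d9
    linarith
  set H := binEntropy ((1 - ρ) / 2)
  set hp' := binEntropy p
  have hb : H - (1 - ρ ^ 2) * log 2 ≤ ρ ^ 2 / 2 := by nlinarith [sq_nonneg ρ]
  -- (1-s)(log 2 - h) ≥ b (1-q)
  have hq : (1 - 2 * p) ^ 2 = 1 - 4 * p * (1 - p) := by ring
  have h2 : (H - (1 - ρ ^ 2) * log 2) * (1 - 2 * p) ^ 2 ≤ ρ ^ 2 * (log 2 - hp') := by
    have h3 := mul_le_mul_of_nonneg_right hb (sq_nonneg (1 - 2 * p))
    have h4 := mul_le_mul_of_nonneg_left hp (sq_nonneg ρ)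
    linarith
  rw [hq] at h2
  linarith

/-- **Conditional Courtade-Kumar theorem.** -/
theorem ck_of_KeyB (hB : ∀ ρ : ℝ, 0 < ρ → ρ < 1 → KeyB ρ) (n : ℕ) (f : (Fin n → ℤˣ) → ℤˣ)
    (ε : ℝ) (h0 : 0 ≤ ε) (h1 : ε ≤ 1 / 2) :
    mutualInfo (pXZ n ε) (fun ω => f ω.1) (fun ω => ω.1 * ω.2) ≤ 1 - h2 ε := by
  apply mi_le h0 (by linarith) f
  set g : (Fin n → ℤˣ) → ℝ := fun x => if f x = 1 then (1 : ℝ) else 0 with hg
  have h2n : (0 : ℝ) < 2 ^ n := by positivity
  have hgI : ∀ x, g x ∈ Icc (0 : ℝ) 1 := by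
    intro x; simp only [hg]; split_ifs <;> constructor <;> norm_num
  have hcard : ((Finset.univ : Finset (Fin n → ℤˣ)).card : ℝ) = 2 ^ n := by
    rw [Finset.card_univ, Fintype.card_fun, Fintype.card_units_int, Fintype.card_fin]
    push_cast; ring
  have hp0 : 0 ≤ (∑ x, g x) / 2 ^ n :=
    div_nonneg (Finset.sum_nonneg (fun x _ => (hgI x).1)) h2n.le
  have hp1 : (∑ x, g x) / 2 ^ n ≤ 1 := by
    rw [div_le_one h2n, ← hcard]
    calc ∑ x, g x ≤ ∑ x : Fin n → ℤˣ, (1 : ℝ) := Finset.sum_le_sum (fun x _ => (hgI x).2)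
      _ = _ := by simp
  rcases h0.eq_or_lt with h | h
  · -- ε = 0
    rw [← h]
    have a1 : binEntropy ((∑ x, g x) / 2 ^ n) ≤ log 2 := binEntropy_le_log_two
    have a2 : 0 ≤ (∑ y, binEntropy (TT 0 g y)) / 2 ^ n := by
      apply div_nonneg _ h2n.le
      apply Finset.sum_nonneg
      intro y _
      have := TT_mem le_rfl zero_le_one g hgI y
      exact binEntropy_nonneg this.1 this.2
    simp only [binEntropy_zero]
    linarith
  · rcases h1.eq_or_lt with h' | h'
    · -- ε = 1/2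
      rw [h']
      have a1 : ∀ y, TT (1 / 2) g y = (∑ x, g x) / 2 ^ n := by
        intro y
        unfold TT
        have : ∀ x : Fin n → ℤˣ, ker (1 / 2) x y = 1 / 2 ^ n := by
          intro x
          unfold ker
          have : ∀ i, (if x i = y i then 1 - (1 / 2 : ℝ) else 1 / 2) = 1 / 2 := by
            intro i; split_ifs <;> norm_num
          rw [Finset.prod_congr rfl (fun i _ => this i)]
          simp
        rw [Finset.sum_congr rfl (fun x _ => by rw [this x]), ← Finset.mul_sum]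
        ring
      have hh : binEntropy (1 / 2 : ℝ) = log 2 := by
        rw [one_div]; exact binEntropy_two_inv
      simp only [a1]
      rw [Finset.sum_const, nsmul_eq_mul, hcard, hh]
      apply le_of_eq
      field_simp
      ring
    · have hmain := main_ind h h' (hB (1 - 2 * ε) (by linarith) (by linarith)) n g (by
        intro x; simp only [hg]; split_ifs <;> simp)
      refine le_trans ?_ hmain
      have := psi_ge (ρ := 1 - 2 * ε) (by linarith) (by linarith) hp0 hp1
      have e : (1 - (1 - 2 * ε)) / 2 = ε := by ring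
      rw [e] at this
      exact this

end P322
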