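import Vale.Agent.Lib.P322.Closed

/-!
P322 (Courtade-Kumar): the function `kap x = log 2 - h((1-x)/2)` and its power series.
-/

namespace P322

open Real Set Filter Topology

/-- `kap x = log 2 - h((1-x)/2)`. -/
noncomputable def kap (x : ℝ) : ℝ := log 2 - binEntropy ((1 - x) / 2)

lemma mul_log_div (a : ℝ) {c : ℝ} (hc : c ≠ 0) : a * log (a / c) = a * log a - a * log c := by
  by_cases ha : a = 0
  · simp [ha]
  · rw [log_div ha hc]; ring

lemma kap_eq (x : ℝ) : kap x = ((1 + x) * log (1 + x) + (1 - x) * log (1 - x)) / 2 := by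
  unfold kap
  rw [binEntropy_eq']
  have e1 : 1 - (1 - x) / 2 = (1 + x) / 2 := by ring
  rw [e1]
  have h1 := mul_log_div (1 - x) (two_ne_zero (α := ℝ))
  have h2 := mul_log_div (1 + x) (two_ne_zero (α := ℝ))
  have h3 : (1 - x) / 2 * log ((1 - x) / 2) = ((1 - x) * log ((1 - x) / 2)) / 2 := by ring
  have h4 : (1 + x) / 2 * log ((1 + x) / 2) = ((1 + x) * log ((1 + x) / 2)) / 2 := by ring
  rw [h3, h4, h1, h2]
  ring

lemma kap_zero : kap 0 = 0 := by rw [kap_eq]; simp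

lemma kap_one : kap 1 = log 2 := by
  unfold kap; simp

lemma kap_neg (x : ℝ) : kap (-x) = kap x := by
  rw [kap_eq, kap_eq]
  have e1 : 1 + -x = 1 - x := by ring
  have e2 : 1 - -x = 1 + x := by ring
  rw [e1, e2]; ring

lemma continuous_kap : Continuous kap := by
  unfold kap
  have := binEntropy_continuous
  fun_prop

/-- the coefficients of `kap`. -/
noncomputable def mu (k : ℕ) : ℝ := 1 / ((2 * (k : ℝ) + 2) * (2 * k + 1))

lemma mu_pos (k : ℕ) : 0 < mu k := by unfold mu; positivity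

/-- power series, with exponent `2 k + 2`, `k ≥ 0`. -/
lemma hasSum_kap {x : ℝ} (hx : |x| < 1) : HasSum (fun k : ℕ => mu k * x ^ (2 * k + 2)) (kap x) := by
  have h1 := Real.hasSum_log_sub_log_of_abs_lt_one hx
  have hx2 : |x ^ 2| < 1 := by
    rw [abs_pow]
    exact pow_lt_one₀ (abs_nonneg x) hx (by norm_num)
  have h2 := Real.hasSum_pow_div_log_of_abs_lt_one hx2
  have h3 := ((h1.mul_left x).sub h2).mul_left (1 / 2)
  have hxl := abs_lt.mp hx
  have e : kap x = 1 / 2 * (x * (log (1 + x) - log (1 - x)) - -log (1 - x ^ 2)) := by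
    rw [kap_eq]
    have : 1 - x ^ 2 = (1 + x) * (1 - x) := by ring
    rw [this, log_mul (by linarith) (by linarith)]
    ring
  rw [e]
  refine h3.congr_fun ?_
  intro k
  unfold mu
  have : x ^ (2 * k + 2) = x * x ^ (2 * k + 1) := by ring
  have h4 : (x ^ 2) ^ (k + 1) = x * x ^ (2 * k + 1) := by ring
  rw [this, h4]
  have h5 : (2 * (k : ℝ) + 1) ≠ 0 := by positivity
  have h6 : ((k : ℝ) + 1) ≠ 0 := by positivity
  field_simp
  ring

/-- `kap x - x^2/2` is monotone: `kap w - kap v ≥ (w^2 - v^2)/2`. -/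
lemma kap_sub_ge {v w : ℝ} (h0 : 0 ≤ v) (hvw : v ≤ w) (hw : w ≤ 1) :
    (w ^ 2 - v ^ 2) / 2 ≤ kap w - kap v := by
  -- first for w < 1
  have main : ∀ v w : ℝ, 0 ≤ v → v ≤ w → w < 1 → (w ^ 2 - v ^ 2) / 2 ≤ kap w - kap v := by
    intro v w h0 hvw hw
    have s1 := hasSum_kap (x := w) (by rw [abs_of_nonneg (by linarith)]; exact hw)
    have s2 := hasSum_kap (x := v) (by rw [abs_of_nonneg h0]; linarith)
    have s3 := s1.sub s2
    have := sum_le_hasSum {0} (fun k _ => ?_) s3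
    · simp only [Finset.sum_singleton, mu] at this
      norm_num at this
      linarith
    · have : v ^ (2 * k + 2) ≤ w ^ (2 * k + 2) := pow_le_pow_left₀ h0 hvw _
      have h5 := mul_le_mul_of_nonneg_left this (mu_pos k).le
      linarith
  rcases hw.lt_or_eq with h | h
  · exact main v w h0 hvw h
  · subst h
    rcases hvw.lt_or_eq with h' | h'
    · have hcl : IsClosed {w : ℝ | (w ^ 2 - v ^ 2) / 2 ≤ kap w - kap v} := by
        apply isClosed_le
        · fun_prop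
        · exact continuous_kap.sub continuous_const
      have hsub : Ico v 1 ⊆ {w : ℝ | (w ^ 2 - v ^ 2) / 2 ≤ kap w - kap v} := fun w hw =>
        main v w h0 hw.1 hw.2
      have := closure_minimal hsub hcl
      rw [closure_Ico h'.ne] at this
      exact this (right_mem_Icc.mpr h'.le)
    · rw [h']; simp

/-- `kap (ρ x) ≤ ρ^2 kap x`. -/
lemma kap_mul_le {ρ x : ℝ} (hρ0 : 0 ≤ ρ) (hρ1 : ρ ≤ 1) (h0 : 0 ≤ x) (hx : x ≤ 1) :
    kap (ρ * x) ≤ ρ ^ 2 * kap x := by
  have main : ∀ x : ℝ, 0 ≤ x → x < 1 → kap (ρ * x) ≤ ρ ^ 2 * kap x := by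
    intro x h0 hx
    have s1 := hasSum_kap (x := ρ * x) (by rw [abs_of_nonneg (by positivity)]; nlinarith)
    have s2 := (hasSum_kap (x := x) (by rw [abs_of_nonneg h0]; linarith)).mul_left (ρ ^ 2)
    refine hasSum_le (fun k => ?_) s1 s2
    have h1 : ρ ^ (2 * k + 2) ≤ ρ ^ 2 := pow_le_pow_of_le_one hρ0 hρ1 (by omega)
    rw [mul_pow]
    have h3 : 0 ≤ mu k * x ^ (2 * k + 2) := mul_nonneg (mu_pos k).le (by positivity)
    have h4 := mul_le_mul_of_nonneg_right h1 h3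
    linarith
  rcases hx.lt_or_eq with h | h
  · exact main x h0 h
  · subst h
    have hcl : IsClosed {x : ℝ | kap (ρ * x) ≤ ρ ^ 2 * kap x} := by
      apply isClosed_le
      · exact continuous_kap.comp (continuous_const.mul continuous_id)
      · exact continuous_const.mul continuous_kap
    have hsub : Ico (0 : ℝ) 1 ⊆ {x : ℝ | kap (ρ * x) ≤ ρ ^ 2 * kap x} := fun x hx =>
      main x hx.1 hx.2
    have := closure_minimal hsub hcl
    rw [closure_Ico (by norm_num)] at this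
    exact this (right_mem_Icc.mpr zero_le_one)

/-- `kap x ≤ x^2 log 2`. -/
lemma kap_le {x : ℝ} (h0 : 0 ≤ x) (hx : x ≤ 1) : kap x ≤ x ^ 2 * log 2 := by
  have := kap_mul_le h0 hx zero_le_one le_rfl
  rwa [mul_one, kap_one] at this

lemma kap_ge {x : ℝ} (h0 : 0 ≤ x) (hx : x ≤ 1) : x ^ 2 / 2 ≤ kap x := by
  have := kap_sub_ge le_rfl h0 hx
  rw [kap_zero] at this
  linarith

lemma kap_nonneg {x : ℝ} (h0 : 0 ≤ x) (hx : x ≤ 1) : 0 ≤ kap x :=
  le_trans (by positivity) (kap_ge h0 hx)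

lemma kap_mono {v w : ℝ} (h0 : 0 ≤ v) (hvw : v ≤ w) (hw : w ≤ 1) : kap v ≤ kap w := by
  have := kap_sub_ge h0 hvw hw
  nlinarith

/-- `h(m) - k_r(m,e) = m kap(r e/m) + (1-m) kap(r e/(1-m))`. -/
lemma K_eq {m e : ℝ} (hm : 0 < m) (hm1 : m < 1) (r : ℝ) :
    binEntropy m - kk r m e = m * kap (r * e / m) + (1 - m) * kap (r * e / (1 - m)) := by
  have hn : 0 < 1 - m := by linarith
  unfold kk
  rw [kap_eq, kap_eq, binEntropy_eq', binEntropy_eq', binEntropy_eq']
  have a1 : 1 + r * e / m = (m + r * e) / m := by field_simp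
  have a2 : 1 - r * e / m = (m - r * e) / m := by field_simp
  have a3 : 1 + r * e / (1 - m) = (1 - (m - r * e)) / (1 - m) := by field_simp; ring
  have a4 : 1 - r * e / (1 - m) = (1 - (m + r * e)) / (1 - m) := by field_simp; ring
  rw [a1, a2, a3, a4]
  have h1 := mul_log_div (m + r * e) hm.ne'
  have h2 := mul_log_div (m - r * e) hm.ne'
  have h3 := mul_log_div (1 - (m - r * e)) hn.ne'
  have h4 := mul_log_div (1 - (m + r * e)) hn.ne'
  have b1 : m * (((m + r * e) / m * log ((m + r * e) / m) + (m - r * e) / m * log ((m - r * e) / m)) / 2) =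
    ((m + r * e) * log ((m + r * e) / m) + (m - r * e) * log ((m - r * e) / m)) / 2 := by
    field_simp
  have b2 : (1 - m) * (((1 - (m - r * e)) / (1 - m) * log ((1 - (m - r * e)) / (1 - m)) +
      (1 - (m + r * e)) / (1 - m) * log ((1 - (m + r * e)) / (1 - m))) / 2) =
    ((1 - (m - r * e)) * log ((1 - (m - r * e)) / (1 - m)) + (1 - (m + r * e)) * log ((1 - (m + r * e)) / (1 - m))) / 2 := by
    field_simp
  rw [b1, b2, h1, h2, h3, h4]
  ring

/-- `K_1 ≤ log 2 * e^2 / (m (1-m))`. -/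
lemma K1_le {m e : ℝ} (he : 0 ≤ e) (hem : e ≤ m) (hm0 : 0 < m) (hm : m ≤ 1 / 2) :
    binEntropy m - kk 1 m e ≤ log 2 * (e ^ 2 / m + e ^ 2 / (1 - m)) := by
  have hn : 0 < 1 - m := by linarith
  rw [K_eq hm0 (by linarith)]
  have h1 : kap (1 * e / m) ≤ (1 * e / m) ^ 2 * log 2 :=
    kap_le (by positivity) (by rw [one_mul, div_le_one hm0]; exact hem)
  have h2 : kap (1 * e / (1 - m)) ≤ (1 * e / (1 - m)) ^ 2 * log 2 :=
    kap_le (by positivity) (by rw [one_mul, div_le_one hn]; linarith)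
  have h3 := mul_le_mul_of_nonneg_left h1 hm0.le
  have h4 := mul_le_mul_of_nonneg_left h2 hn.le
  have e1 : m * ((1 * e / m) ^ 2 * log 2) = log 2 * (e ^ 2 / m) := by field_simp
  have e2 : (1 - m) * ((1 * e / (1 - m)) ^ 2 * log 2) = log 2 * (e ^ 2 / (1 - m)) := by field_simp
  rw [e1] at h3
  rw [e2] at h4
  linarith

/-- `K_ρ ≤ ρ^2 K_1`. -/
lemma Krho_le {ρ m e : ℝ} (hρ0 : 0 ≤ ρ) (hρ1 : ρ ≤ 1) (he : 0 ≤ e) (hem : e ≤ m) (hm0 : 0 < m)
    (hm : m ≤ 1 / 2) :
    binEntropy m - kk ρ m e ≤ ρ ^ 2 * (binEntropy m - kk 1 m e) := by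
  have hn : 0 < 1 - m := by linarith
  rw [K_eq hm0 (by linarith), K_eq hm0 (by linarith)]
  have h1 : kap (ρ * (1 * e / m)) ≤ ρ ^ 2 * kap (1 * e / m) :=
    kap_mul_le hρ0 hρ1 (by positivity) (by rw [one_mul, div_le_one hm0]; exact hem)
  have h2 : kap (ρ * (1 * e / (1 - m))) ≤ ρ ^ 2 * kap (1 * e / (1 - m)) :=
    kap_mul_le hρ0 hρ1 (by positivity) (by rw [one_mul, div_le_one hn]; linarith)
  have e1 : ρ * e / m = ρ * (1 * e / m) := by ring
  have e2 : ρ * e / (1 - m) = ρ * (1 * e / (1 - m)) := by ring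
  rw [e1, e2]
  have h3 := mul_le_mul_of_nonneg_left h1 hm0.le
  have h4 := mul_le_mul_of_nonneg_left h2 hn.le
  linarith

/-- `s h` is closed for every `ρ`. -/
lemma closed_sh {ρ : ℝ} (hρ0 : 0 < ρ) (hρ1 : ρ < 1) :
    Closed ρ (fun p => (1 - ρ ^ 2) * binEntropy p) := by
  intro m e he hem hm hme
  have hm0 : 0 < m := by linarith
  refine (VGE_L hρ0 hρ1.le he hem hm hme).mono le_rfl ?_
  have hL1 : 0 < LL m e 1 := LL_pos he hem hm one_pos le_rfl (by linarith)
  have hLρ : 0 < LL m e ρ := LL_pos he hem hm hρ0 hρ1.le (by nlinarith)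
  have hK := Krho_le hρ0.le hρ1.le he.le hem hm0 hm
  have hmono : LL m e ρ ≤ LL m e 1 := by
    unfold LL
    have e1 : (1 - (m - ρ * e)) * (1 - (m + ρ * e)) = (1 - m) ^ 2 - ρ ^ 2 * e ^ 2 := by ring
    have e2 : (1 - (m - 1 * e)) * (1 - (m + 1 * e)) = (1 - m) ^ 2 - e ^ 2 := by ring
    have p1 : 0 < 1 - (m - ρ * e) := by nlinarith
    have p2 : 0 < 1 - (m + ρ * e) := by nlinarith
    have p3 : 0 < 1 - (m - 1 * e) := by nlinarith
    have p4 : 0 < 1 - (m + 1 * e) := by nlinarith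
    have l1 : log ((1 - m) ^ 2 - e ^ 2) ≤ log ((1 - m) ^ 2 - ρ ^ 2 * e ^ 2) := by
      apply Real.log_le_log
      · rw [← e2]; positivity
      · have : ρ ^ 2 ≤ 1 := by nlinarith
        nlinarith [sq_nonneg e]
    rw [← e1, ← e2, log_mul p1.ne' p2.ne', log_mul p3.ne' p4.ne'] at l1
    linarith
  unfold Lval
  set c := LL m e ρ / LL m e 1 with hc
  have hc1 : c ≤ 1 := by rw [hc, div_le_one hL1]; exact hmono
  have hk : kk ρ m e = (binEntropy (m - ρ * e) + binEntropy (m + ρ * e)) / 2 := rfl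
  have hk1 : kk 1 m e = (binEntropy (m - e) + binEntropy (m + e)) / 2 := by unfold kk; simp
  rw [← hk]
  have hb : 0 ≤ kk 1 m e := by
    rw [hk1]
    have := binEntropy_nonneg (p := m - e) (by linarith) (by linarith)
    have := binEntropy_nonneg (p := m + e) (by linarith) (by linarith)
    linarith
  have e3 : (binEntropy (m - e) + binEntropy (m + e)) / 2 -
      ((1 - ρ ^ 2) * binEntropy (m - e) + (1 - ρ ^ 2) * binEntropy (m + e)) / 2 = ρ ^ 2 * kk 1 m e := by
    rw [hk1]; ring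
  rw [e3]
  have h5 : c * (ρ ^ 2 * kk 1 m e) ≤ 1 * (ρ ^ 2 * kk 1 m e) :=
    mul_le_mul_of_nonneg_right hc1 (by positivity)
  linarith

end P322
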