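import Vale.Agent.Lib.P322.TinyM

/-!
P322 (Courtade-Kumar): power series used by the chord lemma.
-/

namespace P322

open Real Set

lemma mu_zero_L : mu 0 = 1 / 2 := by unfold mu; norm_num

lemma hasSum_S {ρ : ℝ} (h0 : 0 < ρ) (h1 : ρ < 1) :
    HasSum (fun j : ℕ => mu j * (ρ ^ 2) ^ j) (kap ρ / ρ ^ 2) := by
  have h := (hasSum_kap (x := ρ) (by rw [abs_of_pos h0]; exact h1)).div_const (ρ ^ 2)
  have e : (fun j : ℕ => mu j * (ρ ^ 2) ^ j) = fun j : ℕ => mu j * ρ ^ (2 * j + 2) / ρ ^ 2 := by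
    funext j
    have : ρ ≠ 0 := h0.ne'
    rw [pow_add, ← pow_mul]
    field_simp
  rw [e]; exact h

/-- moments `M_j = m (e/m)^(2j+2) + (1-m) (e/(1-m))^(2j+2)`. -/
noncomputable def Mo (m e : ℝ) (j : ℕ) : ℝ :=
  m * (e / m) ^ (2 * j + 2) + (1 - m) * (e / (1 - m)) ^ (2 * j + 2)

lemma hasSum_KM {ρ m e : ℝ} (h0 : 0 < ρ) (h1 : ρ < 1) (hm0 : 0 < m) (hm1 : m < 1) (he0 : 0 ≤ e)
    (hem : e ≤ m) (hem' : e ≤ 1 - m) :
    HasSum (fun j : ℕ => mu j * (ρ ^ 2) ^ j * Mo m e j)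
      ((m * kap (ρ * e / m) + (1 - m) * kap (ρ * e / (1 - m))) / ρ ^ 2) := by
  have hn : 0 < 1 - m := by linarith
  have b1 : |ρ * e / m| < 1 := by
    rw [abs_of_nonneg (by positivity), div_lt_one hm0]
    nlinarith
  have b2 : |ρ * e / (1 - m)| < 1 := by
    rw [abs_of_nonneg (by positivity), div_lt_one hn]
    nlinarith
  have h := (((hasSum_kap b1).mul_left m).add ((hasSum_kap b2).mul_left (1 - m))).div_const (ρ ^ 2)
  have e : (fun j : ℕ => mu j * (ρ ^ 2) ^ j * Mo m e j) = fun j : ℕ =>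
      (m * (mu j * (ρ * e / m) ^ (2 * j + 2)) + (1 - m) * (mu j * (ρ * e / (1 - m)) ^ (2 * j + 2))) /
        ρ ^ 2 := by
    funext j
    unfold Mo
    have a1 : ρ * e / m = ρ * (e / m) := by ring
    have a2 : ρ * e / (1 - m) = ρ * (e / (1 - m)) := by ring
    have a3 : (ρ ^ 2) ^ j = ρ ^ (2 * j + 2) / ρ ^ 2 := by
      rw [pow_add, ← pow_mul]
      field_simp
    rw [a1, a2, mul_pow, mul_pow, a3]
    ring
  rw [e]; exact h

lemma Mo_ge {m e : ℝ} (hm0 : 0 < m) (hm1 : m < 1) (he0 : 0 ≤ e) (j : ℕ) :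
    (2 * e) ^ (2 * j + 2) ≤ Mo m e j := by
  have hn : 0 < 1 - m := by linarith
  have hc : ConvexOn ℝ (Ici (0 : ℝ)) fun x : ℝ => x ^ (2 * j + 2) := convexOn_pow _
  have h := hc.2 (x := e / m) (y := e / (1 - m)) (by simp only [mem_Ici]; positivity)
    (by simp only [mem_Ici]; positivity) hm0.le hn.le (by ring)
  simp only [smul_eq_mul] at h
  have e1 : m * (e / m) + (1 - m) * (e / (1 - m)) = 2 * e := by
    field_simp; ring
  rw [e1] at h
  exact h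

lemma Mo_zero {m e : ℝ} (hm0 : 0 < m) (hm1 : m < 1) : Mo m e 0 = e ^ 2 / (m * (1 - m)) := by
  have hn : (1 - m) ≠ 0 := by linarith
  have hm : m ≠ 0 := hm0.ne'
  unfold Mo
  have e1 : 2 * 0 + 2 = 2 := rfl
  rw [e1, div_pow, div_pow]
  field_simp
  ring

end P322
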