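import Vale.Agent.Lib.P322.LChord

/-!
P322 (Courtade-Kumar): the normalized box criterion (leaf type A) for (L).
-/

namespace P322

open Real Set

lemma phi_symm (B p : ℝ) : phi B (1 - p) = phi B p := by
  unfold phi
  rw [binEntropy_one_sub]; ring

lemma dh_ge {z : ℝ} (h0 : 0 < z) (h1 : z ≤ 1 / 2) : 2 * (1 - 2 * z) ≤ dh z := by
  unfold dh
  rw [← log_div (by linarith) h0.ne']
  have hx : 0 ≤ (1 - 2 * z) / z := div_nonneg (by linarith) h0.le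
  have h := Real.le_log_one_add_of_nonneg hx
  have e1 : 1 + (1 - 2 * z) / z = (1 - z) / z := by field_simp; ring
  have e2 : 2 * ((1 - 2 * z) / z) / ((1 - 2 * z) / z + 2) = 2 * (1 - 2 * z) := by
    have : (1 - 2 * z) / z + 2 = 1 / z := by field_simp; ring
    rw [this]; field_simp
  rw [e1, e2] at h
  exact h

lemma phi_mono {B p p' : ℝ} (hB : B ≤ 1 / 2) (hp : 0 ≤ p) (hpp : p ≤ p') (hp' : p' ≤ 1 / 2) :
    phi B p ≤ phi B p' := by
  have hder : ∀ z ∈ Ioo p p', HasDerivAt (phi B) (dh z - B * (4 * (1 - 2 * z))) z := by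
    intro z hz
    have hz0 : 0 < z := lt_of_le_of_lt hp hz.1
    have hz1 : z < 1 := by linarith [hz.2]
    have d1 := hasDerivAt_binEntropy' hz0 hz1
    have d2 : HasDerivAt (fun z : ℝ => B * (4 * z * (1 - z))) (B * (4 * (1 - 2 * z))) z := by
      have h1 : HasDerivAt (fun z : ℝ => 4 * z * (1 - z)) (4 * 1 * (1 - z) + 4 * z * (0 - 1)) z :=
        ((hasDerivAt_id z).const_mul 4).mul ((hasDerivAt_const z 1).sub (hasDerivAt_id z))
      exact (h1.const_mul B).congr_deriv (by ring)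
    exact d1.sub d2
  have hcont : ContinuousOn (phi B) (Icc p p') := by
    unfold phi
    have := binEntropy_continuous
    fun_prop
  have hmono : MonotoneOn (phi B) (Icc p p') := by
    apply monotoneOn_of_deriv_nonneg (convex_Icc _ _) hcont
    · intro z hz
      rw [interior_Icc] at hz
      exact (hder z hz).differentiableAt.differentiableWithinAt
    · intro z hz
      rw [interior_Icc] at hz
      rw [(hder z hz).deriv]
      have := dh_ge (z := z) (lt_of_le_of_lt hp hz.1) (by linarith [hz.2])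
      nlinarith [hz.2]
  exact hmono (left_mem_Icc.mpr hpp) (right_mem_Icc.mpr hpp) hpp

lemma phi_ge_of_mem {B w p : ℝ} (hB : B ≤ 1 / 2) (h0 : 0 ≤ w) (h1 : w ≤ p) (h2 : p ≤ 1 - w) :
    phi B w ≤ phi B p := by
  rcases le_total p (1 / 2) with h | h
  · exact phi_mono hB h0 h1 h
  · rw [← phi_symm B p]
    exact phi_mono hB h0 (by linarith) (by linarith)

lemma phi_nonneg {B p : ℝ} (hB : B ≤ 1 / 2) (h0 : 0 ≤ p) (h1 : p ≤ 1) : 0 ≤ phi B p := by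
  have := phi_ge_of_mem (w := 0) hB le_rfl h0 (by linarith)
  refine le_trans (le_of_eq ?_) this
  unfold phi; simp

lemma phi_avg_eq (B m e : ℝ) : (phi B (m - e) + phi B (m + e)) / 2 =
    hb m e - B * (4 * m * (1 - m) - 4 * e ^ 2) := by
  unfold phi hb; ring

/-- bound for `1 - LL ρ / LL 1`. -/
lemma one_sub_c_gen {ρ m e : ℝ} (hρ0 : 0 ≤ ρ) (hρ1 : ρ < 1) (he : 0 < e) (hem : e ≤ m)
    (hm : m ≤ 1 / 2) (hme : m + e < 1) :
    2 * ((1 - ρ ^ 2) * e ^ 2) ≤ (1 - LL m e ρ / LL m e 1) *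
      ((2 * ((1 - m) ^ 2 - e ^ 2) + (1 - ρ ^ 2) * e ^ 2) * LL m e 1) := by
  have hm0 : 0 < m := by linarith
  have hs : 0 < 1 - ρ ^ 2 := by nlinarith
  have hL1 : 0 < LL m e 1 := LL_pos he hem (by linarith) one_pos le_rfl (by linarith)
  have h11 : (1 : ℝ) * e < 1 - m := by linarith
  have h1r : ρ * e < 1 - m := by nlinarith
  have hLL1 : LL m e 1 = - log ((1 - m) ^ 2 - e ^ 2) := by
    rw [LL_eq (by linarith) h11]; congr 2; ring
  have hLLr := LL_eq (m := m) (e := e) (ρ := ρ) (by positivity) h1r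
  set z1 : ℝ := (1 - m) ^ 2 - e ^ 2 with hz1
  have hz1pos : 0 < z1 := by rw [hz1]; nlinarith
  have hzr : (1 - m) ^ 2 - ρ ^ 2 * e ^ 2 = z1 + (1 - ρ ^ 2) * e ^ 2 := by rw [hz1]; ring
  rw [hzr] at hLLr
  set t : ℝ := (1 - ρ ^ 2) * e ^ 2 / z1 with ht
  have ht0 : 0 < t := by positivity
  have hlog : log (z1 + (1 - ρ ^ 2) * e ^ 2) - log z1 = log (1 + t) := by
    rw [← log_div (by positivity) hz1pos.ne', ht]
    congr 1
    field_simp
  have hlt : 2 * t / (t + 2) ≤ log (1 + t) := Real.le_log_one_add_of_nonneg ht0.le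
  have h1c : (1 - LL m e ρ / LL m e 1) * LL m e 1 = log (1 + t) := by
    rw [sub_mul, div_mul_cancel₀ _ hL1.ne', hLL1, hLLr, ← hlog]; ring
  rw [div_le_iff₀ (by linarith)] at hlt
  have h7 : t * z1 = (1 - ρ ^ 2) * e ^ 2 := by rw [ht]; field_simp
  have h8 := mul_le_mul_of_nonneg_right hlt hz1pos.le
  calc 2 * ((1 - ρ ^ 2) * e ^ 2) = 2 * t * z1 := by rw [← h7]; ring
    _ ≤ log (1 + t) * (t + 2) * z1 := h8
    _ = (1 - LL m e ρ / LL m e 1) * LL m e 1 * (2 * z1 + t * z1) := by rw [h1c]; ring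
    _ = _ := by rw [h7]; ring

/-- partial sums, with the closed endpoint. -/
lemma kap_T_ge {ρ X : ℝ} (h0 : 0 < ρ) (h1 : ρ < 1) (hX0 : 0 ≤ X) (hX1 : X ≤ 1) (J : ℕ) :
    ∑ j ∈ Finset.range J, mu j * (1 - ρ ^ (2 * j)) * X ^ (2 * j + 2) ≤
      kap X - kap (ρ * X) / ρ ^ 2 := by
  have main : ∀ X : ℝ, 0 ≤ X → X < 1 →
      ∑ j ∈ Finset.range J, mu j * (1 - ρ ^ (2 * j)) * X ^ (2 * j + 2) ≤
      kap X - kap (ρ * X) / ρ ^ 2 := by
    intro X hX0 hX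
    have s1 := hasSum_kap (x := X) (by rw [abs_of_nonneg hX0]; exact hX)
    have s2 := (hasSum_kap (x := ρ * X) (by rw [abs_of_nonneg (by positivity)]; nlinarith)).div_const (ρ ^ 2)
    have s3 := s1.sub s2
    have e : (fun j : ℕ => mu j * X ^ (2 * j + 2) - mu j * (ρ * X) ^ (2 * j + 2) / ρ ^ 2) =
        fun j : ℕ => mu j * (1 - ρ ^ (2 * j)) * X ^ (2 * j + 2) := by
      funext j
      rw [mul_pow, pow_add ρ]
      field_simp
    rw [e] at s3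
    apply sum_le_hasSum (Finset.range J) (fun j _ => ?_) s3
    have : ρ ^ (2 * j) ≤ 1 := pow_le_one₀ h0.le h1.le
    have := mu_pos j
    apply mul_nonneg (mul_nonneg this.le (by linarith)) (by positivity)
  rcases hX1.lt_or_eq with h | h
  · exact main X hX0 h
  · subst h
    have hcl : IsClosed {X : ℝ | ∑ j ∈ Finset.range J, mu j * (1 - ρ ^ (2 * j)) * X ^ (2 * j + 2) ≤
        kap X - kap (ρ * X) / ρ ^ 2} := by
      apply isClosed_le
      · fun_prop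
      · exact continuous_kap.sub ((continuous_kap.comp (continuous_const.mul continuous_id)).div_const _)
    have hsub : Ico (0 : ℝ) 1 ⊆ {X : ℝ | ∑ j ∈ Finset.range J, mu j * (1 - ρ ^ (2 * j)) * X ^ (2 * j + 2) ≤
        kap X - kap (ρ * X) / ρ ^ 2} := fun x hx => main x hx.1 hx.2
    have := closure_minimal hsub hcl
    rw [closure_Ico (by norm_num)] at this
    exact this (right_mem_Icc.mpr zero_le_one)

lemma kap_ge_sum {X : ℝ} (hX0 : 0 ≤ X) (hX1 : X ≤ 1) (J : ℕ) :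
    ∑ j ∈ Finset.range J, mu j * X ^ (2 * j + 2) ≤ kap X := by
  have main : ∀ X : ℝ, 0 ≤ X → X < 1 → ∑ j ∈ Finset.range J, mu j * X ^ (2 * j + 2) ≤ kap X := by
    intro X hX0 hX
    have s1 := hasSum_kap (x := X) (by rw [abs_of_nonneg hX0]; exact hX)
    apply sum_le_hasSum (Finset.range J) (fun j _ => ?_) s1
    have := mu_pos j
    positivity
  rcases hX1.lt_or_eq with h | h
  · exact main X hX0 h
  · subst h
    have hcl : IsClosed {X : ℝ | ∑ j ∈ Finset.range J, mu j * X ^ (2 * j + 2) ≤ kap X} := by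
      apply isClosed_le
      · fun_prop
      · exact continuous_kap
    have hsub : Ico (0 : ℝ) 1 ⊆ {X : ℝ | ∑ j ∈ Finset.range J, mu j * X ^ (2 * j + 2) ≤ kap X} :=
      fun x hx => main x hx.1 hx.2
    have := closure_minimal hsub hcl
    rw [closure_Ico (by norm_num)] at this
    exact this (right_mem_Icc.mpr zero_le_one)

lemma Mo_lower {m e M N E : ℝ} (hm0 : 0 < m) (hm1 : m < 1) (he : 0 < e) (hE0 : 0 ≤ E)
    (hE : E ≤ 2 * e) (hM : 2 * m ≤ M) (hN : 2 * (1 - m) ≤ N) (j : ℕ) :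
    e ^ 2 * (2 * (((E / M) ^ 2) ^ j / M + ((E / N) ^ 2) ^ j / N)) ≤ Mo m e j := by
  have hn : 0 < 1 - m := by linarith
  have key : ∀ a A : ℝ, 0 < a → 2 * a ≤ A →
      e ^ 2 * (2 * (((E / A) ^ 2) ^ j / A)) ≤ a * (e / a) ^ (2 * j + 2) := by
    intro a A ha hA
    have hA0 : 0 < A := by linarith
    have e1 : a * (e / a) ^ (2 * j + 2) = e ^ 2 * (((e / a) ^ 2) ^ j / a) := by
      rw [pow_add, pow_mul]
      field_simp
    rw [e1]
    apply mul_le_mul_of_nonneg_left _ (sq_nonneg e)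
    have h1 : E / A ≤ e / a := by
      rw [div_le_div_iff₀ hA0 ha]
      calc E * a ≤ 2 * e * a := mul_le_mul_of_nonneg_right hE ha.le
        _ = e * (2 * a) := by ring
        _ ≤ e * A := mul_le_mul_of_nonneg_left hA he.le
    have h2 : ((E / A) ^ 2) ^ j ≤ ((e / a) ^ 2) ^ j :=
      pow_le_pow_left₀ (sq_nonneg _) (pow_le_pow_left₀ (by positivity) h1 2) j
    have h3 : 2 / A ≤ 1 / a := by
      rw [div_le_div_iff₀ hA0 ha]; linarith
    calc 2 * (((E / A) ^ 2) ^ j / A) = ((E / A) ^ 2) ^ j * (2 / A) := by ring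
      _ ≤ ((e / a) ^ 2) ^ j * (1 / a) := mul_le_mul h2 h3 (by positivity) (by positivity)
      _ = _ := by ring
  have k1 := key m M hm0 hM
  have k2 := key (1 - m) N hn hN
  unfold Mo
  calc e ^ 2 * (2 * (((E / M) ^ 2) ^ j / M + ((E / N) ^ 2) ^ j / N)) =
      e ^ 2 * (2 * (((E / M) ^ 2) ^ j / M)) + e ^ 2 * (2 * (((E / N) ^ 2) ^ j / N)) := by ring
    _ ≤ _ := add_le_add k1 k2

/-- arithmetic core of leaf A. -/
lemma leafA_arith {s e B4 F T Sg Wt W Ph C : ℝ} (he : 0 < e) (hWt : 0 < Wt) (hWle : Wt ≤ W)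
    (hPh0 : 0 ≤ Ph) (hPh : Ph / 2 ≤ F)
    (hC : 2 * (s * e ^ 2) ≤ C * Wt) (hT : e ^ 2 * Sg ≤ T) (hF : 0 ≤ F)
    (check : W * B4 ≤ s * Ph + W * Sg) (hs : 0 ≤ s) : B4 * e ^ 2 ≤ C * F + T := by
  have he2 : 0 < e ^ 2 := by positivity
  -- W_t (B4 - Sg) ≤ s Ph
  have h1 : Wt * (B4 - Sg) ≤ s * Ph := by
    rcases le_total 0 (B4 - Sg) with h | h
    · have := mul_le_mul_of_nonneg_right hWle h
      linarith
    · have h2 : Wt * (B4 - Sg) ≤ 0 := mul_nonpos_of_nonneg_of_nonpos hWt.le h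
      have h3 : 0 ≤ s * Ph := mul_nonneg hs hPh0
      linarith
  have h2 : 2 * (s * e ^ 2) * F ≤ C * Wt * F := mul_le_mul_of_nonneg_right hC hF
  have h3 : s * e ^ 2 * Ph ≤ C * Wt * F := by
    have : s * e ^ 2 * Ph ≤ s * e ^ 2 * (2 * F) :=
      mul_le_mul_of_nonneg_left (by linarith) (by positivity)
    linarith
  have h4 : e ^ 2 * (Wt * (B4 - Sg)) ≤ e ^ 2 * (s * Ph) := mul_le_mul_of_nonneg_left h1 he2.le
  have h5 : Wt * (B4 * e ^ 2) ≤ Wt * (C * F + e ^ 2 * Sg) := by linarith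
  have h6 := le_of_mul_le_mul_left h5 hWt
  linarith

/-- the sum bound with polynomial `c1 a + c2 a^2 + c3 a^3`. -/
noncomputable def Sg3 (c1 c2 c3 M N E : ℝ) : ℝ :=
  2 * ((E / M) ^ 2 * (c1 + (E / M) ^ 2 * (c2 + (E / M) ^ 2 * c3)) / M +
    (E / N) ^ 2 * (c1 + (E / N) ^ 2 * (c2 + (E / N) ^ 2 * c3)) / N)

lemma Sg3_le {m e M N E c1 c2 c3 : ℝ} (hm0 : 0 < m) (hm1 : m < 1) (he : 0 < e) (hE0 : 0 ≤ E)
    (hE : E ≤ 2 * e) (hM : 2 * m ≤ M) (hN : 2 * (1 - m) ≤ N) (h1 : 0 ≤ c1) (h2 : 0 ≤ c2)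
    (h3 : 0 ≤ c3) : e ^ 2 * Sg3 c1 c2 c3 M N E ≤ c1 * Mo m e 1 + c2 * Mo m e 2 + c3 * Mo m e 3 := by
  have k1 := mul_le_mul_of_nonneg_left (Mo_lower hm0 hm1 he hE0 hE hM hN 1) h1
  have k2 := mul_le_mul_of_nonneg_left (Mo_lower hm0 hm1 he hE0 hE hM hN 2) h2
  have k3 := mul_le_mul_of_nonneg_left (Mo_lower hm0 hm1 he hE0 hE hM hN 3) h3
  refine le_trans (le_of_eq ?_) (add_le_add (add_le_add k1 k2) k3)
  unfold Sg3
  ring

lemma LW_pos {ρ m e : ℝ} (hρ0 : 0 ≤ ρ) (hρ1 : ρ < 1) (he : 0 < e) (hem : e ≤ m)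
    (hm : m ≤ 1 / 2) (hme : m + e < 1) :
    0 < (2 * ((1 - m) ^ 2 - e ^ 2) + (1 - ρ ^ 2) * e ^ 2) * LL m e 1 := by
  have hs : 0 < 1 - ρ ^ 2 := by nlinarith
  have hL1 : 0 < LL m e 1 := LL_pos he hem hm one_pos le_rfl (by linarith)
  have hz1pos : 0 < (1 - m) ^ 2 - e ^ 2 := by nlinarith
  positivity

/-- **Leaf A for (L) at `ρ`.** -/
theorem leafA_L {ρ m e M N E Ph W : ℝ} (hρ0 : 0 < ρ) (hρ1 : ρ < 1) (he : 0 < e) (hem : e ≤ m)
    (hm : m ≤ 1 / 2) (hme : m + e < 1) (hE0 : 0 ≤ E) (hE : E ≤ 2 * e) (hM : 2 * m ≤ M)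
    (hN : 2 * (1 - m) ≤ N) (hPh0 : 0 ≤ Ph) (hPh : Ph ≤ phi (BB ρ) (m - e) + phi (BB ρ) (m + e))
    (hW : (2 * ((1 - m) ^ 2 - e ^ 2) + (1 - ρ ^ 2) * e ^ 2) * LL m e 1 ≤ W)
    (check : W * (4 * BB ρ) ≤ (1 - ρ ^ 2) * Ph + W * Sg3 (1 / 12 * (1 - ρ ^ 2))
      (1 / 30 * (1 - ρ ^ 4)) (1 / 56 * (1 - ρ ^ 6)) M N E) :
    psi ρ m ≤ Lval ρ m e ((psi ρ (m - e) + psi ρ (m + e)) / 2) := by
  have hm0 : 0 < m := by linarith
  have hm1 : m < 1 := by linarith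
  have hn : 0 < 1 - m := by linarith
  rw [gap_iff hρ0 he hem hme]
  have hB1 : BB ρ ≤ 1 / 2 := by
    have := BB_le hρ0 hρ1.le
    linarith [Real.log_two_lt_d9]
  have hρ2 : ρ ^ 2 ≤ 1 := pow_le_one₀ hρ0.le hρ1.le
  have hρ4 : ρ ^ 4 ≤ 1 := pow_le_one₀ hρ0.le hρ1.le
  have hρ6 : ρ ^ 6 ≤ 1 := pow_le_one₀ hρ0.le hρ1.le
  -- T
  have t1 := kap_T_ge hρ0 hρ1 (X := e / m) (by positivity) (by rw [div_le_one hm0]; exact hem) 4
  have t2 := kap_T_ge hρ0 hρ1 (X := e / (1 - m)) (by positivity)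
    (by rw [div_le_one hn]; linarith) 4
  have t1' := mul_le_mul_of_nonneg_left t1 hm0.le
  have t2' := mul_le_mul_of_nonneg_left t2 hn.le
  have hK := K_eq (e := e) hm0 hm1 1
  have hk1 : kk 1 m e = hb m e := by unfold kk hb; simp
  rw [one_mul, hk1] at hK
  have m1 : mu 1 = 1 / 12 := by unfold mu; norm_num
  have m2 : mu 2 = 1 / 30 := by unfold mu; norm_num
  have m3 : mu 3 = 1 / 56 := by unfold mu; norm_num
  have hsum : ∀ X : ℝ, ∑ j ∈ Finset.range 4, mu j * (1 - ρ ^ (2 * j)) * X ^ (2 * j + 2) =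
      1 / 12 * (1 - ρ ^ 2) * X ^ (2 * 1 + 2) + 1 / 30 * (1 - ρ ^ 4) * X ^ (2 * 2 + 2) +
      1 / 56 * (1 - ρ ^ 6) * X ^ (2 * 3 + 2) := by
    intro X
    simp only [Finset.sum_range_succ, Finset.sum_range_zero, m1, m2, m3]
    norm_num
  rw [hsum] at t1' t2'
  have hSg := Sg3_le (c1 := 1 / 12 * (1 - ρ ^ 2)) (c2 := 1 / 30 * (1 - ρ ^ 4))
    (c3 := 1 / 56 * (1 - ρ ^ 6)) hm0 hm1 he hE0 hE hM hN
    (mul_nonneg (by norm_num) (by linarith)) (mul_nonneg (by norm_num) (by linarith))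
    (mul_nonneg (by norm_num) (by linarith))
  have hT : e ^ 2 * Sg3 (1 / 12 * (1 - ρ ^ 2)) (1 / 30 * (1 - ρ ^ 4)) (1 / 56 * (1 - ρ ^ 6)) M N E ≤
      (binEntropy m - hb m e) -
        (m * kap (ρ * e / m) + (1 - m) * kap (ρ * e / (1 - m))) / ρ ^ 2 := by
    refine le_trans hSg ?_
    rw [hK]
    unfold Mo
    have a1 : ρ * (e / m) = ρ * e / m := by ring
    have a2 : ρ * (e / (1 - m)) = ρ * e / (1 - m) := by ring
    rw [a1] at t1'
    rw [a2] at t2'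
    refine le_trans (le_of_eq ?_) (le_trans (add_le_add t1' t2') (le_of_eq ?_))
    · ring
    · ring
  have hF := phi_avg_eq (BB ρ) m e
  have hFn : 0 ≤ (phi (BB ρ) (m - e) + phi (BB ρ) (m + e)) / 2 := by
    have := phi_nonneg hB1 (p := m - e) (by linarith) (by linarith)
    have := phi_nonneg hB1 (p := m + e) (by linarith) (by linarith)
    linarith
  have hfin := leafA_arith (F := (phi (BB ρ) (m - e) + phi (BB ρ) (m + e)) / 2) he
    (LW_pos hρ0.le hρ1 he hem hm hme) hW hPh0 (by linarith)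
    (one_sub_c_gen hρ0.le hρ1 he hem hm hme) hT hFn check (by linarith)
  rw [hF] at hfin
  have hBB : log 2 - kap ρ / ρ ^ 2 = BB ρ := rfl
  rw [hBB]
  linarith

/-- **Leaf A for the inequality at `ρ = 0`.** -/
theorem leafA_0 {ES ES1 m e M N E Ph W : ℝ} (he : 0 < e) (hem : e ≤ m)
    (hm : m ≤ 1 / 2) (hme : m + e < 1) (hE0 : 0 ≤ E) (hE : E ≤ 2 * e) (hM : 2 * m ≤ M)
    (hN : 2 * (1 - m) ≤ N) (hPh0 : 0 ≤ Ph) (hES1 : 0 ≤ ES1) (hESs : ES ≤ 1 / 4)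
    (hPh : Ph ≤ phi (log 2 - 1 / 2 + ES) (m - e) + phi (log 2 - 1 / 2 + ES) (m + e))
    (hW : (2 * ((1 - m) ^ 2 - e ^ 2) + e ^ 2) * LL m e 1 ≤ W)
    (check : W * (4 * (log 2 - 1 / 2) + 4 * ES1 * (1 - E ^ 2)) ≤
      Ph + W * Sg3 (1 / 12) (1 / 30) (1 / 56) M N E) :
    LL m e 0 / LL m e 1 * (hb m e - (log 2 - 1 / 2 + ES) * (4 * m * (1 - m) - 4 * e ^ 2)) ≤
      binEntropy m - 1 / 2 * (e ^ 2 / (m * (1 - m))) - (log 2 - 1 / 2) * (4 * m * (1 - m))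
        - ES * (4 * m * (1 - m) - 4 * e ^ 2) - ES1 * (4 * e ^ 2 * (1 - 4 * e ^ 2)) := by
  have hm0 : 0 < m := by linarith
  have hm1 : m < 1 := by linarith
  have hn : 0 < 1 - m := by linarith
  have hB1 : log 2 - 1 / 2 + ES ≤ 1 / 2 := by linarith [Real.log_two_lt_d9]
  have t1 := kap_ge_sum (X := e / m) (by positivity) (by rw [div_le_one hm0]; exact hem) 4
  have t2 := kap_ge_sum (X := e / (1 - m)) (by positivity) (by rw [div_le_one hn]; linarith) 4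
  have t1' := mul_le_mul_of_nonneg_left t1 hm0.le
  have t2' := mul_le_mul_of_nonneg_left t2 hn.le
  have hK := K_eq (e := e) hm0 hm1 1
  have hk1 : kk 1 m e = hb m e := by unfold kk hb; simp
  rw [one_mul, hk1] at hK
  have m1 : mu 1 = 1 / 12 := by unfold mu; norm_num
  have m2 : mu 2 = 1 / 30 := by unfold mu; norm_num
  have m3 : mu 3 = 1 / 56 := by unfold mu; norm_num
  have hsum : ∀ X : ℝ, ∑ j ∈ Finset.range 4, mu j * X ^ (2 * j + 2) =
      1 / 2 * X ^ (2 * 0 + 2) + 1 / 12 * X ^ (2 * 1 + 2) + 1 / 30 * X ^ (2 * 2 + 2) +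
      1 / 56 * X ^ (2 * 3 + 2) := by
    intro X
    simp only [Finset.sum_range_succ, Finset.sum_range_zero, mu_zero_L, m1, m2, m3]
    norm_num
  rw [hsum] at t1' t2'
  have hSg := Sg3_le (c1 := 1 / 12) (c2 := 1 / 30) (c3 := 1 / 56) hm0 hm1 he hE0 hE hM hN
    (by norm_num) (by norm_num) (by norm_num)
  have hM0 := Mo_zero hm0 hm1 (e := e)
  have hT : e ^ 2 * Sg3 (1 / 12) (1 / 30) (1 / 56) M N E ≤
      (binEntropy m - hb m e) - 1 / 2 * (e ^ 2 / (m * (1 - m))) := by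
    refine le_trans hSg ?_
    rw [hK, ← hM0]
    unfold Mo
    refine le_trans (le_of_eq ?_) (le_trans (sub_le_sub_right (add_le_add t1' t2')
      (1 / 2 * (m * (e / m) ^ (2 * 0 + 2) + (1 - m) * (e / (1 - m)) ^ (2 * 0 + 2)))) (le_of_eq rfl))
    ring
  have hF := phi_avg_eq (log 2 - 1 / 2 + ES) m e
  have hFn : 0 ≤ (phi (log 2 - 1 / 2 + ES) (m - e) + phi (log 2 - 1 / 2 + ES) (m + e)) / 2 := by
    have := phi_nonneg hB1 (p := m - e) (by linarith) (by linarith)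
    have := phi_nonneg hB1 (p := m + e) (by linarith) (by linarith)
    linarith
  have hW' : (2 * ((1 - m) ^ 2 - e ^ 2) + (1 - 0 ^ 2) * e ^ 2) * LL m e 1 ≤ W := by
    refine le_trans (le_of_eq ?_) hW
    ring
  have hfin := leafA_arith (s := 1) (F := (phi (log 2 - 1 / 2 + ES) (m - e) + phi (log 2 - 1 / 2 + ES) (m + e)) / 2) he
    (LW_pos (ρ := 0) le_rfl one_pos he hem hm hme) hW' hPh0 (by linarith)
    (le_trans (le_of_eq (by ring)) (one_sub_c_gen (ρ := 0) le_rfl one_pos he hem hm hme)) hT hFn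
    (by rw [one_mul]; exact check) zero_le_one
  rw [hF] at hfin
  have hE2 : E ^ 2 ≤ 4 * e ^ 2 := by nlinarith
  have h5 : ES1 * (4 * e ^ 2 * (1 - 4 * e ^ 2)) ≤ 4 * ES1 * (1 - E ^ 2) * e ^ 2 := by
    have h6 : 4 * e ^ 2 * (1 - 4 * e ^ 2) ≤ 4 * e ^ 2 * (1 - E ^ 2) :=
      mul_le_mul_of_nonneg_left (by linarith) (by positivity)
    have := mul_le_mul_of_nonneg_left h6 hES1
    linarith
  linarith

end P322
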