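import Vale.Agent.Lib.P322.LBoxD

/-!
P322 (Courtade-Kumar): the direct box criterion (leaf type B) for the inequality at `ρ = 0`.
-/

namespace P322

open Real Set

lemma binEntropy_mono_half {a b : ℝ} (ha : 0 ≤ a) (hab : a ≤ b) (hb : b ≤ 1 / 2) :
    binEntropy a ≤ binEntropy b := by
  have h := phi_mono (B := 0) (by norm_num) ha hab hb
  unfold phi at h
  linarith

lemma q_mono {a b : ℝ} (h1 : a ≤ b) (h2 : b ≤ 1 / 2) : a * (1 - a) ≤ b * (1 - b) := by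
  nlinarith

lemma leafB_rhs {ES ES1 m e xb yb ml D dm d E : ℝ} (he : 0 < e) (hem : e ≤ m)
    (hm : m ≤ 1 / 2) (hES0 : 0 ≤ ES) (hES1 : 0 ≤ ES1)
    (hxb : xb ≤ 1 / 2) (hyb : yb ≤ 1 / 2) (hx2 : m - e ≤ xb) (hy2 : 1 - m - e ≤ yb)
    (hml0 : 0 ≤ ml) (hml : ml ≤ m)
    (hD : 1 - 2 * m ≤ D) (hD1 : D ^ 2 < 1) (hdm0 : 0 ≤ dm) (hdm : dm ≤ 1 - 2 * m)
    (hd : 2 * e ≤ d) (hE0 : 0 ≤ E) (hE : E ≤ 2 * e) :
    binEntropy ml - (1 / 2 * (d ^ 2 / (1 - D ^ 2)) + (log 2 - 1 / 2) * (1 - dm ^ 2) +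
      ES * (2 * (xb * (1 - xb)) + 2 * (yb * (1 - yb))) + ES1 * (d ^ 2 * (1 - E ^ 2))) ≤
      binEntropy m - 1 / 2 * (e ^ 2 / (m * (1 - m))) - (log 2 - 1 / 2) * (4 * m * (1 - m))
        - ES * (4 * m * (1 - m) - 4 * e ^ 2) - ES1 * (4 * e ^ 2 * (1 - 4 * e ^ 2)) := by
  have hm0 : 0 < m := by linarith
  have hn : 0 < 1 - m := by linarith
  have hl2 : 0.6931471803 < log 2 := Real.log_two_gt_d9
  have q2 := q_mono hx2 hxb
  have q4 := q_mono hy2 hyb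
  have a1 := binEntropy_mono_half hml0 hml hm
  have hD2 : (1 - 2 * m) ^ 2 ≤ D ^ 2 := pow_le_pow_left₀ (by linarith) hD 2
  have hdm2 : dm ^ 2 ≤ (1 - 2 * m) ^ 2 := pow_le_pow_left₀ hdm0 hdm 2
  have hq : 4 * m * (1 - m) = 1 - (1 - 2 * m) ^ 2 := by ring
  have a2 : e ^ 2 / (m * (1 - m)) ≤ d ^ 2 / (1 - D ^ 2) := by
    have e1 : e ^ 2 / (m * (1 - m)) = (2 * e) ^ 2 / (4 * m * (1 - m)) := by
      field_simp
      ring
    rw [e1]
    exact div_le_div₀ (sq_nonneg d) (pow_le_pow_left₀ (by linarith) hd 2) (by linarith) (by linarith)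
  have a3 : (log 2 - 1 / 2) * (4 * m * (1 - m)) ≤ (log 2 - 1 / 2) * (1 - dm ^ 2) := by
    apply mul_le_mul_of_nonneg_left _ (by linarith)
    linarith
  have a4 : ES * (4 * m * (1 - m) - 4 * e ^ 2) ≤
      ES * (2 * (xb * (1 - xb)) + 2 * (yb * (1 - yb))) := by
    apply mul_le_mul_of_nonneg_left _ hES0
    linarith
  have a5 : ES1 * (4 * e ^ 2 * (1 - 4 * e ^ 2)) ≤ ES1 * (d ^ 2 * (1 - E ^ 2)) := by
    apply mul_le_mul_of_nonneg_left _ hES1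
    have hE2 : E ^ 2 ≤ (2 * e) ^ 2 := pow_le_pow_left₀ hE0 hE 2
    have hd2 : (2 * e) ^ 2 ≤ d ^ 2 := pow_le_pow_left₀ (by linarith) hd 2
    have h4e : (2 * e) ^ 2 ≤ 1 := pow_le_one₀ (by linarith) (by linarith)
    calc 4 * e ^ 2 * (1 - 4 * e ^ 2) ≤ 4 * e ^ 2 * (1 - E ^ 2) :=
          mul_le_mul_of_nonneg_left (by linarith) (by positivity)
      _ ≤ d ^ 2 * (1 - E ^ 2) := mul_le_mul_of_nonneg_right (by linarith) (by linarith)
  linarith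

lemma leafB_eta {m e xa yb nl N0 N1 C F A : ℝ} (he : 0 < e) (hem : e ≤ m)
    (hm : m ≤ 1 / 2) (hme : m + e < 1) (hx1 : xa ≤ m - e) (hy2 : 1 - m - e ≤ yb)
    (hnl0 : 0 < nl) (hnl : nl ≤ 1 - m)
    (hN0 : -(2 * log nl) ≤ N0) (hN1 : N1 ≤ -log ((1 - xa) * yb)) (hN1p : 0 < N1)
    (hF0 : 0 ≤ F) (hFC : F ≤ C) (check : N0 * C ≤ A * N1) :
    LL m e 0 / LL m e 1 * F ≤ A := by
  have hn : 0 < 1 - m := by linarith
  have hy0 : 0 < 1 - m - e := by linarith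
  have e0 : LL m e 0 = -(2 * log (1 - m)) := by unfold LL; simp; ring
  have hLL0 : LL m e 0 ≤ N0 := by
    rw [e0]
    have := Real.log_le_log hnl0 hnl
    linarith
  have hLL00 : 0 ≤ LL m e 0 := by
    rw [e0]
    have := Real.log_nonpos hn.le (by linarith)
    linarith
  have hLL1 : N1 ≤ LL m e 1 := by
    refine le_trans hN1 ?_
    have e1 : LL m e 1 = - log ((1 - (m - e)) * (1 - m - e)) := by
      unfold LL
      have : 1 - (m + 1 * e) = 1 - m - e := by ring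
      rw [this, log_mul (by linarith) hy0.ne', one_mul]
      ring
    rw [e1]
    have : log ((1 - (m - e)) * (1 - m - e)) ≤ log ((1 - xa) * yb) := by
      apply Real.log_le_log (mul_pos (by linarith) hy0)
      exact mul_le_mul (by linarith) hy2 hy0.le (by linarith)
    linarith
  have s1 : LL m e 0 / LL m e 1 ≤ N0 / N1 := div_le_div₀ (le_trans hLL00 hLL0) hLL0 hN1p hLL1
  have s2 : LL m e 0 / LL m e 1 * F ≤ N0 / N1 * C :=
    mul_le_mul s1 hFC hF0 (div_nonneg (le_trans hLL00 hLL0) hN1p.le)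
  refine le_trans s2 ?_
  rw [div_mul_eq_mul_div, div_le_iff₀ hN1p]
  exact check

/-- **Leaf B for the inequality at `ρ = 0`.** -/
theorem leafB_0 {ES ES1 m e xa xb ya yb ml nl D dm d E A C N0 N1 : ℝ} (he : 0 < e) (hem : e ≤ m)
    (hm : m ≤ 1 / 2) (hme : m + e < 1) (hES0 : 0 ≤ ES) (hESs : ES ≤ 1 / 4) (hES1 : 0 ≤ ES1)
    (hxb : xb ≤ 1 / 2) (hyb : yb ≤ 1 / 2)
    (hx1 : xa ≤ m - e) (hx2 : m - e ≤ xb) (hy1 : ya ≤ 1 - m - e) (hy2 : 1 - m - e ≤ yb)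
    (hml0 : 0 ≤ ml) (hml : ml ≤ m) (hnl0 : 0 < nl) (hnl : nl ≤ 1 - m)
    (hD : 1 - 2 * m ≤ D) (hD1 : D ^ 2 < 1) (hdm0 : 0 ≤ dm) (hdm : dm ≤ 1 - 2 * m)
    (hd : 2 * e ≤ d) (hE0 : 0 ≤ E) (hE : E ≤ 2 * e)
    (hN0 : -(2 * log nl) ≤ N0) (hN1 : N1 ≤ -log ((1 - xa) * yb)) (hN1p : 0 < N1)
    (hA : A ≤ binEntropy ml - (1 / 2 * (d ^ 2 / (1 - D ^ 2)) + (log 2 - 1 / 2) * (1 - dm ^ 2) +
      ES * (2 * (xb * (1 - xb)) + 2 * (yb * (1 - yb))) + ES1 * (d ^ 2 * (1 - E ^ 2))))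
    (hC : (binEntropy xb + binEntropy yb) / 2 -
      (log 2 - 1 / 2 + ES) * (2 * (xa * (1 - xa)) + 2 * (ya * (1 - ya))) ≤ C)
    (check : N0 * C ≤ A * N1) :
    LL m e 0 / LL m e 1 * (hb m e - (log 2 - 1 / 2 + ES) * (4 * m * (1 - m) - 4 * e ^ 2)) ≤
      binEntropy m - 1 / 2 * (e ^ 2 / (m * (1 - m))) - (log 2 - 1 / 2) * (4 * m * (1 - m))
        - ES * (4 * m * (1 - m) - 4 * e ^ 2) - ES1 * (4 * e ^ 2 * (1 - 4 * e ^ 2)) := by
  have hl2 : 0.6931471803 < log 2 := Real.log_two_gt_d9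
  have hl2' : log 2 < 0.6931471808 := Real.log_two_lt_d9
  have hB1 : log 2 - 1 / 2 + ES ≤ 1 / 2 := by linarith
  have hBh0 : 0 ≤ log 2 - 1 / 2 + ES := by linarith
  have q1 := q_mono hx1 (by linarith)
  have q3 := q_mono hy1 (by linarith)
  have hh : hb m e = (binEntropy (m - e) + binEntropy (1 - m - e)) / 2 := by
    unfold hb
    have : binEntropy (m + e) = binEntropy (1 - m - e) := by
      rw [← binEntropy_one_sub]; congr 1; ring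
    rw [this]
  have h1 := binEntropy_mono_half (a := m - e) (by linarith) hx2 hxb
  have h2 := binEntropy_mono_half (a := 1 - m - e) (by linarith) hy2 hyb
  have hCt : hb m e - (log 2 - 1 / 2 + ES) * (4 * m * (1 - m) - 4 * e ^ 2) ≤ C := by
    refine le_trans ?_ hC
    rw [hh]
    have := mul_le_mul_of_nonneg_left (add_le_add q1 q3) hBh0
    linarith
  have hCt0 : 0 ≤ hb m e - (log 2 - 1 / 2 + ES) * (4 * m * (1 - m) - 4 * e ^ 2) := by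
    rw [← phi_avg_eq]
    have := phi_nonneg hB1 (p := m - e) (by linarith) (by linarith)
    have := phi_nonneg hB1 (p := m + e) (by linarith) (by linarith)
    linarith
  refine le_trans (leafB_eta he hem hm hme hx1 hy2 hnl0 hnl hN0 hN1 hN1p hCt0 hCt check) ?_
  exact le_trans hA (leafB_rhs he hem hm hES0 hES1 hxb hyb hx2 hy2 hml0 hml hD hD1 hdm0 hdm hd hE0 hE)

end P322
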