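import Vale.Agent.Lib.P322.LBoxA

/-!
P322 (Courtade-Kumar): the four corner box criterion (leaf type D) for (L).
-/

namespace P322

open Real Set

/-- Gibbs bound of `phi`. -/
noncomputable def Gb (B p x : ℝ) : ℝ := x * (- log p) + (1 - x) * (- log (1 - p)) - B * (4 * x * (1 - x))

lemma phi_le_Gb {B p x : ℝ} (hp0 : 0 < p) (hp1 : p < 1) (hx0 : 0 ≤ x) (hx1 : x ≤ 1) :
    phi B x ≤ Gb B p x := by
  unfold phi Gb
  rw [binEntropy_eq']
  have key : ∀ a c : ℝ, 0 < a → 0 ≤ c → c - a ≤ c * log c - c * log a := by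
    intro a c ha hc
    rcases hc.eq_or_lt with h | h
    · rw [← h]; simp; exact ha.le
    · have h1 := Real.log_le_sub_one_of_pos (x := a / c) (by positivity)
      rw [log_div ha.ne' h.ne'] at h1
      have h2 := mul_le_mul_of_nonneg_left h1 h.le
      have h3 : c * (a / c - 1) = a - c := by field_simp
      rw [h3] at h2
      linarith
  have k1 := key p x hp0 hx0
  have k2 := key (1 - p) (1 - x) (by linarith) (by linarith)
  linarith

/-- one dimensional concavity step. -/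
lemma corner_step {g : ℝ → ℝ} {a b x : ℝ} (hax : a ≤ x) (hxb : x ≤ b)
    (hg : ∀ t : ℝ, 0 ≤ t → t ≤ 1 → (1 - t) * g a + t * g b ≤ g ((1 - t) * a + t * b))
    (ha : 0 ≤ g a) (hb : 0 ≤ g b) : 0 ≤ g x := by
  rcases hax.eq_or_lt with h | h
  · rw [← h]; exact ha
  · have hab : 0 < b - a := by linarith
    have h1 := hg ((x - a) / (b - a)) (div_nonneg (by linarith) hab.le)
      (by rw [div_le_one hab]; linarith)
    have e1 : (1 - (x - a) / (b - a)) * a + (x - a) / (b - a) * b = x := by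
      field_simp; ring
    rw [e1] at h1
    have t0 : 0 ≤ (x - a) / (b - a) := div_nonneg (by linarith) hab.le
    have t1 : (x - a) / (b - a) ≤ 1 := by rw [div_le_one hab]; linarith
    have := mul_nonneg (by linarith : 0 ≤ 1 - (x - a) / (b - a)) ha
    have := mul_nonneg t0 hb
    linarith

lemma binEntropy_conc {z z' t : ℝ} (hz0 : 0 ≤ z) (hz1 : z ≤ 1) (hz0' : 0 ≤ z') (hz1' : z' ≤ 1)
    (ht0 : 0 ≤ t) (ht1 : t ≤ 1) :
    (1 - t) * binEntropy z + t * binEntropy z' ≤ binEntropy ((1 - t) * z + t * z') := by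
  have h := strictConcave_binEntropy.concaveOn.2 (x := z) (y := z') ⟨hz0, hz1⟩ ⟨hz0', hz1'⟩
    (by linarith : 0 ≤ 1 - t) ht0 (by ring)
  simpa only [smul_eq_mul] using h

lemma Gb_convex {B p a b t : ℝ} (hB : 0 ≤ B) (ht0 : 0 ≤ t) (ht1 : t ≤ 1) :
    Gb B p ((1 - t) * a + t * b) ≤ (1 - t) * Gb B p a + t * Gb B p b := by
  unfold Gb
  have h : 0 ≤ B * (4 * (t * (1 - t) * (a - b) ^ 2)) := by
    have := mul_nonneg ht0 (by linarith : 0 ≤ 1 - t)
    positivity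
  linarith

/-- the four corner principle. -/
lemma four_corners {al ab B κ PU p p' xa xb ya yb x y : ℝ} (hal : 0 ≤ al) (hab : 0 ≤ ab)
    (hsum : al + ab = 1) (hB : 0 ≤ B) (hκ : 0 ≤ κ) (hxa : 0 ≤ xa) (hxb : xb ≤ 1)
    (hya : 0 ≤ ya) (hyb : yb ≤ 1) (hx1 : xa ≤ x) (hx2 : x ≤ xb) (hy1 : ya ≤ y) (hy2 : y ≤ yb)
    (c11 : PU + κ * (Gb B p xa + Gb B p' ya) ≤
      binEntropy (al + ab * xa - al * ya) + binEntropy (al + ab * ya - al * xa))
    (c12 : PU + κ * (Gb B p xa + Gb B p' yb) ≤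
      binEntropy (al + ab * xa - al * yb) + binEntropy (al + ab * yb - al * xa))
    (c21 : PU + κ * (Gb B p xb + Gb B p' ya) ≤
      binEntropy (al + ab * xb - al * ya) + binEntropy (al + ab * ya - al * xb))
    (c22 : PU + κ * (Gb B p xb + Gb B p' yb) ≤
      binEntropy (al + ab * xb - al * yb) + binEntropy (al + ab * yb - al * xb)) :
    PU + κ * (Gb B p x + Gb B p' y) ≤
      binEntropy (al + ab * x - al * y) + binEntropy (al + ab * y - al * x) := by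
  have hmem : ∀ s t : ℝ, 0 ≤ s → s ≤ 1 → 0 ≤ t → t ≤ 1 →
      0 ≤ al + ab * s - al * t ∧ al + ab * s - al * t ≤ 1 := by
    intro s t hs0 hs1 ht0 ht1
    constructor
    · nlinarith [mul_nonneg hab hs0]
    · nlinarith [mul_nonneg hal ht0]
  have hxa1 : xa ≤ 1 := by linarith
  have hxb0 : 0 ≤ xb := by linarith
  have hya1 : ya ≤ 1 := by linarith
  have hyb0 : 0 ≤ yb := by linarith
  set g : ℝ → ℝ → ℝ := fun x y => binEntropy (al + ab * x - al * y) +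
    binEntropy (al + ab * y - al * x) - (PU + κ * (Gb B p x + Gb B p' y)) with hg
  have stepx : ∀ y0 : ℝ, 0 ≤ y0 → y0 ≤ 1 → 0 ≤ g xa y0 → 0 ≤ g xb y0 → 0 ≤ g x y0 := by
    intro y0 h0 h1 ha hb
    refine corner_step (g := fun x => g x y0) hx1 hx2 ?_ ha hb
    intro t ht0 ht1
    simp only [hg]
    have m1 := hmem xa y0 hxa hxa1 h0 h1
    have m2 := hmem xb y0 hxb0 hxb h0 h1
    have m3 := hmem y0 xa h0 h1 hxa hxa1
    have m4 := hmem y0 xb h0 h1 hxb0 hxb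
    have i1 := binEntropy_conc m1.1 m1.2 m2.1 m2.2 ht0 ht1
    have i2 := binEntropy_conc m3.1 m3.2 m4.1 m4.2 ht0 ht1
    have e1 : (1 - t) * (al + ab * xa - al * y0) + t * (al + ab * xb - al * y0) =
      al + ab * ((1 - t) * xa + t * xb) - al * y0 := by ring
    have e2 : (1 - t) * (al + ab * y0 - al * xa) + t * (al + ab * y0 - al * xb) =
      al + ab * y0 - al * ((1 - t) * xa + t * xb) := by ring
    rw [e1] at i1
    rw [e2] at i2
    have i3 := mul_le_mul_of_nonneg_left (Gb_convex (p := p) (a := xa) (b := xb) hB ht0 ht1) hκ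
    linarith
  have stepy : 0 ≤ g x ya → 0 ≤ g x yb → 0 ≤ g x y := by
    intro ha hb
    have hx0' : 0 ≤ x := by linarith
    have hx1' : x ≤ 1 := by linarith
    refine corner_step (g := fun y => g x y) hy1 hy2 ?_ ha hb
    intro t ht0 ht1
    simp only [hg]
    have m1 := hmem x ya hx0' hx1' hya hya1
    have m2 := hmem x yb hx0' hx1' hyb0 hyb
    have m3 := hmem ya x hya hya1 hx0' hx1'
    have m4 := hmem yb x hyb0 hyb hx0' hx1'
    have i1 := binEntropy_conc m1.1 m1.2 m2.1 m2.2 ht0 ht1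
    have i2 := binEntropy_conc m3.1 m3.2 m4.1 m4.2 ht0 ht1
    have e1 : (1 - t) * (al + ab * x - al * ya) + t * (al + ab * x - al * yb) =
      al + ab * x - al * ((1 - t) * ya + t * yb) := by ring
    have e2 : (1 - t) * (al + ab * ya - al * x) + t * (al + ab * yb - al * x) =
      al + ab * ((1 - t) * ya + t * yb) - al * x := by ring
    rw [e1] at i1
    rw [e2] at i2
    have i3 := mul_le_mul_of_nonneg_left (Gb_convex (p := p') (a := ya) (b := yb) hB ht0 ht1) hκ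
    linarith
  have r1 := stepx ya hya hya1 (by simp only [hg]; linarith) (by simp only [hg]; linarith)
  have r2 := stepx yb hyb0 hyb (by simp only [hg]; linarith) (by simp only [hg]; linarith)
  have r3 := stepy r1 r2
  simp only [hg] at r3
  linarith

lemma psi_le_quad {ρ m d : ℝ} (hρ0 : 0 < ρ) (hρ1 : ρ < 1) (hm0 : 0 < m) (hm : m ≤ 1 / 2)
    (hd0 : 0 ≤ d) (hd : d ≤ 1 - 2 * m) :
    psi ρ m ≤ (1 - ρ ^ 2) * (log 2 - d ^ 2 / 2) + ρ ^ 2 * BB ρ * (1 - d ^ 2) := by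
  have hs : 0 ≤ 1 - ρ ^ 2 := by nlinarith
  have hB0 := BB_nonneg hρ0 hρ1.le
  have hd2 : d ^ 2 ≤ (1 - 2 * m) ^ 2 := by nlinarith
  have h1 : binEntropy m ≤ log 2 - d ^ 2 / 2 := by
    have h2 := kap_ge (x := 1 - 2 * m) (by linarith) (by linarith)
    have h3 : kap (1 - 2 * m) = log 2 - binEntropy m := by
      unfold kap
      congr 2; ring
    linarith
  unfold psi
  rw [b_eq hρ0]
  have h4 : 4 * m * (1 - m) ≤ 1 - d ^ 2 := by nlinarith
  have h5 := mul_le_mul_of_nonneg_left h1 hs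
  have h6 := mul_le_mul_of_nonneg_left h4 (by positivity : 0 ≤ ρ ^ 2 * BB ρ)
  linarith

/-- **Leaf D for (L) at `ρ`.** -/
theorem leafD_L {ρ m e κ PU p p' xa xb ya yb : ℝ} (hρ0 : 0 < ρ) (hρ1 : ρ < 1) (he : 0 < e)
    (hem : e ≤ m) (hme : m + e < 1)
    (hp0 : 0 < p) (hp1 : p < 1) (hp0' : 0 < p') (hp1' : p' < 1)
    (hκ : ρ ^ 2 * (LL m e ρ / LL m e 1) ≤ κ) (hPU : 2 * psi ρ m ≤ PU)
    (hxa : 0 ≤ xa) (hxb : xb ≤ 1) (hya : 0 ≤ ya) (hyb : yb ≤ 1)
    (hx1 : xa ≤ m - e) (hx2 : m - e ≤ xb) (hy1 : ya ≤ 1 - m - e) (hy2 : 1 - m - e ≤ yb)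
    (hm : m ≤ 1 / 2)
    (c11 : PU + κ * (Gb (BB ρ) p xa + Gb (BB ρ) p' ya) ≤
      binEntropy ((1 - ρ) / 2 + (1 + ρ) / 2 * xa - (1 - ρ) / 2 * ya) +
      binEntropy ((1 - ρ) / 2 + (1 + ρ) / 2 * ya - (1 - ρ) / 2 * xa))
    (c12 : PU + κ * (Gb (BB ρ) p xa + Gb (BB ρ) p' yb) ≤
      binEntropy ((1 - ρ) / 2 + (1 + ρ) / 2 * xa - (1 - ρ) / 2 * yb) +
      binEntropy ((1 - ρ) / 2 + (1 + ρ) / 2 * yb - (1 - ρ) / 2 * xa))
    (c21 : PU + κ * (Gb (BB ρ) p xb + Gb (BB ρ) p' ya) ≤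
      binEntropy ((1 - ρ) / 2 + (1 + ρ) / 2 * xb - (1 - ρ) / 2 * ya) +
      binEntropy ((1 - ρ) / 2 + (1 + ρ) / 2 * ya - (1 - ρ) / 2 * xb))
    (c22 : PU + κ * (Gb (BB ρ) p xb + Gb (BB ρ) p' yb) ≤
      binEntropy ((1 - ρ) / 2 + (1 + ρ) / 2 * xb - (1 - ρ) / 2 * yb) +
      binEntropy ((1 - ρ) / 2 + (1 + ρ) / 2 * yb - (1 - ρ) / 2 * xb)) :
    psi ρ m ≤ Lval ρ m e ((psi ρ (m - e) + psi ρ (m + e)) / 2) := by
  have hm0 : 0 < m := by linarith
  have hL1 : 0 < LL m e 1 := LL_pos he hem hm one_pos le_rfl (by linarith)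
  have hLρ : 0 < LL m e ρ := LL_pos he hem hm hρ0 hρ1.le (by nlinarith)
  have hη0 : 0 ≤ ρ ^ 2 * (LL m e ρ / LL m e 1) := by positivity
  have hκ0 : 0 ≤ κ := le_trans hη0 hκ
  have hB0 := BB_nonneg hρ0 hρ1.le
  have hB1 : BB ρ ≤ 1 / 2 := by
    have := BB_le hρ0 hρ1.le
    linarith [Real.log_two_lt_d9]
  have h4 := four_corners (al := (1 - ρ) / 2) (ab := (1 + ρ) / 2) (by linarith) (by linarith)
    (by ring) hB0 hκ0 hxa hxb hya hyb hx1 hx2 hy1 hy2 c11 c12 c21 c22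
  have g1 := phi_le_Gb (B := BB ρ) (x := m - e) hp0 hp1 (by linarith) (by linarith)
  have g2 := phi_le_Gb (B := BB ρ) (x := 1 - m - e) hp0' hp1' (by linarith) (by linarith)
  have f1 := phi_nonneg hB1 (p := m - e) (by linarith) (by linarith)
  have f2 := phi_nonneg hB1 (p := 1 - m - e) (by linarith) (by linarith)
  have hs : phi (BB ρ) (1 - m - e) = phi (BB ρ) (m + e) := by
    rw [← phi_symm (BB ρ) (m + e)]; congr 1; ring
  rw [hs] at g2 f2
  have h5 : ρ ^ 2 * (LL m e ρ / LL m e 1) * (phi (BB ρ) (m - e) + phi (BB ρ) (m + e)) ≤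
      κ * (Gb (BB ρ) p (m - e) + Gb (BB ρ) p' (1 - m - e)) :=
    mul_le_mul hκ (add_le_add g1 g2) (by linarith) hκ0
  have e1 : (1 - ρ) / 2 + (1 + ρ) / 2 * (m - e) - (1 - ρ) / 2 * (1 - m - e) = m - ρ * e := by ring
  have e2 : (1 - ρ) / 2 + (1 + ρ) / 2 * (1 - m - e) - (1 - ρ) / 2 * (m - e) = 1 - (m + ρ * e) := by
    ring
  rw [e1, e2, binEntropy_one_sub] at h4
  unfold Lval
  have e3 : (binEntropy (m - e) + binEntropy (m + e)) / 2 -
      (psi ρ (m - e) + psi ρ (m + e)) / 2 =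
      ρ ^ 2 * ((phi (BB ρ) (m - e) + phi (BB ρ) (m + e)) / 2) := by
    rw [psi_eq_phi hρ0, psi_eq_phi hρ0]; ring
  rw [e3]
  have e4 : LL m e ρ / LL m e 1 * (ρ ^ 2 * ((phi (BB ρ) (m - e) + phi (BB ρ) (m + e)) / 2)) =
    ρ ^ 2 * (LL m e ρ / LL m e 1) * (phi (BB ρ) (m - e) + phi (BB ρ) (m + e)) / 2 := by ring
  rw [e4]
  linarith

end P322
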