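import Vale.Agent.Lib.P322.LTree

/-!
P322 (Courtade-Kumar): box certificate at `ρ = 0`.
-/

namespace P322

open Tr

set_option maxRecDepth 100000

theorem tz0 : Cov Goal0 0 2147483648 0 1073741824 :=
  chk0_sound (t := o)
    (by decide +kernel) (by norm_num) (by norm_num) (by norm_num) (by norm_num)
theorem tz1 : Cov Goal0 0 1073741824 1073741824 2147483648 :=
  chk0_sound (t := x (y (x (y (x (y (x (d) (d)) (d)) (y (d) (d))) (x (y (d) (d)) (y (d) (d)))) (y (x (y (d) (d)) (y (d) (d))) (x (y (d) (d)) (y (d) (d))))) (x (y (x (y (d) (d)) (d)) (x (d) (d))) (y (x (d) (d)) (x (d) (d))))) (y (x (y (x (y (d) (d)) (d)) (x (d) (d))) (y (x (d) (d)) (x (d) (d)))) (x (y (x (d) (d)) (d)) (y (d) (d)))))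
    (by decide +kernel) (by norm_num) (by norm_num) (by norm_num) (by norm_num)
theorem tz2 : Cov Goal0 1073741824 2147483648 1073741824 2147483648 :=
  chk0_sound (t := y (x (y (x (d) (o)) (x (d) (d))) (o)) (x (x (y (d) (d)) (y (d) (d))) (y (d) (d))))
    (by decide +kernel) (by norm_num) (by norm_num) (by norm_num) (by norm_num)
theorem tz3 : Cov Goal0 0 2147483648 1073741824 2147483648 := cov_x tz1 tz2
theorem tz4 : Cov Goal0 0 2147483648 0 2147483648 := cov_y tz0 tz3
theorem tz5 : Cov Goal0 2147483648 4294967296 0 2147483648 :=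
  chk0_sound (t := o)
    (by decide +kernel) (by norm_num) (by norm_num) (by norm_num) (by norm_num)
theorem tz6 : Cov Goal0 0 4294967296 0 2147483648 := cov_x tz4 tz5
theorem tz7 : Cov Goal0 0 1073741824 2147483648 4294967296 :=
  chk0_sound (t := y (x (y (x (y (x (d) (d)) (d)) (y (d) (d))) (x (y (d) (d)) (y (d) (d)))) (y (x (y (d) (d)) (y (d) (d))) (x (y (d) (d)) (y (d) (d))))) (x (y (x (y (d) (d)) (y (d) (d))) (x (d) (d))) (y (x (d) (d)) (x (d) (d)))))
    (by decide +kernel) (by norm_num) (by norm_num) (by norm_num) (by norm_num)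
theorem tz8 : Cov Goal0 1073741824 2147483648 2147483648 4294967296 :=
  chk0_sound (t := y (x (y (x (y (d) (d)) (d)) (x (d) (d))) (y (x (d) (d)) (x (d) (d)))) (x (y (x (d) (d)) (x (d) (d))) (y (d) (d))))
    (by decide +kernel) (by norm_num) (by norm_num) (by norm_num) (by norm_num)
theorem tz9 : Cov Goal0 0 2147483648 2147483648 4294967296 := cov_x tz7 tz8
theorem tz10 : Cov Goal0 2147483648 4294967296 2147483648 4294967296 :=
  chk0_sound (t := y (x (y (x (d) (o)) (x (d) (d))) (o)) (x (x (y (d) (d)) (y (d) (d))) (y (d) (d))))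
    (by decide +kernel) (by norm_num) (by norm_num) (by norm_num) (by norm_num)
theorem tz11 : Cov Goal0 0 4294967296 2147483648 4294967296 := cov_x tz9 tz10
theorem tz12 : Cov Goal0 0 4294967296 0 4294967296 := cov_y tz6 tz11
theorem tz13 : Cov Goal0 4294967296 8589934592 0 4294967296 :=
  chk0_sound (t := o)
    (by decide +kernel) (by norm_num) (by norm_num) (by norm_num) (by norm_num)
theorem tz14 : Cov Goal0 0 8589934592 0 4294967296 := cov_x tz12 tz13
theorem tz15 : Cov Goal0 0 2147483648 4294967296 8589934592 :=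
  chk0_sound (t := y (x (y (x (y (x (d) (d)) (x (d) (d))) (y (x (d) (d)) (d))) (x (y (d) (d)) (y (d) (d)))) (y (x (y (d) (d)) (y (d) (d))) (x (y (d) (d)) (y (d) (d))))) (x (y (x (y (d) (d)) (y (d) (d))) (x (d) (d))) (y (x (y (d) (d)) (d)) (x (d) (d)))))
    (by decide +kernel) (by norm_num) (by norm_num) (by norm_num) (by norm_num)
theorem tz16 : Cov Goal0 2147483648 4294967296 4294967296 8589934592 :=
  chk0_sound (t := y (x (y (x (y (d) (d)) (y (d) (d))) (x (y (d) (d)) (d))) (y (x (d) (d)) (x (d) (d)))) (x (y (x (d) (d)) (x (d) (d))) (y (x (d) (d)) (d))))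
    (by decide +kernel) (by norm_num) (by norm_num) (by norm_num) (by norm_num)
theorem tz17 : Cov Goal0 0 4294967296 4294967296 8589934592 := cov_x tz15 tz16
theorem tz18 : Cov Goal0 4294967296 8589934592 4294967296 8589934592 :=
  chk0_sound (t := y (x (y (x (d) (o)) (x (d) (d))) (o)) (x (x (y (d) (d)) (y (d) (d))) (y (d) (d))))
    (by decide +kernel) (by norm_num) (by norm_num) (by norm_num) (by norm_num)
theorem tz19 : Cov Goal0 0 8589934592 4294967296 8589934592 := cov_x tz17 tz18
theorem tz20 : Cov Goal0 0 8589934592 0 8589934592 := cov_y tz14 tz19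
theorem tz21 : Cov Goal0 8589934592 17179869184 0 8589934592 :=
  chk0_sound (t := o)
    (by decide +kernel) (by norm_num) (by norm_num) (by norm_num) (by norm_num)
theorem tz22 : Cov Goal0 0 17179869184 0 8589934592 := cov_x tz20 tz21
theorem tz23 : Cov Goal0 0 4294967296 8589934592 17179869184 :=
  chk0_sound (t := y (x (y (x (y (x (d) (d)) (x (d) (d))) (y (x (d) (d)) (x (d) (d)))) (x (y (d) (d)) (y (d) (d)))) (y (x (y (x (d) (d)) (d)) (y (d) (d))) (x (y (d) (d)) (y (d) (d))))) (x (y (x (y (d) (d)) (y (d) (d))) (x (y (d) (d)) (y (d) (d)))) (y (x (y (d) (d)) (y (d) (d))) (x (y (d) (d)) (d)))))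
    (by decide +kernel) (by norm_num) (by norm_num) (by norm_num) (by norm_num)
theorem tz24 : Cov Goal0 4294967296 8589934592 8589934592 17179869184 :=
  chk0_sound (t := y (x (y (x (y (d) (d)) (y (d) (d))) (x (y (d) (d)) (y (d) (d)))) (y (x (y (d) (d)) (d)) (x (d) (d)))) (x (y (x (y (d) (d)) (d)) (x (d) (d))) (y (x (d) (d)) (x (d) (d)))))
    (by decide +kernel) (by norm_num) (by norm_num) (by norm_num) (by norm_num)
theorem tz25 : Cov Goal0 0 8589934592 8589934592 17179869184 := cov_x tz23 tz24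
theorem tz26 : Cov Goal0 8589934592 17179869184 8589934592 17179869184 :=
  chk0_sound (t := y (x (y (x (y (d) (d)) (o)) (x (x (d) (d)) (d))) (o)) (x (x (y (d) (d)) (y (d) (d))) (y (d) (d))))
    (by decide +kernel) (by norm_num) (by norm_num) (by norm_num) (by norm_num)
theorem tz27 : Cov Goal0 0 17179869184 8589934592 17179869184 := cov_x tz25 tz26
theorem tz28 : Cov Goal0 0 17179869184 0 17179869184 := cov_y tz22 tz27
theorem tz29 : Cov Goal0 17179869184 34359738368 0 17179869184 :=
  chk0_sound (t := o)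
    (by decide +kernel) (by norm_num) (by norm_num) (by norm_num) (by norm_num)
theorem tz30 : Cov Goal0 0 34359738368 0 17179869184 := cov_x tz28 tz29
theorem tz31 : Cov Goal0 0 8589934592 17179869184 25769803776 :=
  chk0_sound (t := x (y (x (y (x (d) (d)) (x (d) (d))) (y (x (d) (d)) (x (d) (d)))) (x (y (x (d) (d)) (d)) (y (x (d) (d)) (d)))) (y (x (y (x (d) (d)) (x (d) (d))) (y (x (d) (d)) (d))) (x (y (d) (d)) (y (d) (d)))))
    (by decide +kernel) (by norm_num) (by norm_num) (by norm_num) (by norm_num)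
theorem tz32 : Cov Goal0 0 8589934592 25769803776 34359738368 :=
  chk0_sound (t := x (y (x (y (d) (d)) (y (d) (d))) (x (y (d) (d)) (y (d) (d)))) (y (x (y (d) (d)) (y (d) (d))) (x (y (d) (d)) (y (d) (d)))))
    (by decide +kernel) (by norm_num) (by norm_num) (by norm_num) (by norm_num)
theorem tz33 : Cov Goal0 0 8589934592 17179869184 34359738368 := cov_y tz31 tz32
theorem tz34 : Cov Goal0 8589934592 17179869184 17179869184 34359738368 :=
  chk0_sound (t := y (x (y (x (y (d) (d)) (y (d) (d))) (x (y (d) (d)) (y (d) (d)))) (y (x (y (d) (d)) (d)) (x (y (d) (d)) (d)))) (x (y (x (y (d) (d)) (y (d) (d))) (x (y (d) (d)) (y (d) (d)))) (y (x (d) (d)) (x (d) (d)))))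
    (by decide +kernel) (by norm_num) (by norm_num) (by norm_num) (by norm_num)
theorem tz35 : Cov Goal0 0 17179869184 17179869184 34359738368 := cov_x tz33 tz34
theorem tz36 : Cov Goal0 17179869184 34359738368 17179869184 34359738368 :=
  chk0_sound (t := y (x (y (x (y (d) (d)) (o)) (x (x (d) (d)) (d))) (o)) (x (x (y (x (d) (d)) (x (d) (d))) (y (d) (d))) (y (x (d) (o)) (x (d) (d)))))
    (by decide +kernel) (by norm_num) (by norm_num) (by norm_num) (by norm_num)
theorem tz37 : Cov Goal0 0 34359738368 17179869184 34359738368 := cov_x tz35 tz36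
theorem tz38 : Cov Goal0 0 34359738368 0 34359738368 := cov_y tz30 tz37
theorem tz39 : Cov Goal0 34359738368 68719476736 0 34359738368 :=
  chk0_sound (t := o)
    (by decide +kernel) (by norm_num) (by norm_num) (by norm_num) (by norm_num)
theorem tz40 : Cov Goal0 0 68719476736 0 34359738368 := cov_x tz38 tz39
theorem tz41 : Cov Goal0 0 17179869184 34359738368 51539607552 :=
  chk0_sound (t := x (y (x (y (x (y (d) (d)) (y (d) (d))) (x (d) (d))) (y (x (y (d) (d)) (y (d) (d))) (x (d) (d)))) (x (y (x (d) (d)) (x (d) (d))) (y (x (d) (d)) (x (d) (d))))) (y (x (y (x (d) (d)) (x (d) (d))) (y (x (d) (d)) (x (d) (d)))) (x (y (x (d) (d)) (x (d) (d))) (y (x (d) (d)) (x (d) (d))))))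
    (by decide +kernel) (by norm_num) (by norm_num) (by norm_num) (by norm_num)
theorem tz42 : Cov Goal0 0 17179869184 51539607552 68719476736 :=
  chk0_sound (t := x (y (x (y (x (d) (d)) (x (d) (d))) (y (x (d) (d)) (x (d) (d)))) (x (y (d) (d)) (y (d) (d)))) (y (x (y (x (d) (d)) (x (d) (d))) (y (d) (d))) (x (y (d) (d)) (y (d) (d)))))
    (by decide +kernel) (by norm_num) (by norm_num) (by norm_num) (by norm_num)
theorem tz43 : Cov Goal0 0 17179869184 34359738368 68719476736 := cov_y tz41 tz42
theorem tz44 : Cov Goal0 17179869184 34359738368 34359738368 68719476736 :=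
  chk0_sound (t := y (x (y (x (y (x (d) (d)) (d)) (y (d) (d))) (x (y (d) (d)) (y (d) (d)))) (y (x (y (d) (d)) (y (d) (d))) (x (y (d) (d)) (y (d) (d))))) (x (y (x (y (d) (d)) (y (d) (d))) (x (y (d) (d)) (y (d) (d)))) (y (x (y (d) (d)) (y (d) (d))) (x (y (d) (d)) (y (d) (d))))))
    (by decide +kernel) (by norm_num) (by norm_num) (by norm_num) (by norm_num)
theorem tz45 : Cov Goal0 0 34359738368 34359738368 68719476736 := cov_x tz43 tz44
theorem tz46 : Cov Goal0 34359738368 68719476736 34359738368 68719476736 :=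
  chk0_sound (t := y (x (y (x (y (d) (d)) (o)) (x (x (y (d) (d)) (d)) (y (d) (d)))) (o)) (x (x (y (x (y (d) (d)) (d)) (x (d) (d))) (y (x (d) (d)) (x (d) (d)))) (y (x (d) (o)) (x (d) (d)))))
    (by decide +kernel) (by norm_num) (by norm_num) (by norm_num) (by norm_num)
theorem tz47 : Cov Goal0 0 68719476736 34359738368 68719476736 := cov_x tz45 tz46
theorem tz48 : Cov Goal0 0 68719476736 0 68719476736 := cov_y tz40 tz47
theorem tz49 : Cov Goal0 68719476736 137438953472 0 68719476736 :=
  chk0_sound (t := o)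
    (by decide +kernel) (by norm_num) (by norm_num) (by norm_num) (by norm_num)
theorem tz50 : Cov Goal0 0 137438953472 0 68719476736 := cov_x tz48 tz49
theorem tz51 : Cov Goal0 0 17179869184 68719476736 103079215104 :=
  chk0_sound (t := y (x (y (x (y (d) (d)) (y (d) (d))) (x (y (d) (d)) (y (d) (d)))) (y (x (y (d) (d)) (y (d) (d))) (x (y (d) (d)) (y (d) (d))))) (x (y (x (y (d) (d)) (y (d) (d))) (x (y (d) (d)) (y (d) (d)))) (y (x (y (d) (d)) (y (d) (d))) (x (y (d) (d)) (y (d) (d))))))
    (by decide +kernel) (by norm_num) (by norm_num) (by norm_num) (by norm_num)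
theorem tz52 : Cov Goal0 17179869184 34359738368 68719476736 103079215104 :=
  chk0_sound (t := y (x (y (x (y (d) (d)) (y (d) (d))) (x (y (d) (d)) (y (d) (d)))) (y (x (y (d) (d)) (y (d) (d))) (x (y (d) (d)) (y (d) (d))))) (x (y (x (y (d) (d)) (y (d) (d))) (x (y (d) (d)) (y (d) (d)))) (y (x (y (d) (d)) (d)) (x (y (d) (d)) (d)))))
    (by decide +kernel) (by norm_num) (by norm_num) (by norm_num) (by norm_num)
theorem tz53 : Cov Goal0 0 34359738368 68719476736 103079215104 := cov_x tz51 tz52
theorem tz54 : Cov Goal0 0 34359738368 103079215104 137438953472 :=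
  chk0_sound (t := x (y (x (y (x (d) (d)) (x (d) (d))) (y (x (y (d) (d)) (y (d) (d))) (x (d) (d)))) (x (y (x (d) (d)) (x (d) (d))) (y (x (d) (d)) (x (d) (d))))) (y (x (y (x (y (d) (d)) (y (d) (d))) (x (d) (d))) (y (x (d) (d)) (x (d) (d)))) (x (y (x (d) (d)) (x (d) (d))) (y (x (d) (d)) (x (d) (d))))))
    (by decide +kernel) (by norm_num) (by norm_num) (by norm_num) (by norm_num)
theorem tz55 : Cov Goal0 0 34359738368 68719476736 137438953472 := cov_y tz53 tz54
theorem tz56 : Cov Goal0 34359738368 68719476736 68719476736 103079215104 :=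
  chk0_sound (t := x (y (x (y (x (d) (d)) (x (d) (d))) (y (x (d) (d)) (x (d) (d)))) (x (y (x (d) (d)) (x (d) (d))) (y (x (d) (d)) (x (d) (d))))) (y (x (y (d) (x (d) (d))) (y (d) (d))) (x (y (x (d) (d)) (x (d) (d))) (y (d) (d)))))
    (by decide +kernel) (by norm_num) (by norm_num) (by norm_num) (by norm_num)
theorem tz57 : Cov Goal0 34359738368 68719476736 103079215104 137438953472 :=
  chk0_sound (t := x (y (x (y (x (d) (d)) (x (d) (d))) (y (x (d) (d)) (x (d) (d)))) (x (y (x (d) (d)) (x (d) (d))) (y (x (d) (d)) (x (d) (d))))) (y (x (y (x (d) (d)) (x (d) (d))) (y (d) (d))) (x (y (x (d) (d)) (x (d) (a))) (y (d) (d)))))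
    (by decide +kernel) (by norm_num) (by norm_num) (by norm_num) (by norm_num)
theorem tz58 : Cov Goal0 34359738368 68719476736 68719476736 137438953472 := cov_y tz56 tz57
theorem tz59 : Cov Goal0 0 68719476736 68719476736 137438953472 := cov_x tz55 tz58
theorem tz60 : Cov Goal0 68719476736 137438953472 68719476736 137438953472 :=
  chk0_sound (t := y (x (y (x (y (d) (x (d) (d))) (o)) (x (x (y (d) (d)) (y (d) (d))) (y (d) (d)))) (o)) (x (x (y (x (y (d) (d)) (y (a) (a))) (x (y (a) (a)) (y (a) (a)))) (y (x (y (a) (a)) (y (a) (a))) (x (y (a) (a)) (a)))) (y (x (y (a) (a)) (o)) (x (a) (a)))))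
    (by decide +kernel) (by norm_num) (by norm_num) (by norm_num) (by norm_num)
theorem tz61 : Cov Goal0 0 137438953472 68719476736 137438953472 := cov_x tz59 tz60
theorem tz62 : Cov Goal0 0 137438953472 0 137438953472 := cov_y tz50 tz61
theorem tz63 : Cov Goal0 137438953472 274877906944 0 137438953472 :=
  chk0_sound (t := o)
    (by decide +kernel) (by norm_num) (by norm_num) (by norm_num) (by norm_num)
theorem tz64 : Cov Goal0 0 274877906944 0 137438953472 := cov_x tz62 tz63
theorem tz65 : Cov Goal0 0 34359738368 137438953472 171798691840 :=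
  chk0_sound (t := x (y (x (y (x (d) (d)) (x (d) (d))) (y (x (d) (d)) (x (d) (d)))) (x (y (x (d) (d)) (x (d) (d))) (y (x (d) (d)) (x (d) (d))))) (y (x (y (x (d) (d)) (x (d) (d))) (y (x (d) (d)) (x (d) (d)))) (x (y (x (d) (d)) (x (d) (d))) (y (x (d) (d)) (x (d) (d))))))
    (by decide +kernel) (by norm_num) (by norm_num) (by norm_num) (by norm_num)
theorem tz66 : Cov Goal0 0 34359738368 171798691840 206158430208 :=
  chk0_sound (t := x (y (x (y (x (d) (d)) (d)) (y (x (d) (d)) (x (d) (d)))) (x (y (d) (d)) (y (x (d) (d)) (x (d) (d))))) (y (x (y (x (d) (d)) (x (d) (d))) (y (x (d) (a)) (x (a) (a)))) (x (y (x (d) (a)) (x (a) (a))) (y (x (a) (a)) (a)))))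
    (by decide +kernel) (by norm_num) (by norm_num) (by norm_num) (by norm_num)
theorem tz67 : Cov Goal0 0 34359738368 137438953472 206158430208 := cov_y tz65 tz66
theorem tz68 : Cov Goal0 34359738368 68719476736 137438953472 206158430208 :=
  chk0_sound (t := y (x (y (x (y (x (d) (d)) (x (d) (d))) (y (x (d) (d)) (x (d) (a)))) (x (y (x (d) (a)) (x (a) (a))) (y (x (a) (a)) (a)))) (y (x (y (x (a) (a)) (a)) (y (a) (a))) (x (y (a) (a)) (y (a) (a))))) (x (y (x (y (x (a) (a)) (a)) (y (a) (a))) (x (y (a) (a)) (y (a) (a)))) (y (x (y (a) (a)) (a)) (x (a) (a)))))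
    (by decide +kernel) (by norm_num) (by norm_num) (by norm_num) (by norm_num)
theorem tz69 : Cov Goal0 0 68719476736 137438953472 206158430208 := cov_x tz67 tz68
theorem tz70 : Cov Goal0 0 34359738368 206158430208 274877906944 :=
  chk0_sound (t := y (x (y (x (y (d) (d)) (y (x (d) (a)) (d))) (x (x (d) (y (a) (a))) (y (d) (a)))) (y (x (y (x (a) (a)) (a)) (y (a) (a))) (x (y (a) (a)) (y (a) (a))))) (x (x (y (x (d) (y (a) (a))) (x (d) (a))) (y (x (y (a) (a)) (a)) (a))) (y (x (a) (a)) (x (a) (a)))))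
    (by decide +kernel) (by norm_num) (by norm_num) (by norm_num) (by norm_num)
theorem tz71 : Cov Goal0 34359738368 68719476736 206158430208 274877906944 :=
  chk0_sound (t := y (x (y (x (y (a) (a)) (a)) (x (a) (a))) (y (x (a) (a)) (a))) (x (y (a) (a)) (y (a) (a))))
    (by decide +kernel) (by norm_num) (by norm_num) (by norm_num) (by norm_num)
theorem tz72 : Cov Goal0 0 68719476736 206158430208 274877906944 := cov_x tz70 tz71
theorem tz73 : Cov Goal0 0 68719476736 137438953472 274877906944 := cov_y tz69 tz72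
theorem tz74 : Cov Goal0 68719476736 137438953472 137438953472 274877906944 :=
  chk0_sound (t := y (x (y (x (y (x (y (a) (a)) (y (a) (a))) (x (a) (a))) (y (x (a) (a)) (a))) (x (y (x (a) (a)) (a)) (y (a) (a)))) (y (x (y (a) (a)) (y (a) (a))) (x (y (a) (a)) (a)))) (x (y (x (y (a) (a)) (y (a) (a))) (x (b) (a))) (y (x (a) (a)) (a))))
    (by decide +kernel) (by norm_num) (by norm_num) (by norm_num) (by norm_num)
theorem tz75 : Cov Goal0 0 137438953472 137438953472 274877906944 := cov_x tz73 tz74
theorem tz76 : Cov Goal0 137438953472 274877906944 137438953472 274877906944 :=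
  chk0_sound (t := y (x (y (x (y (a) (a)) (o)) (x (a) (a))) (o)) (x (x (y (a) (a)) (b)) (b)))
    (by decide +kernel) (by norm_num) (by norm_num) (by norm_num) (by norm_num)
theorem tz77 : Cov Goal0 0 274877906944 137438953472 274877906944 := cov_x tz75 tz76
theorem tz78 : Cov Goal0 0 274877906944 0 274877906944 := cov_y tz64 tz77
theorem tz79 : Cov Goal0 274877906944 549755813888 0 274877906944 :=
  chk0_sound (t := o)
    (by decide +kernel) (by norm_num) (by norm_num) (by norm_num) (by norm_num)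
theorem tz80 : Cov Goal0 0 549755813888 0 274877906944 := cov_x tz78 tz79
theorem tz81 : Cov Goal0 0 549755813888 274877906944 549755813888 :=
  chk0_sound (t := x (x (x (y (x (y (x (y (x (y (x (a) (a)) (a)) (y (a) (a))) (x (b) (b))) (y (x (b) (b)) (b))) (x (y (b) (a)) (b))) (y (y (x (b) (b)) (b)) (b))) (x (y (x (b) (b)) (b)) (b))) (y (y (x (y (b) (a)) (b)) (b)) (b))) (y (x (b) (b)) (b))) (b))
    (by decide +kernel) (by norm_num) (by norm_num) (by norm_num) (by norm_num)
theorem tz82 : Cov Goal0 0 549755813888 0 549755813888 := cov_y tz80 tz81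
theorem tz83 : Cov Goal0 0 137438953472 549755813888 824633720832 :=
  chk0_sound (t := x (y (x (y (b) (a)) (b)) (x (x (y (a) (a)) (y (a) (a))) (y (a) (a)))) (y (b) (x (y (a) (a)) (b))))
    (by decide +kernel) (by norm_num) (by norm_num) (by norm_num) (by norm_num)
theorem tz84 : Cov Goal0 0 137438953472 824633720832 1099511627776 :=
  chk0_sound (t := x (x (y (x (y (a) (a)) (y (a) (a))) (x (y (x (a) (a)) (x (y (a) (o)) (y (a) (o)))) (y (a) (x (y (a) (o)) (y (a) (x (o) (y (a) (o)))))))) (y (x (y (a) (a)) (y (a) (a))) (x (y (a) (x (y (a) (o)) (y (a) (o)))) (y (a) (x (y (a) (o)) (y (a) (o))))))) (y (x (y (a) (a)) (y (a) (a))) (x (x (y (a) (o)) (y (a) (o))) (y (a) (o)))))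
    (by decide +kernel) (by norm_num) (by norm_num) (by norm_num) (by norm_num)
theorem tz85 : Cov Goal0 0 137438953472 549755813888 1099511627776 := cov_y tz83 tz84
theorem tz86 : Cov Goal0 137438953472 274877906944 549755813888 1099511627776 :=
  chk0_sound (t := y (b) (x (y (x (y (a) (a)) (y (a) (a))) (o)) (y (b) (o))))
    (by decide +kernel) (by norm_num) (by norm_num) (by norm_num) (by norm_num)
theorem tz87 : Cov Goal0 0 274877906944 549755813888 1099511627776 := cov_x tz85 tz86
theorem tz88 : Cov Goal0 274877906944 549755813888 549755813888 1099511627776 :=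
  chk0_sound (t := y (b) (o))
    (by decide +kernel) (by norm_num) (by norm_num) (by norm_num) (by norm_num)
theorem tz89 : Cov Goal0 0 549755813888 549755813888 1099511627776 := cov_x tz87 tz88
theorem tz90 : Cov Goal0 0 549755813888 0 1099511627776 := cov_y tz82 tz89

/-- the inequality at `ρ = 0` on the box region. -/
theorem cov0 : Cov Goal0 0 549755813888 0 1099511627776 := tz90

end P322
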