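import Vale.Agent.Lib.P322.LTree

/-!
P322 (Courtade-Kumar): box certificate for (L) at `ρ = 3/5`.
-/

namespace P322

open Tr

set_option maxRecDepth 100000

theorem tl0 : Cov GoalL 0 68719476736 0 34359738368 :=
  chkL_sound (t := x (y (x (y (x (y (x (y (x (y (o) (x (d) (d))) (o)) (x (x (y (d) (d)) (d)) (d))) (o)) (x (x (y (d) (d)) (y (d) (d))) (d))) (o)) (x (x (y (d) (d)) (y (d) (d))) (y (d) (d)))) (o)) (x (x (y (x (y (d) (d)) (y (d) (d))) (x (d) (d))) (y (x (y (d) (d)) (d)) (x (d) (d)))) (y (d) (d)))) (o))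
    (by decide +kernel) (by norm_num) (by norm_num) (by norm_num) (by norm_num)
theorem tl1 : Cov GoalL 0 68719476736 34359738368 68719476736 :=
  chkL_sound (t := x (x (y (x (y (x (d) (d)) (d)) (y (x (d) (d)) (d))) (x (y (d) (d)) (y (d) (d)))) (y (x (y (d) (d)) (y (d) (d))) (x (y (d) (d)) (y (d) (d))))) (y (x (y (d) (d)) (o)) (x (x (y (d) (d)) (y (d) (d))) (d))))
    (by decide +kernel) (by norm_num) (by norm_num) (by norm_num) (by norm_num)
theorem tl2 : Cov GoalL 0 68719476736 0 68719476736 := cov_y tl0 tl1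
theorem tl3 : Cov GoalL 68719476736 137438953472 0 68719476736 :=
  chkL_sound (t := o)
    (by decide +kernel) (by norm_num) (by norm_num) (by norm_num) (by norm_num)
theorem tl4 : Cov GoalL 0 137438953472 0 68719476736 := cov_x tl2 tl3
theorem tl5 : Cov GoalL 0 34359738368 68719476736 137438953472 :=
  chkL_sound (t := y (x (y (x (y (d) (d)) (y (d) (d))) (x (y (d) (d)) (y (d) (d)))) (y (x (y (d) (d)) (y (d) (d))) (x (y (d) (d)) (y (d) (d))))) (x (y (x (d) (y (d) (d))) (x (d) (y (d) (d)))) (y (x (y (d) (d)) (y (d) (d))) (x (y (d) (d)) (y (d) (d))))))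
    (by decide +kernel) (by norm_num) (by norm_num) (by norm_num) (by norm_num)
theorem tl6 : Cov GoalL 34359738368 68719476736 68719476736 137438953472 :=
  chkL_sound (t := y (x (y (x (y (d) (d)) (y (d) (d))) (x (y (d) (d)) (y (d) (d)))) (y (x (d) (d)) (x (y (d) (d)) (d)))) (x (y (x (y (d) (d)) (y (d) (d))) (x (y (d) (d)) (y (d) (d)))) (y (x (y (d) (d)) (y (d) (d))) (x (y (d) (d)) (y (d) (d))))))
    (by decide +kernel) (by norm_num) (by norm_num) (by norm_num) (by norm_num)
theorem tl7 : Cov GoalL 0 68719476736 68719476736 137438953472 := cov_x tl5 tl6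
theorem tl8 : Cov GoalL 68719476736 137438953472 68719476736 137438953472 :=
  chkL_sound (t := y (x (y (x (d) (o)) (x (x (d) (d)) (d))) (o)) (x (x (y (x (y (d) (d)) (d)) (x (y (d) (d)) (y (d) (a)))) (y (d) (x (d) (d)))) (y (x (d) (o)) (x (d) (a)))))
    (by decide +kernel) (by norm_num) (by norm_num) (by norm_num) (by norm_num)
theorem tl9 : Cov GoalL 0 137438953472 68719476736 137438953472 := cov_x tl7 tl8
theorem tl10 : Cov GoalL 0 137438953472 0 137438953472 := cov_y tl4 tl9
theorem tl11 : Cov GoalL 137438953472 274877906944 0 137438953472 :=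
  chkL_sound (t := o)
    (by decide +kernel) (by norm_num) (by norm_num) (by norm_num) (by norm_num)
theorem tl12 : Cov GoalL 0 274877906944 0 137438953472 := cov_x tl10 tl11
theorem tl13 : Cov GoalL 0 34359738368 137438953472 206158430208 :=
  chkL_sound (t := y (x (y (x (d) (y (d) (d))) (x (d) (y (d) (d)))) (y (x (y (d) (d)) (y (d) (d))) (x (y (d) (d)) (y (d) (d))))) (x (y (x (d) (y (d) (d))) (x (d) (y (d) (d)))) (y (x (y (d) (d)) (y (d) (d))) (x (y (d) (d)) (y (d) (d))))))
    (by decide +kernel) (by norm_num) (by norm_num) (by norm_num) (by norm_num)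
theorem tl14 : Cov GoalL 34359738368 68719476736 137438953472 206158430208 :=
  chkL_sound (t := y (x (y (x (y (d) (d)) (y (d) (d))) (x (y (d) (d)) (y (d) (d)))) (y (x (y (d) (d)) (y (d) (d))) (x (y (d) (d)) (y (d) (d))))) (x (y (x (y (d) (d)) (y (d) (d))) (x (y (d) (d)) (y (d) (d)))) (y (x (y (d) (d)) (y (d) (d))) (x (y (d) (d)) (y (a) (a))))))
    (by decide +kernel) (by norm_num) (by norm_num) (by norm_num) (by norm_num)
theorem tl15 : Cov GoalL 0 68719476736 137438953472 206158430208 := cov_x tl13 tl14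
theorem tl16 : Cov GoalL 0 34359738368 206158430208 274877906944 :=
  chkL_sound (t := y (x (y (x (d) (y (d) (d))) (x (d) (y (d) (d)))) (y (x (y (d) (d)) (y (d) (d))) (x (y (d) (d)) (y (d) (d))))) (x (x (y (d) (d)) (y (x (d) (y (d) (d))) (x (d) (y (d) (a))))) (y (x (y (d) (d)) (y (d) (d))) (x (x (y (a) (a)) (y (a) (a))) (y (d) (a))))))
    (by decide +kernel) (by norm_num) (by norm_num) (by norm_num) (by norm_num)
theorem tl17 : Cov GoalL 34359738368 68719476736 206158430208 274877906944 :=
  chkL_sound (t := y (x (y (x (y (d) (d)) (y (x (d) (a)) (x (a) (a)))) (x (y (x (d) (a)) (x (a) (a))) (y (x (a) (a)) (a)))) (y (x (y (a) (a)) (y (a) (a))) (x (y (a) (a)) (y (a) (a))))) (x (y (x (y (x (a) (a)) (a)) (y (a) (a))) (x (y (a) (a)) (y (a) (a)))) (y (x (y (a) (a)) (a)) (x (a) (a)))))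
    (by decide +kernel) (by norm_num) (by norm_num) (by norm_num) (by norm_num)
theorem tl18 : Cov GoalL 0 68719476736 206158430208 274877906944 := cov_x tl16 tl17
theorem tl19 : Cov GoalL 0 68719476736 137438953472 274877906944 := cov_y tl15 tl18
theorem tl20 : Cov GoalL 68719476736 137438953472 137438953472 206158430208 :=
  chkL_sound (t := x (y (x (y (x (y (d) (d)) (y (a) (a))) (x (y (d) (a)) (y (a) (a)))) (y (x (y (a) (a)) (d)) (x (y (a) (a)) (a)))) (x (y (x (y (a) (a)) (y (a) (a))) (x (y (a) (a)) (y (a) (a)))) (y (x (y (a) (a)) (a)) (x (a) (a))))) (y (x (y (x (a) (a)) (a)) (y (a) (a))) (x (y (a) (a)) (y (a) (a)))))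
    (by decide +kernel) (by norm_num) (by norm_num) (by norm_num) (by norm_num)
theorem tl21 : Cov GoalL 68719476736 137438953472 206158430208 274877906944 :=
  chkL_sound (t := x (y (x (y (x (y (a) (a)) (a)) (x (a) (a))) (y (a) (a))) (x (y (x (a) (a)) (a)) (y (a) (a)))) (y (x (y (a) (a)) (y (a) (a))) (x (y (a) (a)) (a))))
    (by decide +kernel) (by norm_num) (by norm_num) (by norm_num) (by norm_num)
theorem tl22 : Cov GoalL 68719476736 137438953472 137438953472 274877906944 := cov_y tl20 tl21
theorem tl23 : Cov GoalL 0 137438953472 137438953472 274877906944 := cov_x tl19 tl22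
theorem tl24 : Cov GoalL 137438953472 274877906944 137438953472 274877906944 :=
  chkL_sound (t := y (x (y (x (y (a) (a)) (o)) (x (x (y (a) (a)) (a)) (a))) (o)) (x (x (y (x (a) (a)) (a)) (y (a) (a))) (b)))
    (by decide +kernel) (by norm_num) (by norm_num) (by norm_num) (by norm_num)
theorem tl25 : Cov GoalL 0 274877906944 137438953472 274877906944 := cov_x tl23 tl24
theorem tl26 : Cov GoalL 0 274877906944 0 274877906944 := cov_y tl12 tl25
theorem tl27 : Cov GoalL 274877906944 549755813888 0 274877906944 :=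
  chkL_sound (t := o)
    (by decide +kernel) (by norm_num) (by norm_num) (by norm_num) (by norm_num)
theorem tl28 : Cov GoalL 0 549755813888 0 274877906944 := cov_x tl26 tl27
theorem tl29 : Cov GoalL 0 34359738368 274877906944 412316860416 :=
  chkL_sound (t := y (x (y (x (y (d) (d)) (y (x (d) (y (a) (a))) (x (y (a) (a)) (b)))) (x (y (d) (b)) (y (b) (a)))) (y (x (y (x (y (a) (a)) (y (a) (a))) (x (a) (a))) (y (x (y (a) (a)) (a)) (b))) (x (y (a) (a)) (y (a) (a))))) (x (y (x (y (a) (a)) (b)) (x (b) (b))) (y (b) (b))))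
    (by decide +kernel) (by norm_num) (by norm_num) (by norm_num) (by norm_num)
theorem tl30 : Cov GoalL 34359738368 68719476736 274877906944 412316860416 :=
  chkL_sound (t := y (y (x (y (x (y (a) (a)) (a)) (x (a) (a))) (y (x (a) (a)) (b))) (x (x (b) (b)) (b))) (x (y (b) (b)) (b)))
    (by decide +kernel) (by norm_num) (by norm_num) (by norm_num) (by norm_num)
theorem tl31 : Cov GoalL 0 68719476736 274877906944 412316860416 := cov_x tl29 tl30
theorem tl32 : Cov GoalL 0 68719476736 412316860416 549755813888 :=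
  chkL_sound (t := x (y (x (y (b) (a)) (b)) (x (b) (b))) (y (b) (b)))
    (by decide +kernel) (by norm_num) (by norm_num) (by norm_num) (by norm_num)
theorem tl33 : Cov GoalL 0 68719476736 274877906944 549755813888 := cov_y tl31 tl32
theorem tl34 : Cov GoalL 68719476736 137438953472 274877906944 549755813888 :=
  chkL_sound (t := y (y (x (y (x (y (a) (a)) (b)) (x (b) (b))) (y (b) (b))) (x (b) (b))) (x (b) (b)))
    (by decide +kernel) (by norm_num) (by norm_num) (by norm_num) (by norm_num)
theorem tl35 : Cov GoalL 0 137438953472 274877906944 549755813888 := cov_x tl33 tl34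
theorem tl36 : Cov GoalL 137438953472 274877906944 274877906944 549755813888 :=
  chkL_sound (t := y (x (y (b) (b)) (b)) (b))
    (by decide +kernel) (by norm_num) (by norm_num) (by norm_num) (by norm_num)
theorem tl37 : Cov GoalL 0 274877906944 274877906944 549755813888 := cov_x tl35 tl36
theorem tl38 : Cov GoalL 274877906944 549755813888 274877906944 549755813888 :=
  chkL_sound (t := b)
    (by decide +kernel) (by norm_num) (by norm_num) (by norm_num) (by norm_num)
theorem tl39 : Cov GoalL 0 549755813888 274877906944 549755813888 := cov_x tl37 tl38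
theorem tl40 : Cov GoalL 0 549755813888 0 549755813888 := cov_y tl28 tl39
theorem tl41 : Cov GoalL 0 137438953472 549755813888 824633720832 :=
  chkL_sound (t := x (y (x (y (x (b) (a)) (x (a) (a))) (y (b) (b))) (x (x (y (a) (a)) (y (a) (a))) (y (a) (a)))) (y (x (b) (b)) (x (y (a) (a)) (y (a) (a)))))
    (by decide +kernel) (by norm_num) (by norm_num) (by norm_num) (by norm_num)
theorem tl42 : Cov GoalL 0 137438953472 824633720832 1099511627776 :=
  chkL_sound (t := x (x (y (x (y (a) (a)) (y (a) (a))) (x (y (x (y (a) (a)) (a)) (x (y (a) (o)) (y (a) (o)))) (y (x (a) (a)) (x (y (a) (o)) (y (a) (x (o) (y (a) (o)))))))) (y (x (y (a) (a)) (y (a) (a))) (x (y (x (a) (a)) (x (y (a) (o)) (y (a) (o)))) (y (a) (x (y (a) (o)) (y (a) (o))))))) (y (x (y (a) (a)) (y (a) (a))) (x (x (y (a) (o)) (y (a) (o))) (y (a) (o)))))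
    (by decide +kernel) (by norm_num) (by norm_num) (by norm_num) (by norm_num)
theorem tl43 : Cov GoalL 0 137438953472 549755813888 1099511627776 := cov_y tl41 tl42
theorem tl44 : Cov GoalL 137438953472 274877906944 549755813888 1099511627776 :=
  chkL_sound (t := y (b) (x (y (x (y (a) (a)) (y (a) (a))) (o)) (y (x (y (a) (o)) (y (a) (o))) (o))))
    (by decide +kernel) (by norm_num) (by norm_num) (by norm_num) (by norm_num)
theorem tl45 : Cov GoalL 0 274877906944 549755813888 1099511627776 := cov_x tl43 tl44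
theorem tl46 : Cov GoalL 274877906944 549755813888 549755813888 1099511627776 :=
  chkL_sound (t := y (b) (o))
    (by decide +kernel) (by norm_num) (by norm_num) (by norm_num) (by norm_num)
theorem tl47 : Cov GoalL 0 549755813888 549755813888 1099511627776 := cov_x tl45 tl46
theorem tl48 : Cov GoalL 0 549755813888 0 1099511627776 := cov_y tl40 tl47

/-- (L) at `ρ = 3/5` on the box region. -/
theorem covL : Cov GoalL 0 549755813888 0 1099511627776 := tl48

end P322
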