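import Vale.Agent.Lib.P322.LBoxB
import Vale.Agent.Lib.P322.Engine

/-!
P322 (Courtade-Kumar): kernel-checkable box certificates for (L) at `ρ = 3/5` and for the
inequality at `ρ = 0`.
-/

namespace P322

open Real Set

/-- the real number `k / 2^40`. -/
noncomputable def rd (k : ℕ) : ℝ := (k : ℝ) / 1099511627776

lemma enc_rd (k : ℕ) : Enc (rd k) (k, k) := ⟨le_rfl, le_rfl⟩

lemma rd_nonneg (k : ℕ) : 0 ≤ rd k := by unfold rd; positivity

lemma rd_le_rd {a b : ℕ} (h : a ≤ b) : rd a ≤ rd b := by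
  unfold rd
  have : (a : ℝ) ≤ b := by exact_mod_cast h
  exact div_le_div_of_nonneg_right this (by norm_num)

lemma rd_add (a b : ℕ) : rd (a + b) = rd a + rd b := by unfold rd; push_cast; ring

lemma rd_sub {a b : ℕ} (h : b ≤ a) : rd (a - b) = rd a - rd b := by
  unfold rd
  rw [Nat.cast_sub h]; ring

lemma rd_S : rd 1099511627776 = 1 := by unfold rd; norm_num

lemma rd_half : rd 549755813888 = 1 / 2 := by unfold rd; norm_num

lemma rd_one_sub {a : ℕ} (h : a ≤ 1099511627776) : rd (1099511627776 - a) = 1 - rd a := by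
  rw [rd_sub h, rd_S]

lemma rd_sub_ge (a b : ℕ) : rd a - rd b ≤ rd (a - b) := by
  rcases le_total b a with h | h
  · rw [rd_sub h]
  · have := rd_le_rd h
    have := rd_nonneg (a - b)
    linarith

lemma rd_sub_le {a b : ℕ} {z : ℝ} (hz : 0 ≤ z) (h : rd a - rd b ≤ z) : rd (a - b) ≤ z := by
  rcases le_total b a with h' | h'
  · rw [rd_sub h']; exact h
  · rw [Nat.sub_eq_zero_of_le h']
    unfold rd; simpa using hz

lemma rd_mul (a k : ℕ) : rd (k * a) = k * rd a := by unfold rd; push_cast; ring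

/-- certificates -/
inductive Tr where
  | o
  | a
  | b
  | d
  | x (l r : Tr)
  | y (l r : Tr)

/-- `x log x` entropy with variables `i` (value `z`) and `j` (value `1 - z`). -/
def hE (i j : ℕ) : Ex := .add (.mul (.v i) (.nlg (.v i))) (.mul (.v j) (.nlg (.v j)))

/-- `phi B z`, `z = k / 2^40`, variables `i = z`, `j = 1 - z`, `b = B`. -/
def phE (k i j b : ℕ) : Ex :=
  bif Nat.beq k 0 || Nat.beq k 1099511627776 then .c 0 1
  else .sub (hE i j) (.mul (.v b) (.mul (.c 4 1) (.mul (.v i) (.v j))))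

lemma hE_val {i j : ℕ} {e : List ℝ} {z : ℝ} (hi : e.getD i 0 = z) (hj : e.getD j 0 = 1 - z) :
    (hE i j).val e = binEntropy z := by
  simp only [hE, Ex.val, hi, hj]
  rw [binEntropy_eq']; ring

lemma phE_val {k i j b : ℕ} {e : List ℝ} {B : ℝ} (hi : e.getD i 0 = rd k)
    (hj : e.getD j 0 = 1 - rd k) (hb : e.getD b 0 = B) : (phE k i j b).val e = phi B (rd k) := by
  unfold phE
  cases h : (Nat.beq k 0 || Nat.beq k 1099511627776) with
  | false =>
    simp only [cond_false, Ex.val, hE_val hi hj, hi, hj, hb]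
    unfold phi
    norm_num
    left; ring
  | true =>
    simp only [cond_true, Ex.val]
    rw [Bool.or_eq_true] at h
    rcases h with h | h
    · have : k = 0 := Nat.eq_of_beq_eq_true h
      rw [this]; unfold phi rd; simp
    · have : k = 1099511627776 := Nat.eq_of_beq_eq_true h
      rw [this, rd_S]; unfold phi; simp

/-- `W` with the product bound. Variables: `1-xb, ya, 1-xa, yb, d`. -/
def WE1 (s : ℕ × ℕ) : Ex :=
  .lt (.nlg (.mul (.v 0) (.v 1)))
    (.mul (.v 0) (.add (.mul (.c 2 1) (.mul (.v 3) (.v 4)))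
      (.mul (.c s.1 s.2) (.mul (.c 1 4) (.mul (.v 5) (.v 5))))))

/-- `W` with the bound `1/e`. -/
def WE2 (s : ℕ × ℕ) : Ex :=
  .add (.c 73576 100000) (.mul (.c s.1 s.2) (.mul (.c 1 4) (.mul (.mul (.v 4) (.v 4))
    (.nlg (.mul (.v 0) (.v 1))))))

def polE (c1 c2 c3 : ℕ × ℕ) (i : ℕ) : Ex :=
  .mul (.v i) (.add (.c c1.1 c1.2) (.mul (.v i) (.add (.c c2.1 c2.2) (.mul (.v i) (.c c3.1 c3.2)))))

/-- one half of `Sg3`; variables `i = M`, `7 = E`. -/
def halfE (c1 c2 c3 : ℕ × ℕ) (i : ℕ) : Ex :=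
  .lt (.div (.v 7) (.v i)) (.lt (.mul (.v 0) (.v 0)) (.div (polE c1 c2 c3 0) (.v (i + 2))))

def SgE (c1 c2 c3 : ℕ × ℕ) : Ex :=
  .mul (.c 2 1) (.add (halfE c1 c2 c3 5) (halfE c1 c2 c3 6))

/-- leaf A. -/
def leafA (s c1 c2 c3 : ℕ × ℕ) (k4 : Ex) (bI : ℕ × ℕ) (WE : Ex) (xa xb ya yb : ℕ) : Bool :=
  match WE.iv [(1099511627776 - xb, 1099511627776 - xb), (ya, ya),
    (1099511627776 - xa, 1099511627776 - xa), (yb, yb),
    (1099511627776 - xa - ya, 1099511627776 - xa - ya)] with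
  | some I =>
    let w := bif Nat.ble (ya + yb) 1099511627776 then ya else yb
    let M := bif Nat.ble xb ya then 1099511627776 + xb - ya else 1099511627776
    let N := 1099511627776 + yb - xa
    let E := 1099511627776 - xb - yb
    Ex.ge (.add (.mul (.c s.1 s.2) (.add (phE xa 1 2 8) (phE w 3 4 8)))
        (.mul (.v 0) (SgE c1 c2 c3)))
      (.mul (.v 0) k4)
      [I, (xa, xa), (1099511627776 - xa, 1099511627776 - xa), (w, w),
        (1099511627776 - w, 1099511627776 - w), (M, M), (N, N), (E, E), bI]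
  | none => false

/-- the common data of a point in a box. -/
structure InBox (xa xb ya yb : ℕ) (m e : ℝ) : Prop where
  he : 0 < e
  hem : e ≤ m
  hm : m ≤ 1 / 2
  hme : m + e < 1
  xab : xa ≤ xb
  xbS : xb ≤ 549755813888
  yab : ya ≤ yb
  ybS : yb ≤ 1099511627776
  x1 : rd xa ≤ m - e
  x2 : m - e ≤ rd xb
  y1 : rd ya ≤ 1 - m - e
  y2 : 1 - m - e ≤ rd yb

lemma SgE_val (c1 c2 c3 : ℕ × ℕ) (W a b c d M N E B : ℝ) :
    (SgE c1 c2 c3).val [W, a, b, c, d, M, N, E, B] =
      Sg3 ((c1.1 : ℝ) / c1.2) ((c2.1 : ℝ) / c2.2) ((c3.1 : ℝ) / c3.2) M N E := by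
  simp only [SgE, halfE, polE, Ex.val, List.getD_cons_zero, List.getD_cons_succ]
  unfold Sg3
  simp only [pow_two]
  norm_num

/-- leaf A soundness, common part. -/
lemma leafA_sound {s c1 c2 c3 : ℕ × ℕ} {k4 : Ex} {bI : ℕ × ℕ} {B : ℝ} {WE : Ex}
    {xa xb ya yb : ℕ} {m e : ℝ} (hB : Enc B bI) (hBh : B ≤ 1 / 2)
    (hin : InBox xa xb ya yb m e) (K4f : ℝ → ℝ)
    (hk4 : ∀ W a b c d M N E : ℝ, k4.val [W, a, b, c, d, M, N, E, B] = K4f E)
    (hc : leafA s c1 c2 c3 k4 bI WE xa xb ya yb = true) :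
    ∃ M N E Ph : ℝ, 0 ≤ E ∧ E ≤ 2 * e ∧ 2 * m ≤ M ∧ 2 * (1 - m) ≤ N ∧ 0 ≤ Ph ∧
      Ph ≤ phi B (m - e) + phi B (m + e) ∧
      WE.val [1 - rd xb, rd ya, 1 - rd xa, rd yb, rd (1099511627776 - xa - ya)] * K4f E ≤
        (s.1 : ℝ) / s.2 * Ph +
        WE.val [1 - rd xb, rd ya, 1 - rd xa, rd yb, rd (1099511627776 - xa - ya)] *
          Sg3 ((c1.1 : ℝ) / c1.2) ((c2.1 : ℝ) / c2.2) ((c3.1 : ℝ) / c3.2) M N E := by
  obtain ⟨he, hem, hm, hme, xab, xbS, yab, ybS, x1, x2, y1, y2⟩ := hin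
  unfold leafA at hc
  split at hc
  · rename_i I hI
    have hxb : xb ≤ 1099511627776 := by omega
    have hxa : xa ≤ 1099511627776 := by omega
    have hya : ya ≤ 1099511627776 := by omega
    have hE1 : Enc (WE.val [1 - rd xb, rd ya, 1 - rd xa, rd yb, rd (1099511627776 - xa - ya)]) I := by
      refine Ex.sound WE _ _ ?_ I hI
      rw [← rd_one_sub hxb, ← rd_one_sub hxa]
      exact .cons (enc_rd _) (.cons (enc_rd _) (.cons (enc_rd _) (.cons (enc_rd _)
        (.cons (enc_rd _) .nil))))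
    set W := WE.val [1 - rd xb, rd ya, 1 - rd xa, rd yb, rd (1099511627776 - xa - ya)] with hW
    simp only at hc
    set w := bif Nat.ble (ya + yb) 1099511627776 then ya else yb with hw
    set Mn := bif Nat.ble xb ya then 1099511627776 + xb - ya else 1099511627776 with hMn
    have hwS : w ≤ 1099511627776 := by
      rw [hw]; cases Nat.ble (ya + yb) 1099511627776 <;> simp <;> omega
    have hge := Ex.ge_sound (e := [W, rd xa, 1 - rd xa, rd w, 1 - rd w, rd Mn,
      rd (1099511627776 + yb - xa), rd (1099511627776 - xb - yb), B]) (by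
        rw [← rd_one_sub hxa, ← rd_one_sub hwS]
        exact .cons hE1 (.cons (enc_rd _) (.cons (enc_rd _) (.cons (enc_rd _) (.cons (enc_rd _)
          (.cons (enc_rd _) (.cons (enc_rd _) (.cons (enc_rd _) (.cons hB .nil))))))))) hc
    simp only [Ex.val, SgE_val, hk4] at hge
    rw [phE_val (B := B) (by simp) (by simp) (by simp), phE_val (B := B) (by simp) (by simp) (by simp)] at hge
    simp only [List.getD_cons_zero] at hge
    have hrx1 : rd xb ≤ 1 / 2 := by rw [← rd_half]; exact rd_le_rd xbS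
    have hrxa0 := rd_nonneg xa
    have hrya0 := rd_nonneg ya
    have hryb1 : rd yb ≤ 1 := by rw [← rd_S]; exact rd_le_rd ybS
    have hphx : phi B (rd xa) ≤ phi B (m - e) := by
      apply phi_ge_of_mem hBh hrxa0 x1
      linarith
    have hsy : phi B (1 - m - e) = phi B (m + e) := by
      rw [← phi_symm B (m + e)]; congr 1; ring
    have hphy : 0 ≤ phi B (rd w) ∧ phi B (rd w) ≤ phi B (m + e) := by
      rw [← hsy, hw]
      cases hb : Nat.ble (ya + yb) 1099511627776 with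
      | true =>
        simp only [cond_true]
        have h1 : ya + yb ≤ 1099511627776 := Nat.le_of_ble_eq_true hb
        have h2 := rd_le_rd h1
        rw [rd_add, rd_S] at h2
        exact ⟨phi_nonneg hBh hrya0 (by linarith [rd_le_rd yab]),
          phi_ge_of_mem hBh hrya0 y1 (by linarith)⟩
      | false =>
        simp only [cond_false]
        have h1 : ¬ (ya + yb ≤ 1099511627776) := fun h => by
          rw [Nat.ble_eq_true_of_le h] at hb; exact Bool.noConfusion hb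
        have h2 := rd_le_rd (by omega : 1099511627776 ≤ ya + yb)
        rw [rd_add, rd_S] at h2
        refine ⟨phi_nonneg hBh (rd_nonneg _) hryb1, ?_⟩
        rw [← phi_symm B (rd yb)]
        exact phi_ge_of_mem hBh (by linarith) (by linarith) (by linarith)
    have hphx0 : 0 ≤ phi B (rd xa) := phi_nonneg hBh hrxa0 (by linarith [rd_le_rd xab])
    refine ⟨rd Mn, rd (1099511627776 + yb - xa), rd (1099511627776 - xb - yb),
      phi B (rd xa) + phi B (rd w), rd_nonneg _, ?_, ?_, ?_, by linarith [hphy.1],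
      by linarith [hphy.2], hge⟩
    · rw [Nat.sub_sub]
      apply rd_sub_le (by linarith)
      rw [rd_add, rd_S]
      linarith
    · rw [hMn]
      cases hb : Nat.ble xb ya with
      | true =>
        simp only [cond_true]
        have h1 : xb ≤ ya := Nat.le_of_ble_eq_true hb
        rw [rd_sub (by omega), rd_add, rd_S]
        linarith
      | false =>
        simp only [cond_false, rd_S]
        linarith
    · rw [rd_sub (by omega), rd_add, rd_S]
      linarith
  · exact absurd hc (by simp)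

/-- the general bound for `W`. -/
lemma W_le1 {ρ m e z1h N1h d : ℝ} (hρ0 : 0 ≤ ρ) (hρ1 : ρ < 1) (he : 0 < e) (hem : e ≤ m)
    (hm : m ≤ 1 / 2) (hme : m + e < 1) (hz : (1 - (m - e)) * (1 - m - e) ≤ z1h)
    (hN : LL m e 1 ≤ N1h) (hd : 2 * e ≤ d) :
    (2 * ((1 - m) ^ 2 - e ^ 2) + (1 - ρ ^ 2) * e ^ 2) * LL m e 1 ≤
      N1h * (2 * z1h + (1 - ρ ^ 2) * (1 / 4 * (d * d))) := by
  have hL1 : 0 < LL m e 1 := LL_pos he hem hm one_pos le_rfl (by linarith)
  have hs : 0 ≤ 1 - ρ ^ 2 := by nlinarith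
  have h1 : e ^ 2 ≤ 1 / 4 * (d * d) := by nlinarith
  have h2 := mul_le_mul_of_nonneg_left h1 hs
  have h3 : 0 < (1 - (m - e)) * (1 - m - e) := mul_pos (by linarith) (by linarith)
  have h4 : 2 * ((1 - m) ^ 2 - e ^ 2) + (1 - ρ ^ 2) * e ^ 2 ≤ 2 * z1h + (1 - ρ ^ 2) * (1 / 4 * (d * d)) := by
    have : (1 - m) ^ 2 - e ^ 2 = (1 - (m - e)) * (1 - m - e) := by ring
    rw [this]; linarith
  have h5 : 0 ≤ 2 * ((1 - m) ^ 2 - e ^ 2) + (1 - ρ ^ 2) * e ^ 2 := by
    have : (1 - m) ^ 2 - e ^ 2 = (1 - (m - e)) * (1 - m - e) := by ring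
    rw [this]
    have := mul_nonneg hs (sq_nonneg e)
    linarith
  rw [mul_comm N1h]
  exact mul_le_mul h4 hN hL1.le (le_trans h5 h4)

lemma LL1_eq {m e : ℝ} (he : 0 < e) (hme : m + e < 1) :
    LL m e 1 = - log ((1 - (m - e)) * (1 - m - e)) := by
  unfold LL
  have : 1 - (m + 1 * e) = 1 - m - e := by ring
  rw [this, log_mul (by linarith) (by linarith), one_mul]
  ring

lemma neg_mul_log_le {z : ℝ} (hz : 0 < z) : z * (- log z) ≤ 36788 / 100000 := by
  have h1 : - log z ≤ exp (- log z - 1) := by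
    have := Real.add_one_le_exp (- log z - 1)
    linarith
  have h2 : exp (- log z - 1) = exp (-1) / z := by
    rw [Real.exp_sub, Real.exp_neg, Real.exp_log hz, Real.exp_neg]
    field_simp
  rw [h2] at h1
  have h3 := mul_le_mul_of_nonneg_left h1 hz.le
  have h4 : z * (exp (-1) / z) = exp (-1) := by field_simp
  rw [h4] at h3
  have h5 : exp (-1) ≤ 36788 / 100000 := by
    have := Real.exp_neg_one_lt_d9
    linarith
  linarith

lemma W_le2 {ρ m e N1h d : ℝ} (hρ0 : 0 ≤ ρ) (hρ1 : ρ < 1) (he : 0 < e) (hem : e ≤ m)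
    (hm : m ≤ 1 / 2) (hme : m + e < 1)
    (hN : LL m e 1 ≤ N1h) (hd : 2 * e ≤ d) :
    (2 * ((1 - m) ^ 2 - e ^ 2) + (1 - ρ ^ 2) * e ^ 2) * LL m e 1 ≤
      73576 / 100000 + (1 - ρ ^ 2) * (1 / 4 * ((d * d) * N1h)) := by
  have hL1 : 0 < LL m e 1 := LL_pos he hem hm one_pos le_rfl (by linarith)
  have hs : 0 ≤ 1 - ρ ^ 2 := by nlinarith
  have h1 : e ^ 2 ≤ 1 / 4 * (d * d) := by nlinarith
  have h3 : 0 < (1 - (m - e)) * (1 - m - e) := mul_pos (by linarith) (by linarith)
  have h4 := neg_mul_log_le h3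
  rw [← LL1_eq he hme] at h4
  have h5 : e ^ 2 * LL m e 1 ≤ 1 / 4 * (d * d) * N1h :=
    mul_le_mul h1 hN hL1.le (by have := mul_self_nonneg d; linarith)
  have h6 := mul_le_mul_of_nonneg_left h5 hs
  have h7 : (2 * ((1 - m) ^ 2 - e ^ 2) + (1 - ρ ^ 2) * e ^ 2) * LL m e 1 =
    2 * ((1 - (m - e)) * (1 - m - e) * LL m e 1) + (1 - ρ ^ 2) * (e ^ 2 * LL m e 1) := by ring
  rw [h7]
  linarith

lemma LL1_le {xa xb ya yb : ℕ} {m e : ℝ} (hin : InBox xa xb ya yb m e) (hya : 0 < ya) :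
    LL m e 1 ≤ - log ((1 - rd xb) * rd ya) := by
  obtain ⟨he, hem, hm, hme, xab, xbS, yab, ybS, x1, x2, y1, y2⟩ := hin
  rw [LL1_eq he hme]
  have hrx1 : rd xb ≤ 1 / 2 := by rw [← rd_half]; exact rd_le_rd xbS
  have hya0 : 0 < rd ya := by unfold rd; positivity
  have : log ((1 - rd xb) * rd ya) ≤ log ((1 - (m - e)) * (1 - m - e)) := by
    apply Real.log_le_log (mul_pos (by linarith) hya0)
    exact mul_le_mul (by linarith) y1 hya0.le (by linarith)
  linarith

end P322
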