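import Vale.Agent.Lib.P322.LCheck

/-!
P322 (Courtade-Kumar): leaves of the certificates for `ρ = 3/5` and `ρ = 0`.
-/

namespace P322

open Real Set

lemma enc_B35 : Enc (BB (3 / 5)) (173442547157, 173442547195) := by
  have h := Ex.sound (.sub (.nlg (.c 1 2)) (.div (.mul (.c 1 2) (.sub (.mul (.c 8 5) (.lg (.c 8 5)))
    (.mul (.c 2 5) (.nlg (.c 2 5))))) (.c 9 25))) [] [] .nil (173442547157, 173442547195)
    (by decide +kernel)
  convert h using 1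
  simp only [Ex.val, BB]
  rw [kap_eq]
  have e1 : ((1 : ℕ) : ℝ) / ((2 : ℕ) : ℝ) = 2⁻¹ := by norm_num
  have e2 : ((8 : ℕ) : ℝ) / ((5 : ℕ) : ℝ) = 1 + 3 / 5 := by norm_num
  have e3 : ((2 : ℕ) : ℝ) / ((5 : ℕ) : ℝ) = 1 - 3 / 5 := by norm_num
  rw [e1, e2, e3, Real.log_inv]
  norm_num
  ring

lemma enc_B0 : Enc (log 2 - 1 / 2 + 69 / 10000) (219954201123, 219954201132) := by
  have h := Ex.sound (.sub (.nlg (.c 1 2)) (.c 4931 10000)) [] [] .nil (219954201123, 219954201132)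
    (by decide +kernel)
  convert h using 1
  simp only [Ex.val]
  have e1 : ((1 : ℕ) : ℝ) / ((2 : ℕ) : ℝ) = 2⁻¹ := by norm_num
  rw [e1, Real.log_inv]
  norm_num
  ring

lemma enc_log2 : Enc (log 2) (762123384780, 762123384788) := by
  have h := Ex.sound (.nlg (.c 1 2)) [] [] .nil (762123384780, 762123384788) (by decide +kernel)
  convert h using 1
  simp only [Ex.val]
  have e1 : ((1 : ℕ) : ℝ) / ((2 : ℕ) : ℝ) = 2⁻¹ := by norm_num
  rw [e1, Real.log_inv]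
  ring

lemma BB35_le : BB (3 / 5) ≤ 1 / 2 := by
  have := BB_le (ρ := 3 / 5) (by norm_num) (by norm_num)
  linarith [Real.log_two_lt_d9]

/-- the goal at `ρ = 3/5`. -/
def GoalL (m e : ℝ) : Prop :=
  psi (3 / 5) m ≤ Lval (3 / 5) m e ((psi (3 / 5) (m - e) + psi (3 / 5) (m + e)) / 2)

/-- the goal at `ρ = 0`. -/
def Goal0 (m e : ℝ) : Prop :=
  LL m e 0 / LL m e 1 * (hb m e - (log 2 - 1 / 2 + 69 / 10000) * (4 * m * (1 - m) - 4 * e ^ 2)) ≤
      binEntropy m - 1 / 2 * (e ^ 2 / (m * (1 - m))) - (log 2 - 1 / 2) * (4 * m * (1 - m))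
        - 69 / 10000 * (4 * m * (1 - m) - 4 * e ^ 2) - 203 / 10000 * (4 * e ^ 2 * (1 - 4 * e ^ 2))

def leafAL (WE : Ex) (xa xb ya yb : ℕ) : Bool :=
  Nat.ble 1 ya && leafA (16, 25) (4, 75) (272, 9375) (266, 15625) (.mul (.c 4 1) (.v 8))
    (173442547157, 173442547195) WE xa xb ya yb

def leafA0 (WE : Ex) (xa xb ya yb : ℕ) : Bool :=
  Nat.ble 1 ya && leafA (1, 1) (1, 12) (1, 30) (1, 56)
    (.add (.sub (.mul (.c 4 1) (.v 8)) (.c 276 10000)) (.mul (.c 812 10000)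
      (.sub (.c 1 1) (.mul (.v 7) (.v 7)))))
    (219954201123, 219954201132) WE xa xb ya yb

lemma WE1_ok {ρ m e : ℝ} {s : ℕ × ℕ} {xa xb ya yb : ℕ} (hs : (s.1 : ℝ) / s.2 = 1 - ρ ^ 2)
    (hρ0 : 0 ≤ ρ) (hρ1 : ρ < 1) (hin : InBox xa xb ya yb m e) (hya : 0 < ya) :
    (2 * ((1 - m) ^ 2 - e ^ 2) + (1 - ρ ^ 2) * e ^ 2) * LL m e 1 ≤
      (WE1 s).val [1 - rd xb, rd ya, 1 - rd xa, rd yb, rd (1099511627776 - xa - ya)] := by
  have hN := LL1_le hin hya
  obtain ⟨he, hem, hm, hme, xab, xbS, yab, ybS, x1, x2, y1, y2⟩ := hin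
  have hd : 2 * e ≤ rd (1099511627776 - xa - ya) := by
    rw [Nat.sub_sub]
    refine le_trans ?_ (rd_sub_ge _ _)
    rw [rd_add, rd_S]; linarith
  have hz : (1 - (m - e)) * (1 - m - e) ≤ (1 - rd xa) * rd yb :=
    mul_le_mul (by linarith) y2 (by linarith) (by linarith)
  refine le_trans (W_le1 hρ0 hρ1 he hem hm hme hz hN hd) (le_of_eq ?_)
  simp only [WE1, Ex.val, List.getD_cons_zero, List.getD_cons_succ, hs]
  norm_num

lemma WE2_ok {ρ m e : ℝ} {s : ℕ × ℕ} {xa xb ya yb : ℕ} (hs : (s.1 : ℝ) / s.2 = 1 - ρ ^ 2)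
    (hρ0 : 0 ≤ ρ) (hρ1 : ρ < 1) (hin : InBox xa xb ya yb m e) (hya : 0 < ya) :
    (2 * ((1 - m) ^ 2 - e ^ 2) + (1 - ρ ^ 2) * e ^ 2) * LL m e 1 ≤
      (WE2 s).val [1 - rd xb, rd ya, 1 - rd xa, rd yb, rd (1099511627776 - xa - ya)] := by
  have hN := LL1_le hin hya
  obtain ⟨he, hem, hm, hme, xab, xbS, yab, ybS, x1, x2, y1, y2⟩ := hin
  have hd : 2 * e ≤ rd (1099511627776 - xa - ya) := by
    rw [Nat.sub_sub]
    refine le_trans ?_ (rd_sub_ge _ _)
    rw [rd_add, rd_S]; linarith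
  refine le_trans (W_le2 hρ0 hρ1 he hem hm hme hN hd) (le_of_eq ?_)
  simp only [WE2, Ex.val, List.getD_cons_zero, List.getD_cons_succ, hs]
  norm_num

lemma leafAL_sound_aux {WE : Ex} {xa xb ya yb : ℕ} {m e : ℝ} (hin : InBox xa xb ya yb m e)
    (hW : (2 * ((1 - m) ^ 2 - e ^ 2) + (1 - (3 / 5 : ℝ) ^ 2) * e ^ 2) * LL m e 1 ≤
      WE.val [1 - rd xb, rd ya, 1 - rd xa, rd yb, rd (1099511627776 - xa - ya)])
    (hc : leafA (16, 25) (4, 75) (272, 9375) (266, 15625) (.mul (.c 4 1) (.v 8))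
    (173442547157, 173442547195) WE xa xb ya yb = true) : GoalL m e := by
  obtain ⟨M, N, E, Ph, hE0, hE, hM, hN, hPh0, hPh, check⟩ := leafA_sound enc_B35 BB35_le hin
    (fun _ => 4 * BB (3 / 5)) (by
      intro W a b c d M N E
      simp only [Ex.val, List.getD_cons_zero, List.getD_cons_succ]
      norm_num) hc
  obtain ⟨he, hem, hm, hme, xab, xbS, yab, ybS, x1, x2, y1, y2⟩ := hin
  refine leafA_L (ρ := 3 / 5) (by norm_num) (by norm_num) he hem hm hme hE0 hE hM hN hPh0 hPh hW ?_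
  refine le_trans check (le_of_eq ?_)
  norm_num

lemma leafA0_sound_aux {WE : Ex} {xa xb ya yb : ℕ} {m e : ℝ} (hin : InBox xa xb ya yb m e)
    (hW : (2 * ((1 - m) ^ 2 - e ^ 2) + (1 - (0 : ℝ) ^ 2) * e ^ 2) * LL m e 1 ≤
      WE.val [1 - rd xb, rd ya, 1 - rd xa, rd yb, rd (1099511627776 - xa - ya)])
    (hc : leafA (1, 1) (1, 12) (1, 30) (1, 56)
    (.add (.sub (.mul (.c 4 1) (.v 8)) (.c 276 10000)) (.mul (.c 812 10000)
      (.sub (.c 1 1) (.mul (.v 7) (.v 7)))))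
    (219954201123, 219954201132) WE xa xb ya yb = true) : Goal0 m e := by
  obtain ⟨M, N, E, Ph, hE0, hE, hM, hN, hPh0, hPh, check⟩ := leafA_sound enc_B0
    (by linarith [Real.log_two_lt_d9]) hin
    (fun E => 4 * (log 2 - 1 / 2 + 69 / 10000) - 276 / 10000 + 812 / 10000 * (1 - E * E)) (by
      intro W a b c d M N E
      simp only [Ex.val, List.getD_cons_zero, List.getD_cons_succ]
      norm_num) hc
  obtain ⟨he, hem, hm, hme, xab, xbS, yab, ybS, x1, x2, y1, y2⟩ := hin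
  refine leafA_0 (M := M) (N := N) (E := E) (Ph := Ph) he hem hm hme hE0 hE hM hN hPh0
    (by norm_num) (by norm_num) hPh
    (le_trans (le_of_eq (by ring)) hW) ?_
  refine le_trans (le_of_eq ?_) (le_trans check (le_of_eq ?_))
  · ring
  · norm_num

theorem leafAL1_sound {xa xb ya yb : ℕ} {m e : ℝ} (hin : InBox xa xb ya yb m e)
    (hc : leafAL (WE1 (16, 25)) xa xb ya yb = true) : GoalL m e := by
  unfold leafAL at hc
  rw [Bool.and_eq_true] at hc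
  have hya : 1 ≤ ya := Nat.le_of_ble_eq_true hc.1
  exact leafAL_sound_aux hin (WE1_ok (ρ := 3 / 5) (by norm_num) (by norm_num) (by norm_num) hin hya) hc.2

theorem leafAL2_sound {xa xb ya yb : ℕ} {m e : ℝ} (hin : InBox xa xb ya yb m e)
    (hc : leafAL (WE2 (16, 25)) xa xb ya yb = true) : GoalL m e := by
  unfold leafAL at hc
  rw [Bool.and_eq_true] at hc
  have hya : 1 ≤ ya := Nat.le_of_ble_eq_true hc.1
  exact leafAL_sound_aux hin (WE2_ok (ρ := 3 / 5) (by norm_num) (by norm_num) (by norm_num) hin hya) hc.2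

theorem leafA01_sound {xa xb ya yb : ℕ} {m e : ℝ} (hin : InBox xa xb ya yb m e)
    (hc : leafA0 (WE1 (1, 1)) xa xb ya yb = true) : Goal0 m e := by
  unfold leafA0 at hc
  rw [Bool.and_eq_true] at hc
  have hya : 1 ≤ ya := Nat.le_of_ble_eq_true hc.1
  exact leafA0_sound_aux hin (WE1_ok (ρ := 0) (by norm_num) (by norm_num) (by norm_num) hin hya) hc.2

theorem leafA02_sound {xa xb ya yb : ℕ} {m e : ℝ} (hin : InBox xa xb ya yb m e)
    (hc : leafA0 (WE2 (1, 1)) xa xb ya yb = true) : Goal0 m e := by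
  unfold leafA0 at hc
  rw [Bool.and_eq_true] at hc
  have hya : 1 ≤ ya := Nat.le_of_ble_eq_true hc.1
  exact leafA0_sound_aux hin (WE2_ok (ρ := 0) (by norm_num) (by norm_num) (by norm_num) hin hya) hc.2

end P322
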