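import Vale.Agent.Lib.P322.LCheck2

/-!
P322 (Courtade-Kumar): leaf D (four corners) and leaf B.
-/

namespace P322

open Real Set

/-- evaluate and continue. -/
def letv (t : Ex) (E : List (ℕ × ℕ)) (f : ℕ × ℕ → Bool) : Bool :=
  match t.iv E with
  | some I => f I
  | none => false

lemma letv_sound {t : Ex} {e : List ℝ} {E : List (ℕ × ℕ)} {f : ℕ × ℕ → Bool}
    (h : List.Forall₂ Enc e E) (hc : letv t E f = true) : ∃ I, Enc (t.val e) I ∧ f I = true := by
  unfold letv at hc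
  split at hc
  · rename_i I hI
    exact ⟨I, t.sound e E h I hI, hc⟩
  · exact absurd hc (by simp)

def kapE : Ex := .mul (.c 9 25) (.div (.nlg (.mul (.div (.v 0) (.c 5 1)) (.div (.v 1) (.c 5 1))))
  (.nlg (.mul (.v 2) (.v 3))))

def PUE : Ex := .mul (.c 2 1) (.add (.mul (.c 16 25) (.sub (.v 1) (.mul (.c 1 2) (.mul (.v 0) (.v 0)))))
  (.mul (.mul (.c 9 25) (.v 2)) (.sub (.c 1 1) (.mul (.v 0) (.v 0)))))

def GE : Ex := .sub (.add (.mul (.v 2) (.v 0)) (.mul (.v 3) (.v 1)))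
  (.mul (.v 4) (.mul (.c 4 1) (.mul (.v 2) (.v 3))))

def hE5 (i j : ℕ) : Ex := .add (.mul (.div (.v i) (.c 5 1)) (.nlg (.div (.v i) (.c 5 1))))
  (.mul (.div (.v j) (.c 5 1)) (.nlg (.div (.v j) (.c 5 1))))

def cornerChk (κ P Gx Gy : ℕ × ℕ) (x y : ℕ) : Bool :=
  Ex.ge (.add (hE5 4 5) (hE5 6 7)) (.add (.v 1) (.mul (.v 0) (.add (.v 2) (.v 3))))
    [κ, P, Gx, Gy, (1099511627776 + 4 * x - y, 1099511627776 + 4 * x - y),
      (4398046511104 + y - 4 * x, 4398046511104 + y - 4 * x),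
      (1099511627776 + 4 * y - x, 1099511627776 + 4 * y - x),
      (4398046511104 + x - 4 * y, 4398046511104 + x - 4 * y)]

lemma rd_4S : rd 4398046511104 = 4 := by unfold rd; norm_num

lemma cornerChk_sound {κ P Gx Gy : ℕ × ℕ} {κr Pr Gxr Gyr : ℝ} {x y : ℕ} (hκ : Enc κr κ)
    (hP : Enc Pr P) (hGx : Enc Gxr Gx) (hGy : Enc Gyr Gy) (hx : x ≤ 1099511627776)
    (hy : y ≤ 1099511627776) (hc : cornerChk κ P Gx Gy x y = true) :
    Pr + κr * (Gxr + Gyr) ≤
      binEntropy ((1 - 3 / 5) / 2 + (1 + 3 / 5) / 2 * rd x - (1 - 3 / 5) / 2 * rd y) +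
      binEntropy ((1 - 3 / 5) / 2 + (1 + 3 / 5) / 2 * rd y - (1 - 3 / 5) / 2 * rd x) := by
  have h := Ex.ge_sound (e := [κr, Pr, Gxr, Gyr, rd (1099511627776 + 4 * x - y),
    rd (4398046511104 + y - 4 * x), rd (1099511627776 + 4 * y - x),
    rd (4398046511104 + x - 4 * y)]) (.cons hκ (.cons hP (.cons hGx (.cons hGy
      (.cons (enc_rd _) (.cons (enc_rd _) (.cons (enc_rd _) (.cons (enc_rd _) .nil)))))))) hc
  simp only [hE5, Ex.val, List.getD_cons_zero, List.getD_cons_succ] at h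
  refine le_trans h (le_of_eq ?_)
  have e1 : rd (1099511627776 + 4 * x - y) = 1 + 4 * rd x - rd y := by
    rw [rd_sub (by omega), rd_add, rd_S, rd_mul]; norm_num
  have e2 : rd (4398046511104 + y - 4 * x) = 4 + rd y - 4 * rd x := by
    rw [rd_sub (by omega), rd_add, rd_4S, rd_mul]; norm_num
  have e3 : rd (1099511627776 + 4 * y - x) = 1 + 4 * rd y - rd x := by
    rw [rd_sub (by omega), rd_add, rd_S, rd_mul]; norm_num
  have e4 : rd (4398046511104 + x - 4 * y) = 4 + rd x - 4 * rd y := by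
    rw [rd_sub (by omega), rd_add, rd_4S, rd_mul]; norm_num
  rw [e1, e2, e3, e4, binEntropy_eq', binEntropy_eq']
  have a1 : 1 - ((1 - 3 / 5) / 2 + (1 + 3 / 5) / 2 * rd x - (1 - 3 / 5) / 2 * rd y) =
    (4 + rd y - 4 * rd x) / 5 := by ring
  have a2 : 1 - ((1 - 3 / 5) / 2 + (1 + 3 / 5) / 2 * rd y - (1 - 3 / 5) / 2 * rd x) =
    (4 + rd x - 4 * rd y) / 5 := by ring
  have a3 : ((1 - 3 / 5) / 2 + (1 + 3 / 5) / 2 * rd x - (1 - 3 / 5) / 2 * rd y) =
    (1 + 4 * rd x - rd y) / 5 := by ring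
  have a4 : ((1 - 3 / 5) / 2 + (1 + 3 / 5) / 2 * rd y - (1 - 3 / 5) / 2 * rd x) =
    (1 + 4 * rd y - rd x) / 5 := by ring
  rw [a1, a2, a3, a4]
  have a5 : ((5 : ℕ) : ℝ) / ((1 : ℕ) : ℝ) = 5 := by norm_num
  rw [a5]
  ring

/-- leaf D. -/
def leafD (xa xb ya yb : ℕ) : Bool :=
  let p := bif Nat.ble 1 xa then (xa + xb) / 2 else 3 * xb / 8
  let q := (ya + yb) / 2
  Nat.ble 1 p && Nat.ble 1 q && Nat.ble (q + 1) 1099511627776 &&
  Nat.ble (yb + 1) 1099511627776 &&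
  letv kapE [(4398046511104 + ya - 4 * xb, 4398046511104 + ya - 4 * xb),
    (1099511627776 + 4 * ya - xb, 1099511627776 + 4 * ya - xb),
    (1099511627776 - xa, 1099511627776 - xa), (yb, yb)] (fun κ =>
  letv PUE [(ya - xb, ya - xb), (762123384780, 762123384788), (173442547157, 173442547195)] (fun P =>
  letv (.nlg (.v 0)) [(p, p)] (fun LP =>
  letv (.nlg (.v 0)) [(1099511627776 - p, 1099511627776 - p)] (fun LP' =>
  letv (.nlg (.v 0)) [(q, q)] (fun LQ =>
  letv (.nlg (.v 0)) [(1099511627776 - q, 1099511627776 - q)] (fun LQ' =>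
  letv GE [LP, LP', (xa, xa), (1099511627776 - xa, 1099511627776 - xa),
    (173442547157, 173442547195)] (fun Ga =>
  letv GE [LP, LP', (xb, xb), (1099511627776 - xb, 1099511627776 - xb),
    (173442547157, 173442547195)] (fun Gb =>
  letv GE [LQ, LQ', (ya, ya), (1099511627776 - ya, 1099511627776 - ya),
    (173442547157, 173442547195)] (fun Gc =>
  letv GE [LQ, LQ', (yb, yb), (1099511627776 - yb, 1099511627776 - yb),
    (173442547157, 173442547195)] (fun Gd =>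
  cornerChk κ P Ga Gc xa ya && cornerChk κ P Ga Gd xa yb && cornerChk κ P Gb Gc xb ya &&
    cornerChk κ P Gb Gd xb yb))))))))))

lemma GE_val (p x B : ℝ) : GE.val [- log p, - log (1 - p), x, 1 - x, B] = Gb B p x := by
  simp only [GE, Ex.val, List.getD_cons_zero, List.getD_cons_succ]
  unfold Gb
  norm_num
  left; ring

lemma nlg_val (x : ℝ) : (Ex.nlg (.v 0)).val [x] = - log x := by
  simp only [Ex.val, List.getD_cons_zero]

lemma kapE_ok {xa xb ya yb : ℕ} {m e : ℝ} (hin : InBox xa xb ya yb m e)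
    (hybS : yb + 1 ≤ 1099511627776) :
    (3 / 5) ^ 2 * (LL m e (3 / 5) / LL m e 1) ≤ kapE.val [rd (4398046511104 + ya - 4 * xb),
      rd (1099511627776 + 4 * ya - xb), rd (1099511627776 - xa), rd yb] := by
  obtain ⟨he, hem, hm, hme, xab, xbS, yab, ybS, x1, x2, y1, y2⟩ := hin
  have hxaS : xa ≤ 1099511627776 := by omega
  have hone : 0 < rd 1 := by unfold rd; positivity
  have hrx1 : rd xb ≤ 1 / 2 := by rw [← rd_half]; exact rd_le_rd xbS
  have hryb1 : rd yb < 1 := by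
    have := rd_le_rd hybS
    rw [rd_add, rd_S] at this
    linarith
  have hrxa0 := rd_nonneg xa
  have hrya0 := rd_nonneg ya
  simp only [kapE, Ex.val, List.getD_cons_zero, List.getD_cons_succ]
  have e1 : rd (4398046511104 + ya - 4 * xb) = 4 + rd ya - 4 * rd xb := by
    rw [rd_sub (by omega), rd_add, rd_4S, rd_mul]; norm_num
  have e2 : rd (1099511627776 + 4 * ya - xb) = 1 + 4 * rd ya - rd xb := by
    rw [rd_sub (by omega), rd_add, rd_S, rd_mul]; norm_num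
  rw [e1, e2, rd_one_sub hxaS]
  have a5 : ((5 : ℕ) : ℝ) / ((1 : ℕ) : ℝ) = 5 := by norm_num
  have a6 : ((9 : ℕ) : ℝ) / ((25 : ℕ) : ℝ) = (3 / 5) ^ 2 := by norm_num
  rw [a5, a6]
  apply mul_le_mul_of_nonneg_left _ (by norm_num)
  have hv0 : 0 < (4 + rd ya - 4 * rd xb) / 5 * ((1 + 4 * rd ya - rd xb) / 5) := by
    apply mul_pos <;> linarith
  have hv1 : (4 + rd ya - 4 * rd xb) / 5 * ((1 + 4 * rd ya - rd xb) / 5) ≤
      (1 - (m - 3 / 5 * e)) * (1 - (m + 3 / 5 * e)) := by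
    apply mul_le_mul
    · linarith
    · linarith
    · linarith
    · linarith
  have hN : LL m e (3 / 5) ≤ - log ((4 + rd ya - 4 * rd xb) / 5 * ((1 + 4 * rd ya - rd xb) / 5)) := by
    have e3 : LL m e (3 / 5) = - log ((1 - (m - 3 / 5 * e)) * (1 - (m + 3 / 5 * e))) := by
      unfold LL
      rw [log_mul (by linarith) (by linarith)]; ring
    rw [e3]
    have := Real.log_le_log hv0 hv1
    linarith
  have hL35 : 0 < LL m e (3 / 5) := LL_pos he hem hm (by norm_num) (by norm_num) (by linarith)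
  have hz0 : 0 < (1 - (m - e)) * (1 - m - e) := mul_pos (by linarith) (by linarith)
  have hz1 : (1 - (m - e)) * (1 - m - e) ≤ (1 - rd xa) * rd yb :=
    mul_le_mul (by linarith) y2 (by linarith) (by linarith)
  have hN1 : - log ((1 - rd xa) * rd yb) ≤ LL m e 1 := by
    rw [LL1_eq he hme]
    have := Real.log_le_log hz0 hz1
    linarith
  have hN1p : 0 < - log ((1 - rd xa) * rd yb) := by
    have hz2 : 0 < (1 - rd xa) * rd yb := lt_of_lt_of_le hz0 hz1
    have hyb0 := rd_nonneg yb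
    have h3 : (1 - rd xa) * rd yb ≤ 1 * rd yb := mul_le_mul_of_nonneg_right (by linarith) hyb0
    have := Real.log_neg hz2 (by linarith)
    linarith
  exact div_le_div₀ (le_trans hL35.le hN) hN hN1p hN1

lemma PUE_ok {xa xb ya yb : ℕ} {m e : ℝ} (hin : InBox xa xb ya yb m e) :
    2 * psi (3 / 5) m ≤ PUE.val [rd (ya - xb), log 2, BB (3 / 5)] := by
  obtain ⟨he, hem, hm, hme, xab, xbS, yab, ybS, x1, x2, y1, y2⟩ := hin
  simp only [PUE, Ex.val, List.getD_cons_zero, List.getD_cons_succ]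
  have hd : rd (ya - xb) ≤ 1 - 2 * m := rd_sub_le (by linarith) (by linarith)
  have h := psi_le_quad (ρ := 3 / 5) (m := m) (by norm_num) (by norm_num) (by linarith) hm
    (rd_nonneg (ya - xb)) hd
  have h2 := mul_le_mul_of_nonneg_left h (by norm_num : (0 : ℝ) ≤ 2)
  refine le_trans h2 (le_of_eq ?_)
  norm_num
  ring

theorem leafD_sound {xa xb ya yb : ℕ} {m e : ℝ} (hin : InBox xa xb ya yb m e)
    (hc : leafD xa xb ya yb = true) : GoalL m e := by
  have hin' := hin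
  obtain ⟨he, hem, hm, hme, xab, xbS, yab, ybS, x1, x2, y1, y2⟩ := hin
  have hB := enc_B35
  unfold leafD at hc
  simp only at hc
  set p := bif Nat.ble 1 xa then (xa + xb) / 2 else 3 * xb / 8 with hp
  set q := (ya + yb) / 2 with hq
  rw [Bool.and_eq_true, Bool.and_eq_true, Bool.and_eq_true, Bool.and_eq_true] at hc
  obtain ⟨⟨⟨⟨hp1, hq1⟩, hqS⟩, hybS⟩, hc⟩ := hc
  have hp1 : 1 ≤ p := Nat.le_of_ble_eq_true hp1
  have hq1 : 1 ≤ q := Nat.le_of_ble_eq_true hq1
  have hqS : q + 1 ≤ 1099511627776 := Nat.le_of_ble_eq_true hqS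
  have hybS : yb + 1 ≤ 1099511627776 := Nat.le_of_ble_eq_true hybS
  have hpS : p + 1 ≤ 1099511627776 := by
    rw [hp]; cases Nat.ble 1 xa <;> simp <;> omega
  have hxaS : xa ≤ 1099511627776 := by omega
  have hxbS : xb ≤ 1099511627776 := by omega
  have hyaS : ya ≤ 1099511627776 := by omega
  obtain ⟨κ, hκ, hc⟩ := letv_sound (.cons (enc_rd _) (.cons (enc_rd _) (.cons (enc_rd _)
    (.cons (enc_rd _) .nil)))) hc
  obtain ⟨P, hP, hc⟩ := letv_sound (.cons (enc_rd _) (.cons enc_log2 (.cons hB .nil))) hc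
  obtain ⟨LP, hLP, hc⟩ := letv_sound (.cons (enc_rd _) .nil) hc
  obtain ⟨LP', hLP', hc⟩ := letv_sound (.cons (enc_rd _) .nil) hc
  obtain ⟨LQ, hLQ, hc⟩ := letv_sound (.cons (enc_rd _) .nil) hc
  obtain ⟨LQ', hLQ', hc⟩ := letv_sound (.cons (enc_rd _) .nil) hc
  rw [nlg_val] at hLP hLP' hLQ hLQ'
  rw [rd_one_sub (by omega)] at hLP' hLQ'
  obtain ⟨Ga, hGa, hc⟩ := letv_sound (.cons hLP (.cons hLP' (.cons (enc_rd _) (.cons (enc_rd _)
    (.cons hB .nil))))) hc
  obtain ⟨Gbb, hGb, hc⟩ := letv_sound (.cons hLP (.cons hLP' (.cons (enc_rd _) (.cons (enc_rd _)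
    (.cons hB .nil))))) hc
  obtain ⟨Gc, hGc, hc⟩ := letv_sound (.cons hLQ (.cons hLQ' (.cons (enc_rd _) (.cons (enc_rd _)
    (.cons hB .nil))))) hc
  obtain ⟨Gd, hGd, hc⟩ := letv_sound (.cons hLQ (.cons hLQ' (.cons (enc_rd _) (.cons (enc_rd _)
    (.cons hB .nil))))) hc
  rw [rd_one_sub (by omega), GE_val] at hGa hGb hGc hGd
  rw [Bool.and_eq_true, Bool.and_eq_true, Bool.and_eq_true] at hc
  obtain ⟨⟨⟨k1, k2⟩, k3⟩, k4⟩ := hc
  have c11 := cornerChk_sound hκ hP hGa hGc hxaS hyaS k1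
  have c12 := cornerChk_sound hκ hP hGa hGd hxaS ybS k2
  have c21 := cornerChk_sound hκ hP hGb hGc hxbS hyaS k3
  have c22 := cornerChk_sound hκ hP hGb hGd hxbS ybS k4
  have hrp0 : 0 < rd p := by unfold rd; positivity
  have hrq0 : 0 < rd q := by unfold rd; positivity
  have hone : 0 < rd 1 := by unfold rd; positivity
  have hrp1 : rd p < 1 := by
    have := rd_le_rd hpS
    rw [rd_add, rd_S] at this
    linarith
  have hrq1 : rd q < 1 := by
    have := rd_le_rd hqS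
    rw [rd_add, rd_S] at this
    linarith
  have hrx1 : rd xb ≤ 1 / 2 := by rw [← rd_half]; exact rd_le_rd xbS
  have hryb1 : rd yb < 1 := by
    have := rd_le_rd hybS
    rw [rd_add, rd_S] at this
    linarith
  have hrxa0 := rd_nonneg xa
  have hrya0 := rd_nonneg ya
  refine leafD_L (ρ := 3 / 5) (p := rd p) (p' := rd q) (by norm_num) (by norm_num) he hem hme
    hrp0 hrp1 hrq0 hrq1 (kapE_ok hin' hybS) (PUE_ok hin') hrxa0 (by linarith) hrya0 hryb1.le x1 x2 y1 y2 hm c11 c12 c21 c22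

end P322
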