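import Vale.Agent.Lib.P322.LCheck3

/-!
P322 (Courtade-Kumar): leaf B at `ρ = 0`.
-/

namespace P322

open Real Set

/-- entropy of `v i / 2`, with `v j / 2` the complement. -/
def hE2 (i j : ℕ) : Ex := .add (.mul (.mul (.c 1 2) (.v i)) (.nlg (.mul (.c 1 2) (.v i))))
  (.mul (.mul (.c 1 2) (.v j)) (.nlg (.mul (.c 1 2) (.v j))))

def bA : Ex := .sub (hE2 0 1) (.add (.add (.mul (.c 1 2) (.div (.mul (.v 8) (.v 8))
    (.sub (.c 1 1) (.mul (.v 2) (.v 2)))))
  (.mul (.sub (.v 10) (.c 69 10000)) (.sub (.c 1 1) (.mul (.v 3) (.v 3)))))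
  (.add (.mul (.c 69 10000) (.mul (.c 2 1) (.add (.mul (.v 4) (.v 5)) (.mul (.v 6) (.v 7)))))
    (.mul (.c 203 10000) (.mul (.mul (.v 8) (.v 8)) (.sub (.c 1 1) (.mul (.v 9) (.v 9)))))))

def bC : Ex := .sub (.mul (.c 1 2) (.add (hE 4 5) (hE 6 7)))
  (.mul (.v 10) (.mul (.c 2 1) (.add (.mul (.v 11) (.v 12)) (.mul (.v 13) (.v 14)))))

def bN1 : Ex := .nlg (.mul (.v 12) (.v 6))

def bN0 : Ex := .mul (.c 2 1) (.nlg (.mul (.c 1 2) (.v 15)))

/-- leaf B. -/
def leafB (xa xb ya yb : ℕ) : Bool :=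
  let ml := 1099511627776 + xa - yb
  let ml' := 1099511627776 + yb - xa
  let nl := bif Nat.ble xb ya then 1099511627776 + ya - xb else 1099511627776
  Nat.ble yb 549755813888 &&
  Ex.ge (.mul bA bN1) (.mul bN0 bC)
    [(ml, ml), (ml', ml'), (yb - xa, yb - xa), (ya - xb, ya - xb), (xb, xb),
      (1099511627776 - xb, 1099511627776 - xb), (yb, yb), (1099511627776 - yb, 1099511627776 - yb),
      (1099511627776 - xa - ya, 1099511627776 - xa - ya),
      (1099511627776 - xb - yb, 1099511627776 - xb - yb), (219954201123, 219954201132),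
      (xa, xa), (1099511627776 - xa, 1099511627776 - xa), (ya, ya),
      (1099511627776 - ya, 1099511627776 - ya), (nl, nl)]

lemma leafB_geo {xa xb ya yb : ℕ} {m e : ℝ} (hin : InBox xa xb ya yb m e)
    (hyb2 : yb ≤ 549755813888) :
    xa ≤ yb ∧ rd xb ≤ 1 / 2 ∧ rd yb ≤ 1 / 2 ∧ 0 ≤ 1 / 2 * (1 + rd xa - rd yb) ∧
    1 / 2 * (1 + rd xa - rd yb) ≤ m ∧ 1 - 2 * m ≤ rd (yb - xa) ∧ (rd (yb - xa)) ^ 2 < 1 ∧
    rd (ya - xb) ≤ 1 - 2 * m ∧ 2 * e ≤ rd (1099511627776 - xa - ya) ∧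
    rd (1099511627776 - xb - yb) ≤ 2 * e ∧ 0 < - log ((1 - rd xa) * rd yb) := by
  obtain ⟨he, hem, hm, hme, xab, xbS, yab, ybS, x1, x2, y1, y2⟩ := hin
  have hxy : xa ≤ yb := by
    by_contra hcon
    have h1 := rd_le_rd (by omega : yb + 1 ≤ xa)
    rw [rd_add] at h1
    have hone : 0 < rd 1 := by unfold rd; positivity
    linarith
  have hrx1 : rd xb ≤ 1 / 2 := by rw [← rd_half]; exact rd_le_rd xbS
  have hry1 : rd yb ≤ 1 / 2 := by rw [← rd_half]; exact rd_le_rd hyb2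
  have hrxa0 := rd_nonneg xa
  have hyb0 := rd_nonneg yb
  have e7 : rd (yb - xa) = rd yb - rd xa := rd_sub hxy
  have hN1p : 0 < - log ((1 - rd xa) * rd yb) := by
    have hz0 : 0 < (1 - (m - e)) * (1 - m - e) := mul_pos (by linarith) (by linarith)
    have hz1 : (1 - (m - e)) * (1 - m - e) ≤ (1 - rd xa) * rd yb :=
      mul_le_mul (by linarith) y2 (by linarith) (by linarith)
    have hz2 : 0 < (1 - rd xa) * rd yb := lt_of_lt_of_le hz0 hz1
    have h3 : (1 - rd xa) * rd yb ≤ 1 * rd yb := mul_le_mul_of_nonneg_right (by linarith) hyb0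
    have := Real.log_neg hz2 (by linarith)
    linarith
  refine ⟨hxy, hrx1, hry1, by linarith, by linarith, by rw [e7]; linarith, ?_,
    rd_sub_le (by linarith) (by linarith), ?_, ?_, hN1p⟩
  · rw [e7]
    have h1 : 0 ≤ rd yb - rd xa := by linarith
    have h2 : rd yb - rd xa ≤ 1 / 2 := by linarith
    nlinarith
  · rw [Nat.sub_sub]
    refine le_trans ?_ (rd_sub_ge _ _)
    rw [rd_add, rd_S]; linarith
  · rw [Nat.sub_sub]
    apply rd_sub_le (by linarith)
    rw [rd_add, rd_S]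
    linarith

lemma leafB_nl {xa xb ya yb : ℕ} {m e : ℝ} (hin : InBox xa xb ya yb m e) :
    rd (bif Nat.ble xb ya then 1099511627776 + ya - xb else 1099511627776) / 2 ≤ 1 - m ∧
    0 < rd (bif Nat.ble xb ya then 1099511627776 + ya - xb else 1099511627776) / 2 := by
  obtain ⟨he, hem, hm, hme, xab, xbS, yab, ybS, x1, x2, y1, y2⟩ := hin
  cases hb : Nat.ble xb ya with
  | true =>
    simp only [cond_true]
    have h1 : xb ≤ ya := Nat.le_of_ble_eq_true hb
    have h2 := rd_le_rd h1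
    rw [rd_sub (by omega), rd_add, rd_S]
    constructor <;> linarith
  | false =>
    simp only [cond_false, rd_S]
    constructor <;> linarith

theorem leafB_sound {xa xb ya yb : ℕ} {m e : ℝ} (hin : InBox xa xb ya yb m e)
    (hc : leafB xa xb ya yb = true) : Goal0 m e := by
  unfold leafB at hc
  simp only at hc
  have hnl := leafB_nl hin
  set nl := bif Nat.ble xb ya then 1099511627776 + ya - xb else 1099511627776
  rw [Bool.and_eq_true] at hc
  obtain ⟨hyb2, hc⟩ := hc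
  have hyb2 : yb ≤ 549755813888 := Nat.le_of_ble_eq_true hyb2
  obtain ⟨g1, g2, g3, g4, g5, g6, g7, g8, g9, g10, g11⟩ := leafB_geo hin hyb2
  obtain ⟨he, hem, hm, hme, xab, xbS, yab, ybS, x1, x2, y1, y2⟩ := hin
  have hge := Ex.ge_sound (.cons (enc_rd _) (.cons (enc_rd _) (.cons (enc_rd _)
    (.cons (enc_rd _) (.cons (enc_rd _) (.cons (enc_rd _) (.cons (enc_rd _) (.cons (enc_rd _)
    (.cons (enc_rd _) (.cons (enc_rd _) (.cons enc_B0 (.cons (enc_rd _) (.cons (enc_rd _)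
    (.cons (enc_rd _) (.cons (enc_rd _) (.cons (enc_rd _) .nil)))))))))))))))) hc
  simp only [bA, bC, bN1, bN0, hE2, hE, Ex.val, List.getD_cons_zero, List.getD_cons_succ] at hge
  have c1 : ((1 : ℕ) : ℝ) / ((2 : ℕ) : ℝ) = 1 / 2 := by norm_num
  have c2 : ((1 : ℕ) : ℝ) / ((1 : ℕ) : ℝ) = 1 := by norm_num
  have c3 : ((2 : ℕ) : ℝ) / ((1 : ℕ) : ℝ) = 2 := by norm_num
  have c4 : ((69 : ℕ) : ℝ) / ((10000 : ℕ) : ℝ) = 69 / 10000 := by norm_num
  have c5 : ((203 : ℕ) : ℝ) / ((10000 : ℕ) : ℝ) = 203 / 10000 := by norm_num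
  rw [c1, c2, c3, c4, c5] at hge
  have e1 : rd (1099511627776 + xa - yb) = 1 + rd xa - rd yb := by
    rw [rd_sub (by omega), rd_add, rd_S]
  have e2 : rd (1099511627776 + yb - xa) = 1 + rd yb - rd xa := by
    rw [rd_sub (by omega), rd_add, rd_S]
  have e3 : rd (1099511627776 - xb) = 1 - rd xb := rd_one_sub (by omega)
  have e4 : rd (1099511627776 - yb) = 1 - rd yb := rd_one_sub (by omega)
  have e5 : rd (1099511627776 - xa) = 1 - rd xa := rd_one_sub (by omega)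
  have e6 : rd (1099511627776 - ya) = 1 - rd ya := rd_one_sub (by omega)
  have e8 : 1 / 2 * (1 + rd yb - rd xa) = 1 - 1 / 2 * (1 + rd xa - rd yb) := by ring
  rw [e1, e2, e3, e4, e5, e6, e8] at hge
  clear hc
  refine leafB_0 (xa := rd xa) (xb := rd xb) (ya := rd ya) (yb := rd yb)
    (ml := 1 / 2 * (1 + rd xa - rd yb)) (nl := rd nl / 2) (D := rd (yb - xa)) (dm := rd (ya - xb))
    (d := rd (1099511627776 - xa - ya)) (E := rd (1099511627776 - xb - yb))
    (N0 := 2 * (- log (1 / 2 * rd nl))) (N1 := - log ((1 - rd xa) * rd yb))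
    he hem hm hme (by norm_num) (by norm_num) (by norm_num) g2 g3 x1 x2 y1 y2
    g4 g5 hnl.2 hnl.1 g6 g7 (rd_nonneg _) g8 g9 (rd_nonneg _) g10 ?_ le_rfl g11 (le_of_eq rfl)
    (le_of_eq rfl) ?_
  · have : rd nl / 2 = 1 / 2 * rd nl := by ring
    rw [this]; exact le_of_eq (by ring)
  · rw [binEntropy_eq', binEntropy_eq', binEntropy_eq']
    refine le_trans (le_of_eq ?_) (le_trans hge (le_of_eq ?_))
    · ring
    · ring

end P322
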