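import Vale.Agent.Lib.P322.KapL

/-!
P322 (Courtade-Kumar): the chord lemma. The inequality (L) at `ρ0` and one inequality at `ρ = 0`
give (L) for all `0 < ρ ≤ ρ0`.
-/

namespace P322

open Real Set

/-- average of the entropy. -/
noncomputable def hb (m e : ℝ) : ℝ := (binEntropy (m - e) + binEntropy (m + e)) / 2

/-- (L) in normalized form. -/
lemma gap_iff {ρ m e : ℝ} (h0 : 0 < ρ) (he0 : 0 < e) (hem : e ≤ m) (hme : m + e < 1) :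
    psi ρ m ≤ Lval ρ m e ((psi ρ (m - e) + psi ρ (m + e)) / 2) ↔
    LL m e ρ / LL m e 1 * (hb m e - (log 2 - kap ρ / ρ ^ 2) * (4 * m * (1 - m) - 4 * e ^ 2)) ≤
      binEntropy m - (log 2 - kap ρ / ρ ^ 2) * (4 * m * (1 - m)) -
        (m * kap (ρ * e / m) + (1 - m) * kap (ρ * e / (1 - m))) / ρ ^ 2 := by
  have hm0 : 0 < m := by linarith
  have hρ2 : 0 < ρ ^ 2 := by positivity
  have hk := K_eq (e := e) hm0 (by linarith : m < 1) ρ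
  have hH : binEntropy ((1 - ρ) / 2) = log 2 - kap ρ := by unfold kap; ring
  unfold kk at hk
  unfold Lval
  have hk' : (binEntropy (m - ρ * e) + binEntropy (m + ρ * e)) / 2 = binEntropy m -
    (m * kap (ρ * e / m) + (1 - m) * kap (ρ * e / (1 - m))) := by linarith
  rw [hk']
  unfold psi hb
  rw [hH]
  set η := LL m e ρ / LL m e 1
  set K := m * kap (ρ * e / m) + (1 - m) * kap (ρ * e / (1 - m))
  rw [← sub_nonneg, ← sub_nonneg (a := binEntropy m - (log 2 - kap ρ / ρ ^ 2) * (4 * m * (1 - m)) -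
        K / ρ ^ 2)]
  have e1 : (binEntropy m - K -
      η * ((binEntropy (m - e) + binEntropy (m + e)) / 2 -
        ((1 - ρ ^ 2) * binEntropy (m - e) + (log 2 - kap ρ - (1 - ρ ^ 2) * log 2) * (4 * (m - e) * (1 - (m - e))) +
          ((1 - ρ ^ 2) * binEntropy (m + e) + (log 2 - kap ρ - (1 - ρ ^ 2) * log 2) * (4 * (m + e) * (1 - (m + e))))) / 2) -
      ((1 - ρ ^ 2) * binEntropy m + (log 2 - kap ρ - (1 - ρ ^ 2) * log 2) * (4 * m * (1 - m)))) =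
      ρ ^ 2 * (binEntropy m - (log 2 - kap ρ / ρ ^ 2) * (4 * m * (1 - m)) - K / ρ ^ 2 -
        η * ((binEntropy (m - e) + binEntropy (m + e)) / 2 -
          (log 2 - kap ρ / ρ ^ 2) * (4 * m * (1 - m) - 4 * e ^ 2))) := by
    field_simp
    ring
  rw [e1]
  constructor
  · intro h
    exact nonneg_of_mul_nonneg_right h hρ2
  · intro h
    exact mul_nonneg hρ2.le h

lemma LL_eq {m e ρ : ℝ} (h0 : 0 ≤ ρ * e) (h : ρ * e < 1 - m) :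
    LL m e ρ = - log ((1 - m) ^ 2 - ρ ^ 2 * e ^ 2) := by
  unfold LL
  have e1 : (1 - m) ^ 2 - ρ ^ 2 * e ^ 2 = (1 - (m - ρ * e)) * (1 - (m + ρ * e)) := by ring
  rw [e1, log_mul (by linarith) (by linarith)]
  ring

lemma LL_chord {m e ρ ρ0 x : ℝ} (he0 : 0 ≤ e) (hρ : 0 ≤ ρ) (hρ0 : 0 ≤ ρ0) (hx0 : 0 ≤ x) (hx1 : x ≤ 1)
    (hx : ρ ^ 2 = x * ρ0 ^ 2) (hρ1 : ρ ≤ 1) (hρ01 : ρ0 ≤ 1) (hme : m + e < 1) :
    LL m e ρ ≤ (1 - x) * LL m e 0 + x * LL m e ρ0 := by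
  have a1 : ρ * e < 1 - m := by nlinarith
  have a2 : ρ0 * e < 1 - m := by nlinarith
  rw [LL_eq (by positivity) a1, LL_eq (by simp) (by linarith), LL_eq (by positivity) a2]
  have hconc := strictConcaveOn_log_Ioi.concaveOn
  have b1 : (0 : ℝ) < (1 - m) ^ 2 := by
    have : 0 < 1 - m := by linarith
    positivity
  have b2 : (0 : ℝ) < (1 - m) ^ 2 - ρ0 ^ 2 * e ^ 2 := by
    have : 0 ≤ ρ0 * e := by positivity
    nlinarith
  have h := hconc.2 (x := (1 - m) ^ 2) (y := (1 - m) ^ 2 - ρ0 ^ 2 * e ^ 2) b1 b2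
    (by linarith : 0 ≤ 1 - x) hx0 (by ring)
  simp only [smul_eq_mul] at h
  have e1 : (1 - x) * (1 - m) ^ 2 + x * ((1 - m) ^ 2 - ρ0 ^ 2 * e ^ 2) = (1 - m) ^ 2 - ρ ^ 2 * e ^ 2 := by
    rw [hx]; ring
  have e2 : (1 - m) ^ 2 - 0 ^ 2 * e ^ 2 = (1 - m) ^ 2 := by ring
  rw [e1] at h
  rw [e2]
  linarith

lemma LL_mono {m e ρ ρ' : ℝ} (he0 : 0 ≤ e) (hρ : 0 ≤ ρ) (hle : ρ ≤ ρ') (hρ1 : ρ' ≤ 1)
    (hme : m + e < 1) : LL m e ρ ≤ LL m e ρ' := by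
  have a1 : ρ * e < 1 - m := by nlinarith
  have a2 : ρ' * e < 1 - m := by nlinarith
  have hρ' : 0 ≤ ρ' := le_trans hρ hle
  rw [LL_eq (by positivity) a1, LL_eq (by positivity) a2]
  have b2 : (0 : ℝ) < (1 - m) ^ 2 - ρ' ^ 2 * e ^ 2 := by
    have : 0 ≤ ρ' * e := by positivity
    nlinarith
  have : ρ ^ 2 ≤ ρ' ^ 2 := by nlinarith
  have h := Real.log_le_log b2 (by nlinarith [sq_nonneg e] : (1 - m) ^ 2 - ρ' ^ 2 * e ^ 2 ≤
    (1 - m) ^ 2 - ρ ^ 2 * e ^ 2)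
  linarith

/-- termwise estimate. -/
lemma term_bound {x P η0 η1 qb Z g : ℝ} {j : ℕ} (hj : 1 ≤ j) (hx0 : 0 ≤ x) (hx1 : x ≤ 1)
    (h01 : η0 ≤ η1) (hη0 : η0 ≤ 1) (hqb : 0 ≤ qb) (hZ : 0 ≤ Z) (hg : 0 ≤ g)
    (hP : P ≤ qb + j * Z) :
    -((1 - x) * (g * ((j : ℝ) - 1)) * ((1 - η0) * qb + j * Z)) ≤
      g * x ^ j * (P - ((1 - x) * η0 + x * η1) * qb) - x * (g * (P - η1 * qb)) := by
  obtain ⟨k, rfl⟩ : ∃ k, j = k + 1 := ⟨j - 1, by omega⟩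
  set y := x ^ (k + 1) with hy
  have hy0 : 0 ≤ y := by positivity
  have hyx : y ≤ x := by
    rw [hy, pow_succ]
    have := pow_le_one₀ hx0 hx1 (n := k)
    nlinarith
  have hb : x - y ≤ (1 - x) * k := by
    have h := one_add_mul_le_pow (a := x - 1) (by linarith) k
    have e : 1 + (x - 1) = x := by ring
    rw [e] at h
    rw [hy, pow_succ]
    have h2 : x ^ k ≤ 1 := pow_le_one₀ hx0 hx1
    have h3 : (1 : ℝ) - x ^ k ≤ (1 - x) * k := by linarith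
    have h4 : x * (1 - x ^ k) ≤ 1 - x ^ k := by nlinarith
    nlinarith
  have hy1 : y ≤ 1 := le_trans hyx hx1
  push_cast
  push_cast at hP
  have hk : (k : ℝ) + 1 - 1 = k := by ring
  rw [hk]
  have hD : 0 ≤ (1 - η0) * qb + ((k : ℝ) + 1) * Z := by
    have : 0 ≤ (1 - η0) * qb := mul_nonneg (by linarith) hqb
    positivity
  have s1 : 0 ≤ (η1 - η0) * (x * (1 - y)) * qb :=
    mul_nonneg (mul_nonneg (by linarith) (mul_nonneg hx0 (by linarith))) hqb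
  have s2 : (x - y) * (P - η0 * qb) ≤ (x - y) * ((1 - η0) * qb + ((k : ℝ) + 1) * Z) := by
    apply mul_le_mul_of_nonneg_left _ (by linarith)
    linarith
  have s3 : (x - y) * ((1 - η0) * qb + ((k : ℝ) + 1) * Z) ≤
      (1 - x) * k * ((1 - η0) * qb + ((k : ℝ) + 1) * Z) := mul_le_mul_of_nonneg_right hb hD
  have s4 : -((1 - x) * k * ((1 - η0) * qb + ((k : ℝ) + 1) * Z)) ≤
      y * (P - ((1 - x) * η0 + x * η1) * qb) - x * (P - η1 * qb) := by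
    have : y * (P - ((1 - x) * η0 + x * η1) * qb) - x * (P - η1 * qb) =
      -((x - y) * (P - η0 * qb)) + (η1 - η0) * (x * (1 - y)) * qb := by ring
    rw [this]; linarith
  have s5 := mul_le_mul_of_nonneg_left s4 hg
  refine le_trans (le_of_eq ?_) (le_trans s5 (le_of_eq ?_))
  · ring
  · ring

lemma Mo_le_bound {m e : ℝ} (hm0 : 0 < m) (hm1 : m < 1) (he0 : 0 ≤ e) (he1 : 2 * e ≤ 1) (j : ℕ) :
    4 * m * (1 - m) - Mo m e j ≤ (4 * m * (1 - m) - 4 * e ^ 2) + j * (4 * e ^ 2 * (1 - 4 * e ^ 2)) := by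
  have h := Mo_ge hm0 hm1 he0 j
  have h4 : 0 ≤ 4 * e ^ 2 := by positivity
  have e41 : 4 * e ^ 2 ≤ 1 := by nlinarith
  have e1 : (2 * e) ^ (2 * j + 2) = 4 * e ^ 2 * (4 * e ^ 2) ^ j := by
    rw [pow_add, pow_mul]
    have : (2 * e) ^ 2 = 4 * e ^ 2 := by ring
    rw [this]; ring
  have h2 := one_add_mul_le_pow (a := 4 * e ^ 2 - 1) (by linarith) j
  have e2 : 1 + (4 * e ^ 2 - 1) = 4 * e ^ 2 := by ring
  rw [e2] at h2
  have h3 : 4 * e ^ 2 * (1 - (4 * e ^ 2) ^ j) ≤ 4 * e ^ 2 * (j * (1 - 4 * e ^ 2)) := by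
    apply mul_le_mul_of_nonneg_left _ h4
    linarith
  rw [e1] at h
  nlinarith

lemma qb_nonneg {m e : ℝ} (he0 : 0 < e) (hem : e ≤ m) (hm : m ≤ 1 / 2) :
    0 ≤ 4 * m * (1 - m) - 4 * e ^ 2 := by
  have h1 : e ^ 2 ≤ m ^ 2 := by nlinarith
  have h2 : m ^ 2 ≤ m * (1 - m) := by nlinarith
  linarith

lemma Z_nonneg {m e : ℝ} (he0 : 0 < e) (hem : e ≤ m) (hm : m ≤ 1 / 2) :
    0 ≤ 4 * e ^ 2 * (1 - 4 * e ^ 2) := by
  have h1 : 4 * e ^ 2 ≤ 1 := by nlinarith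
  exact mul_nonneg (by positivity) (by linarith)

lemma two_mul_le_ent {p : ℝ} (hp0 : 0 ≤ p) (hp1 : p < 1) : 2 * p * (1 - p) ≤ binEntropy p := by
  rcases hp0.eq_or_lt with h | h
  · rw [← h]; simp
  · rw [binEntropy_eq']
    have l1 := Real.log_le_sub_one_of_pos h
    have l2 := Real.log_le_sub_one_of_pos (by linarith : 0 < 1 - p)
    nlinarith

lemma tail_term {x r0 η0 qb Z : ℝ} (hx1 : x ≤ 1) (hr0 : 0 ≤ r0) (hη0 : η0 ≤ 1) (hqb : 0 ≤ qb)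
    (hZ : 0 ≤ Z) (j : ℕ) :
    -((1 - x) * r0 ^ 4 * ((1 - η0) * qb / 30 + Z / 4)) * r0 ^ j ≤
      -((1 - x) * (mu (j + 4) * r0 ^ (j + 4) * (((j + 4 : ℕ) : ℝ) - 1)) *
        ((1 - η0) * qb + ((j + 4 : ℕ) : ℝ) * Z)) := by
  have hmu1 : mu (j + 4) * (((j + 4 : ℕ) : ℝ) - 1) ≤ 1 / 30 := by
    unfold mu
    push_cast
    rw [div_mul_eq_mul_div, div_le_div_iff₀ (by positivity) (by norm_num)]
    nlinarith [Nat.cast_nonneg (α := ℝ) j]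
  have hmu2 : mu (j + 4) * (((j + 4 : ℕ) : ℝ) - 1) * ((j + 4 : ℕ) : ℝ) ≤ 1 / 4 := by
    unfold mu
    push_cast
    rw [div_mul_eq_mul_div, div_mul_eq_mul_div, div_le_div_iff₀ (by positivity) (by norm_num)]
    nlinarith [Nat.cast_nonneg (α := ℝ) j]
  have hX : 0 ≤ (1 - η0) * qb := mul_nonneg (by linarith) hqb
  have g1 := mul_le_mul_of_nonneg_right hmu1 hX
  have g2 := mul_le_mul_of_nonneg_right hmu2 hZ
  have hw : 0 ≤ (1 - x) * r0 ^ (j + 4) := mul_nonneg (by linarith) (by positivity)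
  have g3 := mul_le_mul_of_nonneg_left (add_le_add g1 g2) hw
  have e5 : r0 ^ (j + 4) = r0 ^ 4 * r0 ^ j := by ring
  rw [e5] at g3 ⊢
  linarith

lemma chord_arith {l a c q qb Z η0 η1 x r0 S S0 KM KM0 M0 ES ES1 T0 T1 T2 T3 U : ℝ}
    (h1x : 0 ≤ 1 - x) (hx0 : 0 ≤ x) (hr01 : r0 < 1) (hX : 0 ≤ (1 - η0) * qb) (hZ0 : 0 ≤ Z)
    (hES : r0 ^ 2 / 30 + 2 * r0 ^ 3 / 56 + r0 ^ 4 / (30 * (1 - r0)) ≤ ES)
    (hES1 : 2 * r0 ^ 2 / 30 + 6 * r0 ^ 3 / 56 + r0 ^ 4 / (4 * (1 - r0)) ≤ ES1)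
    (I1 : η1 * (c - (l - S0) * qb) ≤ a - (l - S0) * q - KM0)
    (I0 : η0 * (c - (l - 1 / 2 + ES) * qb) ≤ a - 1 / 2 * M0 - (l - 1 / 2) * q - ES * qb - ES1 * Z)
    (t0 : T0 = (1 - x) * (1 / 2 * (q - M0 - η0 * qb)))
    (t1 : 0 ≤ T1)
    (t2 : -((1 - x) * (1 / 30 * r0 ^ 2) * ((1 - η0) * qb + 2 * Z)) ≤ T2)
    (t3 : -((1 - x) * (1 / 56 * r0 ^ 3 * 2) * ((1 - η0) * qb + 3 * Z)) ≤ T3)
    (htail : -((1 - x) * r0 ^ 4 * ((1 - η0) * qb / 30 + Z / 4)) * (1 - r0)⁻¹ ≤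
      U - (T0 + T1 + T2 + T3))
    (hU : U = (q - ((1 - x) * η0 + x * η1) * qb) * S - KM - x * ((q - η1 * qb) * S0 - KM0)) :
    ((1 - x) * η0 + x * η1) * (c - (l - S) * qb) ≤ a - (l - S) * q - KM := by
  set X := (1 - η0) * qb with hXd
  have f1 := mul_le_mul_of_nonneg_right hES (mul_nonneg h1x hX)
  have f2 := mul_le_mul_of_nonneg_right hES1 (mul_nonneg h1x hZ0)
  have f3 := mul_le_mul_of_nonneg_left I0 h1x
  have f4 := mul_le_mul_of_nonneg_left I1 hx0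
  have e4 : -((1 - x) * r0 ^ 4 * (X / 30 + Z / 4)) * (1 - r0)⁻¹ =
    -(r0 ^ 4 / (30 * (1 - r0)) * ((1 - x) * X) + r0 ^ 4 / (4 * (1 - r0)) * ((1 - x) * Z)) := by
    have : (1 - r0) ≠ 0 := by linarith
    field_simp
  rw [e4] at htail
  set V := r0 ^ 4 / (30 * (1 - r0))
  set V' := r0 ^ 4 / (4 * (1 - r0))
  have g1 : (r0 ^ 2 / 30 + 2 * r0 ^ 3 / 56 + V) * ((1 - x) * X) ≤ ES * ((1 - x) * X) := f1
  have g2 : (2 * r0 ^ 2 / 30 + 6 * r0 ^ 3 / 56 + V') * ((1 - x) * Z) ≤ ES1 * ((1 - x) * Z) := f2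
  have hUlow : (1 - x) * (1 / 2 * (q - M0 - η0 * qb)) - ES * ((1 - x) * X) - ES1 * ((1 - x) * Z) ≤ U := by
    linarith
  have f3' : (1 - x) * (η0 * (c - (l - 1 / 2) * qb)) + ES * ((1 - x) * X) + ES1 * ((1 - x) * Z) ≤
      (1 - x) * (a - 1 / 2 * M0 - (l - 1 / 2) * q) := by
    rw [hXd]; linarith
  have key : a - (l - S) * q - KM - ((1 - x) * η0 + x * η1) * (c - (l - S) * qb) =
    (1 - x) * (a - l * q - η0 * (c - l * qb)) +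
    x * (a - (l - S0) * q - KM0 - η1 * (c - (l - S0) * qb)) + U := by
    rw [hU]; ring
  have f5 : 0 ≤ (1 - x) * (a - l * q - η0 * (c - l * qb)) + U := by linarith
  linarith

lemma chord_core {l a c q qb Z η0 η1 x r0 S S0 KM KM0 M0 ES ES1 : ℝ} {M : ℕ → ℝ}
    (hx0 : 0 ≤ x) (hx1 : x ≤ 1) (hr0p : 0 < r0) (hr01 : r0 < 1)
    (hη01 : η0 ≤ η1) (hη0le : η0 ≤ 1) (hqb0 : 0 ≤ qb) (hZ0 : 0 ≤ Z)
    (hM : ∀ j : ℕ, q - M j ≤ qb + j * Z) (hM0 : M 0 = M0)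
    (HS : HasSum (fun j : ℕ => mu j * (x * r0) ^ j) S) (HS0 : HasSum (fun j : ℕ => mu j * r0 ^ j) S0)
    (HK : HasSum (fun j : ℕ => mu j * (x * r0) ^ j * M j) KM)
    (HK0 : HasSum (fun j : ℕ => mu j * r0 ^ j * M j) KM0)
    (hES : r0 ^ 2 / 30 + 2 * r0 ^ 3 / 56 + r0 ^ 4 / (30 * (1 - r0)) ≤ ES)
    (hES1 : 2 * r0 ^ 2 / 30 + 6 * r0 ^ 3 / 56 + r0 ^ 4 / (4 * (1 - r0)) ≤ ES1)
    (I1 : η1 * (c - (l - S0) * qb) ≤ a - (l - S0) * q - KM0)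
    (I0 : η0 * (c - (l - 1 / 2 + ES) * qb) ≤ a - 1 / 2 * M0 - (l - 1 / 2) * q - ES * qb - ES1 * Z) :
    ((1 - x) * η0 + x * η1) * (c - (l - S) * qb) ≤ a - (l - S) * q - KM := by
  set T : ℕ → ℝ := fun j => mu j * r0 ^ j * x ^ j * (q - M j - ((1 - x) * η0 + x * η1) * qb) -
    x * (mu j * r0 ^ j * (q - M j - η1 * qb)) with hT
  have HT : HasSum T ((q - ((1 - x) * η0 + x * η1) * qb) * S - KM - x * ((q - η1 * qb) * S0 - KM0)) := by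
    have h1 := ((HS.mul_left (q - ((1 - x) * η0 + x * η1) * qb)).sub HK).sub
      (((HS0.mul_left (q - η1 * qb)).sub HK0).mul_left x)
    have e1 : T = fun j : ℕ => (q - ((1 - x) * η0 + x * η1) * qb) * (mu j * (x * r0) ^ j) -
        mu j * (x * r0) ^ j * M j - x * ((q - η1 * qb) * (mu j * r0 ^ j) - mu j * r0 ^ j * M j) := by
      funext j; simp only [hT, mul_pow]; ring
    rw [e1]; exact h1
  have hTb : ∀ j : ℕ, 1 ≤ j → -((1 - x) * (mu j * r0 ^ j * ((j : ℝ) - 1)) * ((1 - η0) * qb + j * Z)) ≤ T j := by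
    intro j hj
    have hg : 0 ≤ mu j * r0 ^ j := by have := mu_pos j; positivity
    exact term_bound (g := mu j * r0 ^ j) (P := q - M j) hj hx0 hx1 hη01 hη0le hqb0 hZ0 hg (hM j)
  have HT4 := (hasSum_nat_add_iff' 4).mpr HT
  have hgeo := (hasSum_geometric_of_lt_one hr0p.le hr01).mul_left
    (-((1 - x) * r0 ^ 4 * ((1 - η0) * qb / 30 + Z / 4)))
  have htail := hasSum_le (fun j : ℕ => le_trans (tail_term hx1 hr0p.le hη0le hqb0 hZ0 j)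
    (hTb (j + 4) (by omega))) hgeo HT4
  simp only [Finset.sum_range_succ, Finset.sum_range_zero, zero_add] at htail
  have t0 : T 0 = (1 - x) * (1 / 2 * (q - M0 - η0 * qb)) := by
    simp only [hT, mu_zero_L, pow_zero, hM0]; ring
  have t1 : 0 ≤ T 1 := by
    have := hTb 1 le_rfl
    simpa using this
  have m2 : mu 2 = 1 / 30 := by unfold mu; norm_num
  have m3 : mu 3 = 1 / 56 := by unfold mu; norm_num
  have t2 : -((1 - x) * (1 / 30 * r0 ^ 2) * ((1 - η0) * qb + 2 * Z)) ≤ T 2 := by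
    have := hTb 2 (by norm_num)
    rw [m2] at this
    push_cast at this
    refine le_trans (le_of_eq ?_) this
    ring
  have t3 : -((1 - x) * (1 / 56 * r0 ^ 3 * 2) * ((1 - η0) * qb + 3 * Z)) ≤ T 3 := by
    have := hTb 3 (by norm_num)
    rw [m3] at this
    push_cast at this
    refine le_trans (le_of_eq ?_) this
    ring
  exact chord_arith (by linarith) hx0 hr01 (mul_nonneg (by linarith) hqb0) hZ0 hES hES1 I1 I0 t0 t1 t2 t3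
    htail rfl

/-- **The chord lemma.** -/
theorem L_chord {m e ρ ρ0 ES ES1 : ℝ} (hρ : 0 < ρ) (hle : ρ ≤ ρ0) (h01 : ρ0 < 1) (he0 : 0 < e)
    (hem : e ≤ m) (hm : m ≤ 1 / 2) (hme : m + e < 1)
    (hES : (ρ0 ^ 2) ^ 2 / 30 + 2 * (ρ0 ^ 2) ^ 3 / 56 + (ρ0 ^ 2) ^ 4 / (30 * (1 - ρ0 ^ 2)) ≤ ES)
    (hES1 : 2 * (ρ0 ^ 2) ^ 2 / 30 + 6 * (ρ0 ^ 2) ^ 3 / 56 + (ρ0 ^ 2) ^ 4 / (4 * (1 - ρ0 ^ 2)) ≤ ES1)
    (I1 : psi ρ0 m ≤ Lval ρ0 m e ((psi ρ0 (m - e) + psi ρ0 (m + e)) / 2))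
    (I0 : LL m e 0 / LL m e 1 * (hb m e - (log 2 - 1 / 2 + ES) * (4 * m * (1 - m) - 4 * e ^ 2)) ≤
      binEntropy m - 1 / 2 * (e ^ 2 / (m * (1 - m))) - (log 2 - 1 / 2) * (4 * m * (1 - m))
        - ES * (4 * m * (1 - m) - 4 * e ^ 2) - ES1 * (4 * e ^ 2 * (1 - 4 * e ^ 2))) :
    psi ρ m ≤ Lval ρ m e ((psi ρ (m - e) + psi ρ (m + e)) / 2) := by
  have hρ0 : 0 < ρ0 := lt_of_lt_of_le hρ hle
  have hρ1 : ρ < 1 := lt_of_le_of_lt hle h01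
  have hm0 : 0 < m := by linarith
  have hm1 : m < 1 := by linarith
  rw [gap_iff hρ he0 hem hme]
  rw [gap_iff hρ0 he0 hem hme] at I1
  have HS := hasSum_S hρ hρ1
  have HS0 := hasSum_S hρ0 h01
  have HK := hasSum_KM hρ hρ1 hm0 hm1 he0.le hem (by linarith)
  have HK0 := hasSum_KM hρ0 h01 hm0 hm1 he0.le hem (by linarith)
  have hL1 : 0 < LL m e 1 := LL_pos he0 hem hm one_pos le_rfl (by linarith)
  have hr0p : 0 < ρ0 ^ 2 := by positivity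
  have hrr0 : ρ ^ 2 ≤ ρ0 ^ 2 := by nlinarith
  have hr01 : ρ0 ^ 2 < 1 := by nlinarith
  have hx0 : 0 ≤ ρ ^ 2 / ρ0 ^ 2 := by positivity
  have hx1 : ρ ^ 2 / ρ0 ^ 2 ≤ 1 := by rw [div_le_one hr0p]; exact hrr0
  have hrx : ρ ^ 2 = ρ ^ 2 / ρ0 ^ 2 * ρ0 ^ 2 := by field_simp
  have hchord : LL m e ρ ≤ (1 - ρ ^ 2 / ρ0 ^ 2) * LL m e 0 + ρ ^ 2 / ρ0 ^ 2 * LL m e ρ0 :=
    LL_chord he0.le hρ.le hρ0.le hx0 hx1 hrx hρ1.le h01.le hme
  have hm01 : LL m e 0 ≤ LL m e ρ0 := LL_mono he0.le le_rfl hρ0.le h01.le hme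
  have hm11 : LL m e 0 ≤ LL m e 1 := LL_mono he0.le le_rfl zero_le_one le_rfl hme
  have hqb0 : 0 ≤ 4 * m * (1 - m) - 4 * e ^ 2 := qb_nonneg he0 hem hm
  have hZ0 := Z_nonneg he0 hem hm
  -- C(r) ≥ 0
  have hC : 0 ≤ hb m e - (log 2 - kap ρ / ρ ^ 2) * (4 * m * (1 - m) - 4 * e ^ 2) := by
    have h1 := two_mul_le_ent (p := m - e) (by linarith) (by linarith)
    have h2 := two_mul_le_ent (p := m + e) (by linarith) hme
    have h3 : (4 * m * (1 - m) - 4 * e ^ 2) / 2 ≤ hb m e := by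
      unfold hb
      linarith
    have hl2 : log 2 < 1 := by linarith [Real.log_two_lt_d9]
    have h := kap_ge hρ.le hρ1.le
    have : 1 / 2 ≤ kap ρ / ρ ^ 2 := by rw [le_div_iff₀ (by positivity)]; linarith
    have h4 : (log 2 - kap ρ / ρ ^ 2) * (4 * m * (1 - m) - 4 * e ^ 2) ≤
      1 / 2 * (4 * m * (1 - m) - 4 * e ^ 2) := mul_le_mul_of_nonneg_right (by linarith) hqb0
    linarith
  set x := ρ ^ 2 / ρ0 ^ 2
  have hη : LL m e ρ / LL m e 1 ≤ (1 - x) * (LL m e 0 / LL m e 1) + x * (LL m e ρ0 / LL m e 1) := by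
    have : (1 - x) * (LL m e 0 / LL m e 1) + x * (LL m e ρ0 / LL m e 1) =
      ((1 - x) * LL m e 0 + x * LL m e ρ0) / LL m e 1 := by ring
    rw [this]
    exact div_le_div_of_nonneg_right hchord hL1.le
  refine le_trans (mul_le_mul_of_nonneg_right hη hC) ?_
  rw [hrx] at HS HK ⊢
  refine chord_core (M := Mo m e) hx0 hx1 hr0p hr01 (div_le_div_of_nonneg_right hm01 hL1.le)
    (by rw [div_le_one hL1]; exact hm11) hqb0 hZ0 (fun j => Mo_le_bound hm0 hm1 he0.le (by linarith) j)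
    (Mo_zero hm0 hm1) HS HS0 HK HK0 hES hES1 I1 I0

end P322
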