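import Vale.Agent.Lib.P322.LTree

/-!
P322 (Courtade-Kumar): the corner `m + e ≥ 999/1000` for (L).
-/

namespace P322

open Real Set

/-- common geometric facts in the corner. -/
lemma corner_logs {m e : ℝ} (he : 0 < e) (hem : e ≤ m) (hm : m ≤ 1 / 2) (hme : m + e < 1)
    (hy : 1 - m - e ≤ 1 / 1000) :
    6.9 ≤ - log (1 - m - e) ∧ - log (1 - m - e) ≤ LL m e 1 := by
  have hy0 : 0 < 1 - m - e := by linarith
  constructor
  · have h1 : log (1 - m - e) ≤ log (1 / 1000) := Real.log_le_log hy0 hy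
    have h2 := Ex.sound (.nlg (.c 1 1000)) [] [] .nil (7595157250828, 7595157251872) (by decide +kernel)
    have h3 := h2.1
    simp only [Ex.val] at h3
    norm_num at h1 h3 ⊢
    linarith
  · rw [LL1_eq he hme]
    have : log ((1 - (m - e)) * (1 - m - e)) ≤ log (1 - m - e) := by
      apply Real.log_le_log (mul_pos (by linarith) hy0)
      nlinarith
    linarith

/-- `φ(x) + φ(y) ≤ σ (Λ + κ)`. -/
lemma corner_phi {B c x y : ℝ} (hB : 1 - 4 * B * (999 / 1000) ≤ c) (hB0 : 0 ≤ B) (hx0 : 0 ≤ x)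
    (hxy : x ≤ y) (hy0 : 0 < y) (hy : y ≤ 1 / 1000) :
    phi B x + phi B y ≤ (x + y) * (- log y + (36788 / 100000 + c)) := by
  have key : ∀ z : ℝ, 0 ≤ z → z ≤ 1 / 1000 → phi B z ≤ z * (- log z) + c * z := by
    intro z hz0 hz1
    unfold phi
    rw [binEntropy_eq']
    have h1 : (1 - z) * (- log (1 - z)) ≤ z := by
      have h2 := Real.one_sub_inv_le_log_of_pos (by linarith : 0 < 1 - z)
      have h3 : (1 - z) * (1 - (1 - z)⁻¹) = - z := by
        have : (1 - z) ≠ 0 := by linarith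
        field_simp
        ring
      have h4 := mul_le_mul_of_nonneg_left h2 (by linarith : 0 ≤ 1 - z)
      rw [h3] at h4
      linarith
    have h5 : z * (1 - 4 * B * (999 / 1000)) ≤ z * c := mul_le_mul_of_nonneg_left hB hz0
    have h6 : 4 * B * z * (999 / 1000) ≤ 4 * B * z * (1 - z) := by
      apply mul_le_mul_of_nonneg_left (by linarith)
      positivity
    linarith
  have h1 := key x hx0 (by linarith)
  have h2 := key y hy0.le hy
  have h3 : x * (- log x) ≤ x * (- log y) + 36788 / 100000 * y := by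
    rcases hx0.eq_or_lt with h | h
    · rw [← h]; simp; positivity
    · have h4 := neg_mul_log_le (z := x / y) (by positivity)
      rw [log_div h.ne' hy0.ne'] at h4
      have h5 := mul_le_mul_of_nonneg_right h4 hy0.le
      have h6 : x / y * -(log x - log y) * y = x * (- log x) + x * log y := by
        field_simp; ring
      rw [h6] at h5
      linarith
  have h4 : 0 ≤ 36788 / 100000 * x := by positivity
  linarith

lemma corner0_a {s : ℝ} (h0 : 0 ≤ s) : (1 - s) ^ 2 ≤ (1 - 2 * s + 2 * s ^ 2) * (1 - s ^ 2) ∨ 1 < s := by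
  rcases le_or_gt s 1 with h | h
  · left
    have h10 : 0 ≤ s ^ 3 * (1 - s) := mul_nonneg (by positivity) (by linarith)
    have e1 : (1 - 2 * s + 2 * s ^ 2) * (1 - s ^ 2) - (1 - s) ^ 2 = 2 * (s ^ 3 * (1 - s)) := by ring
    linarith
  · right; exact h

lemma corner0_rhs {m e : ℝ} (hem : e ≤ m) (hm : m ≤ 1 / 2) (hme : m + e < 1)
    (hy : 1 - m - e ≤ 1 / 1000) :
    0.94 * (1 - 2 * e) ≤
      binEntropy m - 1 / 2 * (e ^ 2 / (m * (1 - m))) - (log 2 - 1 / 2) * (4 * m * (1 - m))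
        - 69 / 10000 * (4 * m * (1 - m) - 4 * e ^ 2) - 203 / 10000 * (4 * e ^ 2 * (1 - 4 * e ^ 2)) := by
  have hm0 : 0 < m := by linarith
  obtain ⟨s, hs⟩ : ∃ s : ℝ, s = 1 - 2 * e := ⟨_, rfl⟩
  have hs0 : 0 < s := by rw [hs]; linarith
  have hs1 : s ≤ 2 / 1000 := by rw [hs]; linarith
  have hs2 : s ^ 2 ≤ 2 / 1000 * s := by
    rw [pow_two]; exact mul_le_mul_of_nonneg_right hs1 hs0.le
  have hs2' : 0 ≤ s ^ 2 := sq_nonneg s
  have h4e : 4 * e ^ 2 = (1 - s) ^ 2 := by rw [hs]; ring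
  have hent : 4 * m * (1 - m) * log 2 ≤ binEntropy m := by
    have h3 := kap_le (x := 1 - 2 * m) (by linarith) (by linarith)
    have h4 : kap (1 - 2 * m) = log 2 - binEntropy m := by
      unfold kap
      congr 2; ring
    rw [h4] at h3
    linarith
  have h5 : (1 - 2 * m) ^ 2 ≤ s ^ 2 := by
    apply pow_le_pow_left₀ (by linarith)
    rw [hs]; linarith
  have h4m2 : 1 - s ^ 2 ≤ 4 * m * (1 - m) := by linarith
  have h4m : 4 * m * (1 - m) ≤ 1 := by linarith [sq_nonneg (1 - 2 * m)]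
  have hm1 : e ^ 2 / (m * (1 - m)) ≤ 1 - 2 * s + 2 * s ^ 2 := by
    rw [div_le_iff₀ (mul_pos hm0 (by linarith))]
    have h7 : 0 ≤ 1 - 2 * s + 2 * s ^ 2 := by linarith
    have h8 := mul_le_mul_of_nonneg_left h4m2 h7
    rcases corner0_a hs0.le with h9 | h9
    · have e1 : (1 - 2 * s + 2 * s ^ 2) * (4 * m * (1 - m)) =
        4 * ((1 - 2 * s + 2 * s ^ 2) * (m * (1 - m))) := by ring
      rw [e1] at h8
      linarith
    · linarith
  have hq : 4 * m * (1 - m) - 4 * e ^ 2 ≤ 2 * s := by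
    rw [h4e]; linarith
  have hz : 4 * e ^ 2 * (1 - 4 * e ^ 2) ≤ 2 * s := by
    rw [h4e]
    have h6 : 1 - (1 - s) ^ 2 ≤ 2 * s := by linarith
    have h7 : 0 ≤ 1 - (1 - s) ^ 2 := by linarith
    calc (1 - s) ^ 2 * (1 - (1 - s) ^ 2) ≤ 1 * (1 - (1 - s) ^ 2) :=
          mul_le_mul_of_nonneg_right (by linarith) h7
      _ ≤ 2 * s := by linarith
  rw [← hs]
  linarith

/-- the corner at `ρ = 0`. -/
theorem corner_0 {m e : ℝ} (he : 0 < e) (hem : e ≤ m) (hm : m ≤ 1 / 2) (hme : m + e < 1)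
    (hy : 1 - m - e ≤ 1 / 1000) : Goal0 m e := by
  have hrhs := corner0_rhs hem hm hme hy
  unfold Goal0
  refine le_trans ?_ hrhs
  clear hrhs
  have hy0 : 0 < 1 - m - e := by linarith
  have hl2 : 0.6931471803 < log 2 := Real.log_two_gt_d9
  have hl2' : log 2 < 0.6931471808 := Real.log_two_lt_d9
  obtain ⟨hΛ, hL1⟩ := corner_logs he hem hm hme hy
  have hphi := corner_phi (B := log 2 - 1 / 2 + 69 / 10000) (c := 21 / 100) (x := m - e)
    (y := 1 - m - e) (by linarith) (by linarith) (by linarith) (by linarith) hy0 hy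
  have hs : phi (log 2 - 1 / 2 + 69 / 10000) (1 - m - e) = phi (log 2 - 1 / 2 + 69 / 10000) (m + e) := by
    rw [← phi_symm _ (m + e)]; congr 1; ring
  rw [hs] at hphi
  have hF := phi_avg_eq (log 2 - 1 / 2 + 69 / 10000) m e
  have f1 := phi_nonneg (B := log 2 - 1 / 2 + 69 / 10000) (by linarith) (p := m - e) (by linarith) (by linarith)
  have f2 := phi_nonneg (B := log 2 - 1 / 2 + 69 / 10000) (by linarith) (p := m + e) (by linarith) (by linarith)
  rw [← hF]
  obtain ⟨F, hFe⟩ : ∃ F : ℝ, F = (phi (log 2 - 1 / 2 + 69 / 10000) (m - e) + phi (log 2 - 1 / 2 + 69 / 10000) (m + e)) / 2 := ⟨_, rfl⟩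
  rw [← hFe]
  have hF0 : 0 ≤ F := by linarith
  have hsum : m - e + (1 - m - e) = 1 - 2 * e := by ring
  rw [hsum] at hphi
  obtain ⟨Λ, hΛe⟩ : ∃ Λ : ℝ, Λ = - log (1 - m - e) := ⟨_, rfl⟩
  rw [← hΛe] at hphi hΛ hL1
  obtain ⟨σ, hσ⟩ : ∃ σ : ℝ, σ = 1 - 2 * e := ⟨_, rfl⟩
  rw [← hσ] at hphi ⊢
  have hσ0 : 0 < σ := by rw [hσ]; linarith
  have hF1 : F ≤ 1 / 2 * (σ * (Λ + 0.578)) := by
    have h2 : σ * (Λ + (36788 / 100000 + 21 / 100)) ≤ σ * (Λ + 0.578) := by
      apply mul_le_mul_of_nonneg_left _ hσ0.le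
      norm_num
    linarith
  have hLL0 : LL m e 0 ≤ 1.3863 := by
    have e1 : LL m e 0 = -(2 * log (1 - m)) := by unfold LL; simp; ring
    rw [e1]
    have h1 : log (1 / 2) ≤ log (1 - m) := Real.log_le_log (by norm_num) (by linarith)
    have h2 : log (1 / 2 : ℝ) = - log 2 := by rw [one_div, log_inv]
    linarith
  have hΛ0 : 0 < Λ := by linarith
  have h1 : LL m e 0 / LL m e 1 * F ≤ 1.3863 / Λ * (1 / 2 * (σ * (Λ + 0.578))) := by
    apply mul_le_mul _ hF1 hF0 (by positivity)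
    exact div_le_div₀ (by norm_num) hLL0 hΛ0 hL1
  refine le_trans h1 ?_
  have e1 : 1.3863 / Λ * (1 / 2 * (σ * (Λ + 0.578))) = σ * (0.69315 + 0.69315 * 0.578 / Λ) := by
    field_simp; ring
  rw [e1]
  have h3 : 0.69315 * 0.578 / Λ ≤ 0.06 := by
    rw [div_le_iff₀ hΛ0]
    linarith
  have h4 : σ * (0.69315 + 0.69315 * 0.578 / Λ) ≤ σ * 0.94 := by
    apply mul_le_mul_of_nonneg_left _ hσ0.le
    linarith
  linarith

/-- lower bound of the two noisy entropies in the corner. -/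
lemma corner_h {x y : ℝ} (hx0 : 0 ≤ x) (hxy : x ≤ y) (hy : y ≤ 1 / 1000) :
    2 * binEntropy (1 / 5) + 0.826 * (x + y) ≤
      binEntropy ((1 + 4 * x - y) / 5) + binEntropy ((1 + 4 * y - x) / 5) := by
  have hl2 : 0.6931471803 < log 2 := Real.log_two_gt_d9
  have hl2' : log 2 < 0.6931471808 := Real.log_two_lt_d9
  have hl4 : log 4 = 2 * log 2 := by
    have : (4 : ℝ) = 2 ^ 2 := by norm_num
    rw [this, log_pow]; norm_num
  have gibbs : ∀ u : ℝ, 0 < u → u < 1 →
      binEntropy (1 / 5) + (u - 1 / 5) * (log (1 - u) - log u) ≤ binEntropy u := by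
    intro u h0 h1
    have h := phi_le_Gb (B := 0) (p := u) (x := 1 / 5) h0 h1 (by norm_num) (by norm_num)
    unfold phi Gb at h
    rw [binEntropy_eq' u]
    linarith
  have dlow : ∀ u : ℝ, 0 < u → u ≤ 0.2008 → 1.381 ≤ log (1 - u) - log u := by
    intro u h0 h1
    rw [← log_div (by linarith) h0.ne']
    have h2 : 4 * 0.995 ≤ (1 - u) / u := by
      rw [le_div_iff₀ h0]; linarith
    have h3 : log (4 * 0.995) ≤ log ((1 - u) / u) := Real.log_le_log (by norm_num) h2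
    rw [log_mul (by norm_num) (by norm_num), hl4] at h3
    have h4 := Real.one_sub_inv_le_log_of_pos (by norm_num : (0:ℝ) < 0.995)
    norm_num at h4 h3 ⊢
    linarith
  have dup : ∀ u : ℝ, 0.1998 ≤ u → u < 1 → log (1 - u) - log u ≤ 1.388 := by
    intro u h0 h1
    have hu : 0 < u := by linarith
    rw [← log_div (by linarith) hu.ne']
    have h2 : (1 - u) / u ≤ 4 * 1.0013 := by
      rw [div_le_iff₀ hu]; linarith
    have h3 : log ((1 - u) / u) ≤ log (4 * 1.0013) :=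
      Real.log_le_log (div_pos (by linarith) hu) h2
    rw [log_mul (by norm_num) (by norm_num), hl4] at h3
    have h4 := Real.log_le_sub_one_of_pos (by norm_num : (0:ℝ) < 1.0013)
    norm_num at h4 h3 ⊢
    linarith
  have g1 := gibbs ((1 + 4 * x - y) / 5) (by linarith) (by linarith)
  have g2 := gibbs ((1 + 4 * y - x) / 5) (by linarith) (by linarith)
  have a1 := dlow ((1 + 4 * x - y) / 5) (by linarith) (by linarith)
  have a2 := dlow ((1 + 4 * y - x) / 5) (by linarith) (by linarith)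
  have a3 := dup ((1 + 4 * x - y) / 5) (by linarith) (by linarith)
  set D1 := log (1 - (1 + 4 * x - y) / 5) - log ((1 + 4 * x - y) / 5)
  set D2 := log (1 - (1 + 4 * y - x) / 5) - log ((1 + 4 * y - x) / 5)
  have b2 : ((1 + 4 * y - x) / 5 - 1 / 5) * 1.381 ≤ ((1 + 4 * y - x) / 5 - 1 / 5) * D2 :=
    mul_le_mul_of_nonneg_left a2 (by linarith)
  have b1 : ((1 + 4 * x - y) / 5 - 1 / 5) * 1.381 - y / 5 * 0.007 ≤
      ((1 + 4 * x - y) / 5 - 1 / 5) * D1 := by
    have h1 : ((1 + 4 * x - y) / 5 - 1 / 5) * D1 =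
      ((1 + 4 * x - y) / 5 - 1 / 5) * 1.381 + (4 * x / 5) * (D1 - 1.381) - y / 5 * (D1 - 1.381) := by
      ring
    rw [h1]
    have h2 : 0 ≤ (4 * x / 5) * (D1 - 1.381) := mul_nonneg (by linarith) (by linarith)
    have h3 : y / 5 * (D1 - 1.381) ≤ y / 5 * 0.007 :=
      mul_le_mul_of_nonneg_left (by linarith) (by linarith)
    linarith
  linarith

/-- the corner at `ρ = 3/5`. -/
theorem corner_L {m e : ℝ} (he : 0 < e) (hem : e ≤ m) (hm : m ≤ 1 / 2) (hme : m + e < 1)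
    (hy : 1 - m - e ≤ 1 / 1000) : GoalL m e := by
  have hy0 : 0 < 1 - m - e := by linarith
  have hh := corner_h (x := m - e) (y := 1 - m - e) (by linarith) (by linarith) hy
  have e1 : (1 + 4 * (m - e) - (1 - m - e)) / 5 = m - 3 / 5 * e := by ring
  have e2 : (1 + 4 * (1 - m - e) - (m - e)) / 5 = 1 - (m + 3 / 5 * e) := by ring
  rw [e1, e2, binEntropy_one_sub] at hh
  have hpsi : psi (3 / 5) m ≤ binEntropy (1 / 5) := by
    have h := psi_le_quad (ρ := 3 / 5) (m := m) (d := 0) (by norm_num) (by norm_num) (by linarith) hm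
      le_rfl (by linarith)
    have hb := b_eq (ρ := 3 / 5) (by norm_num)
    have e3 : ((1 : ℝ) - 3 / 5) / 2 = 1 / 5 := by norm_num
    rw [e3] at hb
    rw [← hb] at h
    refine le_trans h (le_of_eq ?_)
    ring
  obtain ⟨hΛ, hL1⟩ := corner_logs he hem hm hme hy
  have hBl : 173442547157 / 1099511627776 ≤ BB (3 / 5) := by
    have := enc_B35.1
    norm_num at this ⊢
    exact this
  have hphi := corner_phi (B := BB (3 / 5)) (c := 37 / 100) (x := m - e)
    (y := 1 - m - e) (by linarith) (by linarith) (by linarith) (by linarith) hy0 hy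
  have hs : phi (BB (3 / 5)) (1 - m - e) = phi (BB (3 / 5)) (m + e) := by
    rw [← phi_symm _ (m + e)]; congr 1; ring
  rw [hs] at hphi
  have f1 := phi_nonneg BB35_le (p := m - e) (by linarith) (by linarith)
  have f2 := phi_nonneg BB35_le (p := m + e) (by linarith) (by linarith)
  have hLr : LL m e (3 / 5) ≤ 1.834 := by
    have h1 := Ex.sound (.nlg (.c 15988 100000)) [] [] .nil (2015769571342, 2015769571364) (by decide +kernel)
    have h2 := h1.2
    simp only [Ex.val] at h2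
    have e3 : LL m e (3 / 5) = - log ((1 - (m - 3 / 5 * e)) * (1 - (m + 3 / 5 * e))) := by
      unfold LL
      rw [log_mul (by linarith) (by linarith)]; ring
    rw [e3]
    have h3 : (((15988 : ℕ) : ℝ) / ((100000 : ℕ) : ℝ)) ≤ (1 - (m - 3 / 5 * e)) * (1 - (m + 3 / 5 * e)) := by
      have h4 : 0.7994 ≤ 1 - (m - 3 / 5 * e) := by linarith
      have h5 : 0.2 ≤ 1 - (m + 3 / 5 * e) := by linarith
      have h6 : (0.7994 : ℝ) * 0.2 ≤ (1 - (m - 3 / 5 * e)) * (1 - (m + 3 / 5 * e)) :=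
        mul_le_mul h4 h5 (by norm_num) (by linarith)
      norm_num at h6 ⊢
      linarith
    have h7 := Real.log_le_log (by norm_num) h3
    norm_num at h2 h7 ⊢
    linarith
  unfold GoalL Lval
  have e4 : (binEntropy (m - e) + binEntropy (m + e)) / 2 -
      (psi (3 / 5) (m - e) + psi (3 / 5) (m + e)) / 2 =
      (3 / 5) ^ 2 * ((phi (BB (3 / 5)) (m - e) + phi (BB (3 / 5)) (m + e)) / 2) := by
    rw [psi_eq_phi (by norm_num), psi_eq_phi (by norm_num)]; ring
  rw [e4]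
  obtain ⟨F, hFe⟩ : ∃ F : ℝ, F = (phi (BB (3 / 5)) (m - e) + phi (BB (3 / 5)) (m + e)) / 2 := ⟨_, rfl⟩
  rw [← hFe]
  have hF0 : 0 ≤ F := by linarith
  have hsum : m - e + (1 - m - e) = 1 - 2 * e := by ring
  rw [hsum] at hphi hh
  obtain ⟨Λ, hΛe⟩ : ∃ Λ : ℝ, Λ = - log (1 - m - e) := ⟨_, rfl⟩
  rw [← hΛe] at hphi hΛ hL1
  obtain ⟨σ, hσ⟩ : ∃ σ : ℝ, σ = 1 - 2 * e := ⟨_, rfl⟩
  rw [← hσ] at hphi hh
  have hσ0 : 0 < σ := by rw [hσ]; linarith
  have hF1 : F ≤ 1 / 2 * (σ * (Λ + 0.738)) := by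
    have h2 : σ * (Λ + (36788 / 100000 + 37 / 100)) ≤ σ * (Λ + 0.738) := by
      apply mul_le_mul_of_nonneg_left _ hσ0.le
      norm_num
    linarith
  have hΛ0 : 0 < Λ := by linarith
  have h1 : LL m e (3 / 5) / LL m e 1 * F ≤ 1.834 / Λ * (1 / 2 * (σ * (Λ + 0.738))) := by
    apply mul_le_mul _ hF1 hF0 (by positivity)
    exact div_le_div₀ (by norm_num) hLr hΛ0 hL1
  have e5 : 1.834 / Λ * (1 / 2 * (σ * (Λ + 0.738))) = σ * (0.917 + 0.917 * 0.738 / Λ) := by
    field_simp; ring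
  rw [e5] at h1
  have h3 : 0.917 * 0.738 / Λ ≤ 0.1 := by
    rw [div_le_iff₀ hΛ0]
    linarith
  have h4 : σ * (0.917 + 0.917 * 0.738 / Λ) ≤ σ * 1.017 := by
    apply mul_le_mul_of_nonneg_left _ hσ0.le
    linarith
  have e6 : LL m e (3 / 5) / LL m e 1 * ((3 / 5) ^ 2 * F) = 9 / 25 * (LL m e (3 / 5) / LL m e 1 * F) := by
    ring
  rw [e6]
  linarith

end P322
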