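import Vale.Agent.Lib.P322.LCorner
import Vale.Agent.Lib.P322.LCertL
import Vale.Agent.Lib.P322.LCert0

/-!
P322 (Courtade-Kumar): (L) holds for every pair when `ρ ≤ 3/5`.
-/

namespace P322

open Real Set

lemma goalL_all {m e : ℝ} (he : 0 < e) (hem : e ≤ m) (hm : m ≤ 1 / 2) (hme : m + e < 1)
    (hm3 : 3 / 100 < m) : GoalL m e := by
  rcases le_or_gt (1 - m - e) (1 / 1000) with h | h
  · exact corner_L he hem hm hme h
  · refine covL m e he hem hm hme hm3 h ?_ ?_ ?_ ?_
    · have : rd 0 = 0 := by unfold rd; simp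
      rw [this]; linarith
    · rw [rd_half]; linarith
    · have : rd 0 = 0 := by unfold rd; simp
      rw [this]; linarith
    · rw [rd_S]; linarith

lemma goal0_all {m e : ℝ} (he : 0 < e) (hem : e ≤ m) (hm : m ≤ 1 / 2) (hme : m + e < 1)
    (hm3 : 3 / 100 < m) : Goal0 m e := by
  rcases le_or_gt (1 - m - e) (1 / 1000) with h | h
  · exact corner_0 he hem hm hme h
  · refine cov0 m e he hem hm hme hm3 h ?_ ?_ ?_ ?_
    · have : rd 0 = 0 := by unfold rd; simp
      rw [this]; linarith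
    · rw [rd_half]; linarith
    · have : rd 0 = 0 := by unfold rd; simp
      rw [this]; linarith
    · rw [rd_S]; linarith

/-- **(L) for all `ρ ≤ 3/5`.** -/
theorem L_range {ρ m e : ℝ} (hρ0 : 0 < ρ) (hρ1 : ρ ≤ 3 / 5) (he : 0 < e) (hem : e ≤ m)
    (hm : m ≤ 1 / 2) (hme : m + e < 1) :
    psi ρ m ≤ Lval ρ m e ((psi ρ (m - e) + psi ρ (m + e)) / 2) := by
  rcases le_or_gt m (3 / 100) with h | h
  · exact tiny_m_range hρ0 (by linarith) he hem h
  · refine L_chord (ρ0 := 3 / 5) (ES := 69 / 10000) (ES1 := 203 / 10000) hρ0 hρ1 (by norm_num) he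
      hem hm hme (by norm_num) (by norm_num) (goalL_all he hem hm hme h) (goal0_all he hem hm hme h)

/-- `psi` is a good potential for every `ρ ≤ 3/5`. -/
theorem goodPot_L {ρ : ℝ} (hρ0 : 0 < ρ) (hρ1 : ρ ≤ 3 / 5) : GoodPot ρ (psi ρ) := by
  apply goodPot_psi hρ0 (by linarith)
  intro m e he hem hm hme
  exact (VGE_L hρ0 (by linarith) he hem hm hme).mono le_rfl (L_range hρ0 hρ1 he hem hm hme)

end P322
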