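import Vale.Agent.Lib.P322.LCheck4

/-!
P322 (Courtade-Kumar): the certificate checker.
-/

namespace P322

open Real Set

def excl (xa xb ya yb : ℕ) : Bool :=
  Nat.ble yb xa || Nat.ble 1099511627776 (xa + ya) ||
    Nat.ble ((1099511627776 + xb - ya) * 50) 3298534883328 || Nat.ble (yb * 1000) 1099511627776

def chk (fa fb fd : ℕ → ℕ → ℕ → ℕ → Bool) : Tr → ℕ → ℕ → ℕ → ℕ → Bool
  | .o, xa, xb, ya, yb => excl xa xb ya yb
  | .a, xa, xb, ya, yb => fa xa xb ya yb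
  | .b, xa, xb, ya, yb => fb xa xb ya yb
  | .d, xa, xb, ya, yb => fd xa xb ya yb
  | .x l r, xa, xb, ya, yb =>
    chk fa fb fd l xa ((xa + xb) / 2) ya yb && chk fa fb fd r ((xa + xb) / 2) xb ya yb
  | .y l r, xa, xb, ya, yb =>
    chk fa fb fd l xa xb ya ((ya + yb) / 2) && chk fa fb fd r xa xb ((ya + yb) / 2) yb

/-- what a box certificate gives. -/
def Cov (G : ℝ → ℝ → Prop) (xa xb ya yb : ℕ) : Prop :=
  ∀ m e : ℝ, 0 < e → e ≤ m → m ≤ 1 / 2 → m + e < 1 → 3 / 100 < m → 1 / 1000 < 1 - m - e →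
    rd xa ≤ m - e → m - e ≤ rd xb → rd ya ≤ 1 - m - e → 1 - m - e < rd yb → G m e

lemma cov_x {G : ℝ → ℝ → Prop} {xa xm xb ya yb : ℕ} (h1 : Cov G xa xm ya yb)
    (h2 : Cov G xm xb ya yb) : Cov G xa xb ya yb := by
  intro m e he hem hm hme hm3 hy3 x1 x2 y1 y2
  rcases le_total (m - e) (rd xm) with h | h
  · exact h1 m e he hem hm hme hm3 hy3 x1 h y1 y2
  · exact h2 m e he hem hm hme hm3 hy3 h x2 y1 y2

lemma cov_y {G : ℝ → ℝ → Prop} {xa xb ya ym yb : ℕ} (h1 : Cov G xa xb ya ym)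
    (h2 : Cov G xa xb ym yb) : Cov G xa xb ya yb := by
  intro m e he hem hm hme hm3 hy3 x1 x2 y1 y2
  rcases lt_or_ge (1 - m - e) (rd ym) with h | h
  · exact h1 m e he hem hm hme hm3 hy3 x1 x2 y1 h
  · exact h2 m e he hem hm hme hm3 hy3 x1 x2 h y2

lemma excl_sound {G : ℝ → ℝ → Prop} {xa xb ya yb : ℕ} (hya : ya ≤ 1099511627776)
    (h : excl xa xb ya yb = true) : Cov G xa xb ya yb := by
  intro m e he hem hm hme hm3 hy3 x1 x2 y1 y2
  exfalso
  unfold excl at h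
  rw [Bool.or_eq_true, Bool.or_eq_true, Bool.or_eq_true] at h
  rcases h with ((h | h) | h) | h
  · have h1 : yb ≤ xa := Nat.le_of_ble_eq_true h
    have h2 := rd_le_rd h1
    linarith
  · have h1 : 1099511627776 ≤ xa + ya := Nat.le_of_ble_eq_true h
    have h2 := rd_le_rd h1
    rw [rd_S, rd_add] at h2
    linarith
  · have h1 : (1099511627776 + xb - ya) * 50 ≤ 3298534883328 := Nat.le_of_ble_eq_true h
    have h2 := rd_le_rd h1
    have e1 : rd 3298534883328 = 3 := by unfold rd; norm_num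
    rw [mul_comm, rd_mul, e1, rd_sub (by omega), rd_add, rd_S] at h2
    push_cast at h2
    linarith
  · have h1 : yb * 1000 ≤ 1099511627776 := Nat.le_of_ble_eq_true h
    have h2 := rd_le_rd h1
    rw [mul_comm, rd_mul, rd_S] at h2
    push_cast at h2
    linarith

theorem chk_sound {G : ℝ → ℝ → Prop} {fa fb fd : ℕ → ℕ → ℕ → ℕ → Bool}
    (ha : ∀ xa xb ya yb m e, InBox xa xb ya yb m e → fa xa xb ya yb = true → G m e)
    (hb : ∀ xa xb ya yb m e, InBox xa xb ya yb m e → fb xa xb ya yb = true → G m e)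
    (hd : ∀ xa xb ya yb m e, InBox xa xb ya yb m e → fd xa xb ya yb = true → G m e) (t : Tr) :
    ∀ xa xb ya yb : ℕ, xa ≤ xb → xb ≤ 549755813888 → ya ≤ yb → yb ≤ 1099511627776 →
      chk fa fb fd t xa xb ya yb = true → Cov G xa xb ya yb := by
  induction t with
  | o =>
    intro xa xb ya yb h1 h2 h3 h4 h
    exact excl_sound (by omega) h
  | a =>
    intro xa xb ya yb h1 h2 h3 h4 h m e he hem hm hme hm3 hy3 x1 x2 y1 y2
    exact ha xa xb ya yb m e ⟨he, hem, hm, hme, h1, h2, h3, h4, x1, x2, y1, y2.le⟩ h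
  | b =>
    intro xa xb ya yb h1 h2 h3 h4 h m e he hem hm hme hm3 hy3 x1 x2 y1 y2
    exact hb xa xb ya yb m e ⟨he, hem, hm, hme, h1, h2, h3, h4, x1, x2, y1, y2.le⟩ h
  | d =>
    intro xa xb ya yb h1 h2 h3 h4 h m e he hem hm hme hm3 hy3 x1 x2 y1 y2
    exact hd xa xb ya yb m e ⟨he, hem, hm, hme, h1, h2, h3, h4, x1, x2, y1, y2.le⟩ h
  | x l r ihl ihr =>
    intro xa xb ya yb h1 h2 h3 h4 h
    simp only [chk, Bool.and_eq_true] at h
    exact cov_x (ihl _ _ _ _ (by omega) (by omega) h3 h4 h.1) (ihr _ _ _ _ (by omega) h2 h3 h4 h.2)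
  | y l r ihl ihr =>
    intro xa xb ya yb h1 h2 h3 h4 h
    simp only [chk, Bool.and_eq_true] at h
    exact cov_y (ihl _ _ _ _ h1 h2 (by omega) (by omega) h.1) (ihr _ _ _ _ h1 h2 (by omega) h4 h.2)

/-- checker at `ρ = 3/5`. -/
def chkL (t : Tr) (xa xb ya yb : ℕ) : Bool :=
  chk (leafAL (WE1 (16, 25))) (leafAL (WE2 (16, 25))) leafD t xa xb ya yb

/-- checker at `ρ = 0`. -/
def chk0 (t : Tr) (xa xb ya yb : ℕ) : Bool :=
  chk (leafA0 (WE1 (1, 1))) (leafA0 (WE2 (1, 1))) leafB t xa xb ya yb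

theorem chkL_sound {t : Tr} {xa xb ya yb : ℕ} (h : chkL t xa xb ya yb = true)
    (h1 : xa ≤ xb) (h2 : xb ≤ 549755813888) (h3 : ya ≤ yb) (h4 : yb ≤ 1099511627776) :
    Cov GoalL xa xb ya yb :=
  chk_sound (fun _ _ _ _ _ _ hin hc => leafAL1_sound hin hc)
    (fun _ _ _ _ _ _ hin hc => leafAL2_sound hin hc)
    (fun _ _ _ _ _ _ hin hc => leafD_sound hin hc) t _ _ _ _ h1 h2 h3 h4 h

theorem chk0_sound {t : Tr} {xa xb ya yb : ℕ} (h : chk0 t xa xb ya yb = true)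
    (h1 : xa ≤ xb) (h2 : xb ≤ 549755813888) (h3 : ya ≤ yb) (h4 : yb ≤ 1099511627776) :
    Cov Goal0 xa xb ya yb :=
  chk_sound (fun _ _ _ _ _ _ hin hc => leafA01_sound hin hc)
    (fun _ _ _ _ _ _ hin hc => leafA02_sound hin hc)
    (fun _ _ _ _ _ _ hin hc => leafB_sound hin hc) t _ _ _ _ h1 h2 h3 h4 h

end P322
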