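import Vale.Agent.Lib.P322.Closed2
import Vale.Agent.Lib.P322.MonoB

/-!
P322 (Courtade-Kumar): leaf certificates. A box in `(ρ, m, ξ)` or `(ρ, m, e)` is certified by two
evaluations.
-/

namespace P322

open Real Finset

/-- the goal at a pair. -/
def Good (ρ m e : ℝ) : Prop := VGE ρ m e ((psi ρ (m - e) + psi ρ (m + e)) / 2) (psi ρ m)

lemma binEntropy_div_antitone {m1 m : ℝ} (h0 : 0 < m1) (hm : m1 ≤ m) (h1 : m ≤ 1) :
    binEntropy m / m ≤ binEntropy m1 / m1 := by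
  have hm0 : 0 < m := by linarith
  have hc := strictConcave_binEntropy.concaveOn
  have hx : m ∈ Set.Icc (0 : ℝ) 1 := ⟨hm0.le, h1⟩
  have hy : (0 : ℝ) ∈ Set.Icc (0 : ℝ) 1 := ⟨le_rfl, zero_le_one⟩
  have hq : 0 ≤ 1 - m1 / m := by rw [sub_nonneg, div_le_one hm0]; exact hm
  have h := hc.2 hx hy (by positivity : 0 ≤ m1 / m) hq (by ring)
  simp only [smul_eq_mul, mul_zero, add_zero, binEntropy_zero] at h
  have e1 : m1 / m * m = m1 := by field_simp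
  rw [e1] at h
  rw [div_le_div_iff₀ hm0 h0]
  have h2 := mul_le_mul_of_nonneg_left h hm0.le
  have e2 : m * (m1 / m * binEntropy m) = m1 * binEntropy m := by field_simp
  rw [e2] at h2
  linarith

lemma psi_div_antitone {ρ m1 m : ℝ} (hρ0 : 0 ≤ ρ) (hρ1 : ρ ≤ 1) (h0 : 0 < m1) (hm : m1 ≤ m)
    (h1 : m ≤ 1) : psi ρ m / m ≤ psi ρ m1 / m1 := by
  have hm0 : 0 < m := by linarith
  have h := binEntropy_div_antitone h0 hm h1
  have hb := bb_nonneg hρ0 hρ1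
  rw [psi_eq_bb, psi_eq_bb]
  have e1 : ((1 - ρ ^ 2) * binEntropy m + bb ρ * (4 * m * (1 - m))) / m =
    (1 - ρ ^ 2) * (binEntropy m / m) + bb ρ * (4 * (1 - m)) := by field_simp
  have e2 : ((1 - ρ ^ 2) * binEntropy m1 + bb ρ * (4 * m1 * (1 - m1))) / m1 =
    (1 - ρ ^ 2) * (binEntropy m1 / m1) + bb ρ * (4 * (1 - m1)) := by field_simp
  rw [e1, e2]
  have h3 := mul_le_mul_of_nonneg_left h (by nlinarith : 0 ≤ 1 - ρ ^ 2)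
  have h4 := mul_le_mul_of_nonneg_left (by linarith : 4 * (1 - m) ≤ 4 * (1 - m1)) hb
  linarith

lemma psi_mono {ρ m m2 : ℝ} (hρ0 : 0 ≤ ρ) (hρ1 : ρ ≤ 1) (h0 : 0 ≤ m) (hm : m ≤ m2)
    (h2 : m2 ≤ 1 / 2) : psi ρ m ≤ psi ρ m2 := by
  have hb := bb_nonneg hρ0 hρ1
  rw [psi_eq_bb, psi_eq_bb]
  have h : binEntropy m ≤ binEntropy m2 := by
    have := binEntropy_strictMonoOn.monotoneOn
    have h2' : (2 : ℝ)⁻¹ = 1 / 2 := by norm_num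
    exact this ⟨h0, by rw [h2']; linarith⟩ ⟨by linarith, by rw [h2']; linarith⟩ hm
  have h3 := mul_le_mul_of_nonneg_left h (by nlinarith : 0 ≤ 1 - ρ ^ 2)
  have h4 : bb ρ * (4 * m * (1 - m)) ≤ bb ρ * (4 * m2 * (1 - m2)) := by
    apply mul_le_mul_of_nonneg_left _ hb
    nlinarith
  linarith

lemma kk_antitone_xi {ρ mc ξ ξ2 : ℝ} (h0 : 0 ≤ ρ) (h1 : ρ ≤ 1) (hmc : 0 < mc) (hmc2 : mc ≤ 1 / 2)
    (hξ0 : 0 ≤ ξ) (hξ : ξ ≤ ξ2) (hξ2 : ξ2 ≤ 1) : kk ρ mc (ξ2 * mc) ≤ kk ρ mc (ξ * mc) := by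
  rw [kk_eq_J1, kk_eq_J1]
  have e1 : ρ * (ξ2 * mc) = (ρ * ξ2) * mc := by ring
  have e2 : ρ * (ξ * mc) = (ρ * ξ) * mc := by ring
  rw [e1, e2, J1_ray hmc (by linarith) (by nlinarith), J1_ray hmc (by linarith) (by positivity)]
  have hη0 : 0 ≤ mc / (1 - mc) := div_nonneg hmc.le (by linarith)
  have hη1 : mc / (1 - mc) ≤ 1 := by rw [div_le_one (by linarith)]; linarith
  have hle : ρ * ξ ≤ ρ * ξ2 := mul_le_mul_of_nonneg_left hξ h0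
  have hρξ : ρ * ξ2 ≤ 1 := by nlinarith
  have k1 := kap_mono (by positivity) hle hρξ
  have k2 := kap_mono (v := ρ * ξ * (mc / (1 - mc))) (w := ρ * ξ2 * (mc / (1 - mc))) (by positivity)
    (mul_le_mul_of_nonneg_right hle hη0) (by nlinarith [mul_nonneg h0 (hξ0.trans hξ)])
  have u1 := mul_le_mul_of_nonneg_left k1 hmc.le
  have u2 := mul_le_mul_of_nonneg_left k2 (by linarith : 0 ≤ 1 - mc)
  linarith

lemma good_of_R {ρ m mc ξ : ℝ} (hρ : 0 < ρ) (hρ1 : ρ < 1) (hm : 0 ≤ m) (hξ : 0 < ξ) (hξ1 : ξ ≤ 1)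
    (hmc0 : 0 < mc) (hmc : mc ≤ 1 / 2) (A1 : psi ρ m ≤ m / mc * kk ρ mc (ξ * mc))
    (A2 : GapJ ρ m (ξ * m) ≤ m / mc * (kk ρ mc (ξ * mc) - kk 1 mc (ξ * mc))) : Good ρ m (ξ * m) :=
  VGE_R2' hρ hρ1 hm hξ hξ1 hmc0 hmc A1 A2

lemma good_of_S {ρ m e w : ℝ} (hρ : 0 < ρ) (hρ1 : ρ ≤ 1) (hw0 : 0 < w) (hw1 : w < 1)
    (A1 : psi ρ m ≤ 2 * e / w * binEntropy ((1 - ρ * w) / 2))
    (A2 : GapJ ρ m e ≤ 2 * e / w * (binEntropy ((1 - ρ * w) / 2) - binEntropy ((1 - w) / 2))) :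
    Good ρ m e :=
  VGE_S2 hρ hρ1 hw0 hw1 A1 A2

lemma div_form {a m g : ℝ} (hm : 0 < m) : a ≤ m * g ↔ a / m ≤ g := by
  rw [div_le_iff₀ hm, mul_comm]

/-- first condition of (R) on a box. -/
lemma A1R_box {ρL ρ m1 m mc ξ ξ2 : ℝ} (hL : 0 ≤ ρL) (hLρ : ρL ≤ ρ) (hρ : ρ < 1) (hm1 : 0 < m1)
    (hm : m1 ≤ m) (hmc : m ≤ mc) (hmc2 : mc ≤ 1 / 2) (hξ : 0 ≤ ξ) (hξ2 : ξ ≤ ξ2) (hξu : ξ2 ≤ 1)
    (A1 : psi ρL m1 ≤ m1 / mc * kk ρL mc (ξ2 * mc)) : psi ρ m ≤ m / mc * kk ρ mc (ξ * mc) := by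
  have hm0 : 0 < m := by linarith
  have hmc0 : 0 < mc := by linarith
  apply A1R_mono hL hLρ hρ.le hm0 hmc hmc2 hξ (hξ2.trans hξu)
  have e1 : m1 / mc * kk ρL mc (ξ2 * mc) = m1 * (kk ρL mc (ξ2 * mc) / mc) := by ring
  have e2 : m / mc * kk ρL mc (ξ * mc) = m * (kk ρL mc (ξ * mc) / mc) := by ring
  rw [e1, div_form hm1] at A1
  rw [e2, div_form hm0]
  refine (psi_div_antitone hL (by linarith) hm1 hm (by linarith)).trans (A1.trans ?_)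
  exact div_le_div_of_nonneg_right (kk_antitone_xi hL (by linarith) hmc0 hmc2 hξ hξ2 hξu) hmc0.le

/-- (R) leaf, positive lower `ξ`. -/
theorem leafR {ρL ρH m1 m2 ξ1 ξ2 mc : ℝ} (hL : 0 ≤ ρL) (hH : ρH < 1) (hm1 : 0 < m1)
    (hmc : m2 ≤ mc) (hmc2 : mc ≤ 1 / 2) (hξ1 : 0 < ξ1) (hξ2 : ξ2 ≤ 1)
    (A1 : psi ρL m1 ≤ m1 / mc * kk ρL mc (ξ2 * mc))
    (A2 : GapJ ρH m2 (ξ1 * m2) ≤ m2 / mc * (kk ρH mc (ξ1 * mc) - kk 1 mc (ξ1 * mc)))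
    {ρ m ξ : ℝ} (hρ0 : 0 < ρ) (hρL : ρL ≤ ρ) (hρH : ρ ≤ ρH) (hm1m : m1 ≤ m) (hmm2 : m ≤ m2)
    (hξ1ξ : ξ1 ≤ ξ) (hξξ2 : ξ ≤ ξ2) : Good ρ m (ξ * m) := by
  have hm0 : 0 < m := by linarith
  have hm20 : 0 < m2 := by linarith
  have hmc0 : 0 < mc := by linarith
  have hη2 : 0 ≤ m2 / (1 - m2) := div_nonneg hm20.le (by linarith)
  apply good_of_R hρ0 (by linarith) hm0.le (by linarith) (by linarith) hmc0 hmc2
  · exact A1R_box hL hρL (by linarith) hm1 hm1m (by linarith) hmc2 (by linarith) hξξ2 hξ2 A1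
  · apply A2R_down hρ0.le hρH hH hm0 (by linarith) hmc2 (by linarith) (by linarith)
    have e1 : m2 / mc * (kk ρH mc (ξ1 * mc) - kk 1 mc (ξ1 * mc)) =
      m2 * ((kk ρH mc (ξ1 * mc) - kk 1 mc (ξ1 * mc)) / mc) := by ring
    have e2 : m / mc * (kk ρH mc (ξ * mc) - kk 1 mc (ξ * mc)) =
      m * ((kk ρH mc (ξ * mc) - kk 1 mc (ξ * mc)) / mc) := by ring
    rw [e1, div_form hm20] at A2
    rw [e2, div_form hm0]
    have hρH0 : 0 ≤ ρH := by linarith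
    refine ray_box (x := fun k => 1 + (mc / (1 - mc)) ^ (2 * k + 1)) hρH0 hH.le hm0 hmm2 (by linarith)
      (fun k => ?_) hξ1 hξ1ξ (by linarith)
      (hs_congr (hasSum_gain_ray hmc0 hmc2 (by linarith) (by linarith) hρH0 hH.le) (fun k => by ring) rfl)
      (hs_congr (hasSum_gain_ray hmc0 hmc2 (by linarith) (by linarith) hρH0 hH.le) (fun k => by ring) rfl) A2
    have := pow_le_pow_left₀ hη2 (eta_mono hmc (by linarith : mc < 1)) (2 * k + 1)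
    linarith

/-- (R) leaf from the diagonal. -/
theorem leafR0 {ρL ρH m1 m2 ξ2 mc : ℝ} (hL : 0 ≤ ρL) (hH : ρH < 1) (hm1 : 0 < m1)
    (hmc : m2 ≤ mc) (hmc2 : mc ≤ 1 / 2) (hξ2 : ξ2 ≤ 1)
    (A1 : psi ρL m1 ≤ m1 / mc * kk ρL mc (ξ2 * mc))
    (A2 : 4 * m2 * bb ρH ≤ (1 - ρH ^ 2) / 2 * (mc / (1 - mc) - m2 / (1 - m2)))
    {ρ m ξ : ℝ} (hρ0 : 0 < ρ) (hρL : ρL ≤ ρ) (hρH : ρ ≤ ρH) (hm1m : m1 ≤ m) (hmm2 : m ≤ m2)
    (hξ0 : 0 < ξ) (hξξ2 : ξ ≤ ξ2) : Good ρ m (ξ * m) := by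
  have hm0 : 0 < m := by linarith
  have hm20 : 0 < m2 := by linarith
  have hmc0 : 0 < mc := by linarith
  have hη2 : 0 ≤ m2 / (1 - m2) := div_nonneg hm20.le (by linarith)
  apply good_of_R hρ0 (by linarith) hm0.le hξ0 (by linarith) hmc0 hmc2
  · exact A1R_box hL hρL (by linarith) hm1 hm1m (by linarith) hmc2 hξ0.le hξξ2 hξ2 A1
  · apply A2R_down hρ0.le hρH hH hm0 (by linarith) hmc2 hξ0.le (by linarith)
    have e2 : m / mc * (kk ρH mc (ξ * mc) - kk 1 mc (ξ * mc)) =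
      m * ((kk ρH mc (ξ * mc) - kk 1 mc (ξ * mc)) / mc) := by ring
    rw [e2, div_form hm0]
    have hρH0 : 0 ≤ ρH := by linarith
    refine ray_box0 (x := fun k => 1 + (mc / (1 - mc)) ^ (2 * k + 1)) hρH0 hH.le hm0 hmm2 (by linarith)
      (fun k => ?_) hξ0.le (by linarith)
      (hs_congr (hasSum_gain_ray hmc0 hmc2 hξ0.le (by linarith) hρH0 hH.le) (fun k => by ring) rfl) ?_
    · have := pow_le_pow_left₀ hη2 (eta_mono hmc (by linarith : mc < 1)) (2 * k + 1)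
      linarith
    · simp only [mul_zero, zero_add, pow_one]
      refine A2.trans (le_of_eq ?_)
      ring

/-- gain of the `S'` contact `w = ν ξ`. -/
lemma hasSum_gain_nu {ν ξ ρ : ℝ} (hν : 0 < ν) (hξ : 0 < ξ) (hνξ : ν * ξ ≤ 1) (h0 : 0 ≤ ρ) (h1 : ρ ≤ 1) :
    HasSum (fun k : ℕ => mu k * (2 * ν ^ (2 * k + 1)) * ξ ^ (2 * k + 2) * (1 - (ρ ^ 2) ^ (k + 1)))
      (2 / ν * (binEntropy ((1 - ρ * (ν * ξ)) / 2) - binEntropy ((1 - ν * ξ) / 2))) := by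
  have A := (hasSum_gain_w (w := ν * ξ) (by positivity) hνξ h0 h1).mul_left (2 * ξ)
  refine hs_congr A (fun k => ?_) ?_
  · rw [mul_pow]
    have : ξ ^ (2 * k + 2) = ξ ^ (2 * k + 1) * ξ := pow_succ _ _
    rw [this]; ring
  · field_simp

/-- first condition of (S') on a box. -/
lemma A1N_box {ρL ρ m1 m ν ξ ξ2 : ℝ} (hL : 0 ≤ ρL) (hLρ : ρL ≤ ρ) (hρ : ρ < 1) (hm1 : 0 < m1)
    (hm : m1 ≤ m) (hm2 : m ≤ 1 / 2) (hν : 1 ≤ ν) (hξ : 0 < ξ) (hξ2 : ξ ≤ ξ2) (hνξ : ν * ξ2 < 1)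
    (A1 : psi ρL m1 ≤ 2 * m1 / ν * binEntropy ((1 - ρL * (ν * ξ2)) / 2)) :
    psi ρ m ≤ 2 * (ξ * m) / (ν * ξ) * binEntropy ((1 - ρ * (ν * ξ)) / 2) := by
  have hm0 : 0 < m := by linarith
  have hν0 : 0 < ν := by linarith
  have hνξ' : ν * ξ < 1 := lt_of_le_of_lt (mul_le_mul_of_nonneg_left hξ2 hν0.le) hνξ
  have hξ1 : ξ ≤ 1 := by nlinarith
  apply A1S_mono hL hLρ hρ.le (by positivity) (by nlinarith) hm2 (by positivity) hνξ'.le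
  have e1 : 2 * m1 / ν * binEntropy ((1 - ρL * (ν * ξ2)) / 2) =
    m1 * (2 / ν * binEntropy ((1 - ρL * (ν * ξ2)) / 2)) := by ring
  have e2 : 2 * (ξ * m) / (ν * ξ) * binEntropy ((1 - ρL * (ν * ξ)) / 2) =
    m * (2 / ν * binEntropy ((1 - ρL * (ν * ξ)) / 2)) := by field_simp
  rw [e1, div_form hm1] at A1
  rw [e2, div_form hm0]
  refine (psi_div_antitone hL (by linarith) hm1 hm (by linarith)).trans (A1.trans ?_)
  apply mul_le_mul_of_nonneg_left _ (by positivity)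
  have a1 : binEntropy ((1 - ρL * (ν * ξ2)) / 2) = log 2 - kap (ρL * (ν * ξ2)) := by unfold kap; ring
  have a2 : binEntropy ((1 - ρL * (ν * ξ)) / 2) = log 2 - kap (ρL * (ν * ξ)) := by unfold kap; ring
  rw [a1, a2]
  have hb : ρL * (ν * ξ) ≤ ρL * (ν * ξ2) :=
    mul_le_mul_of_nonneg_left (mul_le_mul_of_nonneg_left hξ2 hν0.le) hL
  have hc : ρL * (ν * ξ2) ≤ 1 := by
    have : 0 ≤ ν * ξ2 := by nlinarith
    nlinarith
  have := kap_mono (by positivity : 0 ≤ ρL * (ν * ξ)) hb hc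
  linarith

lemma J1_le_kap_w {m ξ w : ℝ} (hm : 0 < m) (hm2 : m ≤ 1 / 2) (hξ : 0 < ξ) (hξw : ξ ≤ w) (hw : w ≤ 1) :
    J1 m (ξ * m) ≤ 2 * (ξ * m) / w * kap w := by
  have hw0 : 0 < w := by linarith
  have A := (hasSum_J1_ray hm hm2 hξ.le (hξw.trans hw)).mul_left m
  have B := (hasSum_kapc hw0.le hw).mul_left (2 * (ξ * m) / w)
  have e : m * (J1 m (ξ * m) / m) = J1 m (ξ * m) := by field_simp
  rw [e] at A
  refine hasSum_le (fun k => ?_) A B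
  have hmu := mu_pos k
  have hη0 : 0 ≤ m / (1 - m) := div_nonneg hm.le (by linarith)
  have hη1 : m / (1 - m) ≤ 1 := by rw [div_le_one (by linarith)]; linarith
  have h1 : (m / (1 - m)) ^ (2 * k + 1) ≤ 1 := pow_le_one₀ hη0 hη1
  have h2 : ξ ^ (2 * k + 1) ≤ w ^ (2 * k + 1) := pow_le_pow_left₀ hξ.le hξw _
  have e3 : ξ ^ (2 * k + 2) = ξ ^ (2 * k + 1) * ξ := pow_succ _ _
  have e4 : w ^ (2 * k + 2) = w ^ (2 * k + 1) * w := pow_succ _ _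
  calc m * (mu k * ξ ^ (2 * k + 2) * (1 + (m / (1 - m)) ^ (2 * k + 1)))
      ≤ m * (mu k * ξ ^ (2 * k + 2) * 2) := by
        apply mul_le_mul_of_nonneg_left _ hm.le
        apply mul_le_mul_of_nonneg_left _ (by positivity)
        linarith
    _ = (2 * m * ξ * mu k) * ξ ^ (2 * k + 1) := by rw [e3]; ring
    _ ≤ (2 * m * ξ * mu k) * w ^ (2 * k + 1) := mul_le_mul_of_nonneg_left h2 (by positivity)
    _ = 2 * (ξ * m) / w * (mu k * w ^ (2 * k + 2)) := by rw [e4]; field_simp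

/-- (S') leaf, positive lower `ξ`. -/
theorem leafN {ρL ρH m1 m2 ξ1 ξ2 ν : ℝ} (hL : 0 ≤ ρL) (hH : ρH < 1) (hm1 : 0 < m1)
    (hm2 : m2 ≤ 1 / 2) (hν : 1 ≤ ν) (hξ1 : 0 < ξ1) (hνξ : ν * ξ2 < 1)
    (A1 : psi ρL m1 ≤ 2 * m1 / ν * binEntropy ((1 - ρL * (ν * ξ2)) / 2))
    (A2 : GapJ ρH m2 (ξ1 * m2) ≤ 2 * m2 / ν *
      (binEntropy ((1 - ρH * (ν * ξ1)) / 2) - binEntropy ((1 - ν * ξ1) / 2)))
    {ρ m ξ : ℝ} (hρ0 : 0 < ρ) (hρL : ρL ≤ ρ) (hρH : ρ ≤ ρH) (hm1m : m1 ≤ m) (hmm2 : m ≤ m2)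
    (hξ1ξ : ξ1 ≤ ξ) (hξξ2 : ξ ≤ ξ2) : Good ρ m (ξ * m) := by
  have hm0 : 0 < m := by linarith
  have hm20 : 0 < m2 := by linarith
  have hν0 : 0 < ν := by linarith
  have hξ0 : 0 < ξ := by linarith
  have hνξ' : ν * ξ < 1 := lt_of_le_of_lt (mul_le_mul_of_nonneg_left hξξ2 hν0.le) hνξ
  have hνξ1 : ν * ξ1 < 1 := lt_of_le_of_lt (mul_le_mul_of_nonneg_left (hξ1ξ.trans hξξ2) hν0.le) hνξ
  have hξw : ξ ≤ ν * ξ := by nlinarith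
  apply good_of_S hρ0 (by linarith) (by positivity : 0 < ν * ξ) hνξ'
  · exact A1N_box hL hρL (by linarith) hm1 hm1m (by linarith) hν hξ0 hξξ2 hνξ A1
  · apply A2S_down hρ0.le hρH hH (by positivity) (by positivity) hνξ'.le
      (J1_le_kap_w hm0 (by linarith) hξ0 hξw hνξ'.le)
    have e1 : 2 * m2 / ν * (binEntropy ((1 - ρH * (ν * ξ1)) / 2) - binEntropy ((1 - ν * ξ1) / 2)) =
      m2 * (2 / ν * (binEntropy ((1 - ρH * (ν * ξ1)) / 2) - binEntropy ((1 - ν * ξ1) / 2))) := by ring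
    have e2 : 2 * (ξ * m) / (ν * ξ) * (binEntropy ((1 - ρH * (ν * ξ)) / 2) - binEntropy ((1 - ν * ξ) / 2)) =
      m * (2 / ν * (binEntropy ((1 - ρH * (ν * ξ)) / 2) - binEntropy ((1 - ν * ξ) / 2))) := by field_simp
    rw [e1, div_form hm20] at A2
    rw [e2, div_form hm0]
    have hρH0 : 0 ≤ ρH := by linarith
    refine ray_box (x := fun k => 2 * ν ^ (2 * k + 1)) hρH0 hH.le hm0 hmm2 hm2
      (fun k => ?_) hξ1 hξ1ξ (by linarith)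
      (hasSum_gain_nu hν0 hξ0 hνξ'.le hρH0 hH.le) (hasSum_gain_nu hν0 hξ1 hνξ1.le hρH0 hH.le) A2
    have h1 : (m2 / (1 - m2)) ^ (2 * k + 1) ≤ 1 := pow_le_one₀ (div_nonneg hm20.le (by linarith))
      (by rw [div_le_one (by linarith)]; linarith)
    have h2 : 1 ≤ ν ^ (2 * k + 1) := one_le_pow₀ hν
    linarith

/-- (S') leaf from the diagonal. -/
theorem leafN0 {ρL ρH m1 m2 ξ2 ν : ℝ} (hL : 0 ≤ ρL) (hH : ρH < 1) (hm1 : 0 < m1)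
    (hm2 : m2 ≤ 1 / 2) (hν : 1 ≤ ν) (hνξ : ν * ξ2 < 1)
    (A1 : psi ρL m1 ≤ 2 * m1 / ν * binEntropy ((1 - ρL * (ν * ξ2)) / 2))
    (A2 : 4 * m2 * bb ρH ≤ (1 - ρH ^ 2) / 2 * (2 * ν - (1 + m2 / (1 - m2))))
    {ρ m ξ : ℝ} (hρ0 : 0 < ρ) (hρL : ρL ≤ ρ) (hρH : ρ ≤ ρH) (hm1m : m1 ≤ m) (hmm2 : m ≤ m2)
    (hξ0 : 0 < ξ) (hξξ2 : ξ ≤ ξ2) : Good ρ m (ξ * m) := by
  have hm0 : 0 < m := by linarith
  have hm20 : 0 < m2 := by linarith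
  have hν0 : 0 < ν := by linarith
  have hνξ' : ν * ξ < 1 := lt_of_le_of_lt (mul_le_mul_of_nonneg_left hξξ2 hν0.le) hνξ
  have hξw : ξ ≤ ν * ξ := by nlinarith
  apply good_of_S hρ0 (by linarith) (by positivity : 0 < ν * ξ) hνξ'
  · exact A1N_box hL hρL (by linarith) hm1 hm1m (by linarith) hν hξ0 hξξ2 hνξ A1
  · apply A2S_down hρ0.le hρH hH (by positivity) (by positivity) hνξ'.le
      (J1_le_kap_w hm0 (by linarith) hξ0 hξw hνξ'.le)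
    have e2 : 2 * (ξ * m) / (ν * ξ) * (binEntropy ((1 - ρH * (ν * ξ)) / 2) - binEntropy ((1 - ν * ξ) / 2)) =
      m * (2 / ν * (binEntropy ((1 - ρH * (ν * ξ)) / 2) - binEntropy ((1 - ν * ξ) / 2))) := by field_simp
    rw [e2, div_form hm0]
    have hρH0 : 0 ≤ ρH := by linarith
    refine ray_box0 (x := fun k => 2 * ν ^ (2 * k + 1)) hρH0 hH.le hm0 hmm2 hm2
      (fun k => ?_) hξ0.le (by linarith) (hasSum_gain_nu hν0 hξ0 hνξ'.le hρH0 hH.le) ?_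
    · have h1 : (m2 / (1 - m2)) ^ (2 * k + 1) ≤ 1 := pow_le_one₀ (div_nonneg hm20.le (by linarith))
        (by rw [div_le_one (by linarith)]; linarith)
      have h2 : 1 ≤ ν ^ (2 * k + 1) := one_le_pow₀ hν
      linarith
    · simp only [mul_zero, zero_add, pow_one]
      exact A2

end P322
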