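import Vale.Agent.Lib.P322.Cert2

/-!
P322 (Courtade-Kumar): certificates of `Closed ρ (psi ρ)` (generated, checked by the kernel).
-/

namespace P322.H19

set_option maxRecDepth 100000

def c51485 : Cst :=
  ⟨863774965760, 894410162176, 420931090176, 82750926181, 371943571200, 83078045788, 371943571199, 727568056576⟩

def t51485 : T :=
  (.m 23551 (.m 12309 (.m 8899 (.R 19603) (.e 8001 (.R 23787) (.R 21916))) (.m 16244 (.e 8122
  (.R 29648) (.m 14140 (.m 13193 (.R 23944) (.R 24776)) (.e 12183 (.R 27813) (.R 25433)))) (.m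
  19559 (.e 9780 (.N 66472) (.m 17825 (.e 13803 (.R 29208) (.m 17016 (.R 26181) (.R 26874)))
  (.e 14670 (.R 30779) (.e 17115 (.m 18672 (.R 27892) (.R 29143)) (.R 27199))))) (.e 11776 (.N
  72373) (.e 17664 (.e 15603 (.m 21462 (.R 32133) (.N 68788)) (.m 21462 (.m 20488 (.R 29820)
  (.R 31027)) (.S 49406))) (.m 21462 (.m 20488 (.R 28076) (.e 19563 (.R 29436) (.R 28310))) (.e
  20608 (.e 19136 (.S 52699) (.e 20093 (.S 54788) (.S 55987))) (.m 22507 (.R 28846) (.e 22080
  (.m 23029 (.R 29657) (.R 30344)) (.R 29233)))))))))) (.m 28160 (.m 25856 (.e 12928 (.N 79185)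
  (.e 19392 (.e 16160 (.N 72837) (.e 17776 (.S 48852) (.S 51764))) (.e 22624 (.e 21008 (.S
  54443) (.e 22058 (.S 56457) (.S 57606))) (.e 24240 (.m 24704 (.m 24128 (.R 29643) (.e 23432
  (.S 58532) (.R 29839))) (.e 23674 (.S 58298) (.S 59355))) (.m 25048 (.R 29767) (.m 25452 (.R
  30208) (.e 25090 (.R 30714) (.R 30222)))))))) (.e 14080 (.N 83486) (.e 21120 (.e 17600 (.N
  76195) (.e 19360 (.S 50668) (.S 53516))) (.e 24640 (.e 22880 (.S 56104) (.e 23760 (.S 57825)
  (.S 58971))) (.m 27008 (.e 25469 (.e 25066 (.S 59854) (.S 60388)) (.m 26432 (.R 30528) (.e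
  26284 (.e 25889 (.S 60652) (.S 61173)) (.R 30694)))) (.e 26648 (.e 25715 (.S 59819) (.e 26198
  (.S 60670) (.S 61224))) (.e 27631 (.m 27584 (.m 27296 (.R 30848) (.e 27135 (.R 31158) (.R
  30887))) (.e 27161 (.S 61570) (.m 27872 (.R 31122) (.S 62019)))) (.R 31126)))))))) (.e 15999
  (.e 10399 (.N 97492) (.m 30464 (.N 85301) (.N 91576))) (.e 23999 (.e 19999 (.e 17999 (.S
  47422) (.S 50898)) (.e 21999 (.S 53984) (.S 56731))) (.m 30464 (.e 27232 (.e 25801 (.e 24952
  (.S 58551) (.S 59590)) (.e 26558 (.S 60482) (.S 61258))) (.m 29312 (.m 28563 (.e 27943 (.e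
  27600 (.S 61887) (.S 62281)) (.m 28362 (.R 31226) (.R 31394))) (.e 28394 (.e 27847 (.S 61883)
  (.e 28129 (.S 62314) (.S 62612))) (.m 28938 (.m 28751 (.R 31364) (.R 31521)) (.e 28880 (.e
  28644 (.S 62747) (.S 63015)) (.m 29125 (.R 31467) (.R 31628)))))) (.e 29197 (.e 28322 (.e
  27807 (.S 61626) (.S 62166)) (.e 28783 (.S 62648) (.e 28996 (.S 62953) (.S 63170)))) (.e
  29900 (.m 29888 (.m 29600 (.m 29456 (.R 31618) (.R 31739)) (.e 29561 (.e 29384 (.S 63288) (.S
  63481)) (.R 31799))) (.e 29568 (.S 63300) (.e 29739 (.S 63537) (.e 29821 (.S 63652) (.S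
  63739))))) (.e 30267 (.e 30139 (.e 30022 (.S 63806) (.S 63884)) (.S 63964)) (.R 31983))))))
  (.e 30170 (.e 27995 (.e 25398 (.S 58472) (.e 26837 (.S 60042) (.S 61352))) (.e 29247 (.e
  28669 (.S 62195) (.S 62768)) (.e 29744 (.S 63252) (.e 29965 (.S 63544) (.S 63739))))) (.m
  31962 (.m 31213 (.m 30839 (.e 30605 (.e 30397 (.e 30286 (.S 63901) (.S 64012)) (.e 30503 (.S
  64113) (.S 64180))) (.e 30725 (.S 64251) (.S 64326))) (.e 30758 (.e 30483 (.S 63920) (.e
  30625 (.S 64100) (.S 64227))) (.e 31000 (.e 30843 (.S 64328) (.e 30923 (.S 64381) (.S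
  64430))) (.e 31110 (.S 64491) (.S 64558))))) (.e 31321 (.e 30829 (.e 30524 (.S 63865) (.S
  64141)) (.e 31093 (.e 30966 (.S 64308) (.S 64423)) (.e 31211 (.e 31153 (.S 64497) (.S 64557))
  (.e 31267 (.S 64594) (.S 64628))))) (.e 31545 (.e 31438 (.e 31381 (.S 64665) (.S 64701)) (.e
  31493 (.S 64736) (.S 64769))) (.e 31691 (.e 31620 (.m 31754 (.S 64813) (.S 64774)) (.S
  64856)) (.e 31827 (.e 31761 (.S 64900) (.S 64942)) (.e 31895 (.S 64984) (.R 32508))))))) (.e
  31084 (.e 30676 (.S 63861) (.S 64221)) (.e 31678 (.e 31413 (.S 64506) (.e 31553 (.S 64667)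
  (.S 64770))) (.e 31852 (.e 31769 (.S 64852) (.S 64921)) (.e 31928 (.S 64987) (.e 31964 (.S
  65030) (.S 65052)))))))))))))

theorem ok51485 : certOk c51485 107927830528 394517377480 536837357568 163097255971 t51485 = true := by decide +kernel

theorem closed51485 {ρ : ℝ} (h1 : (51485 : ℝ) / 65536 ≤ ρ) (h2 : ρ ≤ (53311 : ℝ) / 65536) :
    Closed ρ (psi ρ) := by
  have e1 : rv c51485.rL = (51485 : ℝ) / 65536 := by unfold rv c51485; norm_num
  have e2 : rv c51485.rH = (53311 : ℝ) / 65536 := by unfold rv c51485; norm_num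
  exact certOk_sound ok51485 (by linarith) (by rw [e1]; exact h1) (by rw [e2]; exact h2)

def c53311 : Cst :=
  ⟨894410162176, 931320037376, 371943571200, 83078045788, 310655020800, 81646970318, 310655020799, 788856606976⟩

def t53311 : T :=
  (.e 6140 (.m 14184 (.m 9332 (.R 21114) (.R 29080)) (.m 21559 (.N 73810) (.m 27164 (.N 91130)
  (.N 107705)))) (.m 14184 (.m 9332 (.R 20306) (.m 11505 (.R 23367) (.e 10162 (.R 27160) (.R
  24896)))) (.m 21559 (.m 17487 (.e 11814 (.m 15749 (.R 29511) (.R 31818)) (.m 15749 (.R 26304)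
  (.e 14651 (.R 28664) (.R 26983)))) (.m 18912 (.e 12526 (.N 66745) (.e 15719 (.R 30118) (.m
  18186 (.R 27557) (.R 28160)))) (.e 13850 (.m 20192 (.N 68208) (.N 71484)) (.e 17705 (.e 15778
  (.S 48804) (.e 16742 (.S 51716) (.S 53598))) (.m 20192 (.m 19542 (.R 28071) (.R 28628)) (.e
  19632 (.m 20876 (.R 29565) (.R 30520)) (.R 28939))))))) (.e 19103 (.e 12622 (.m 25482 (.N
  79100) (.m 29125 (.N 89480) (.N 100179))) (.e 15863 (.e 14243 (.S 43237) (.S 46756)) (.e
  17483 (.m 27164 (.S 50268) (.S 48561)) (.e 18293 (.S 52073) (.S 53448))))) (.e 23640 (.e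
  22052 (.m 25482 (.e 20135 (.m 23521 (.S 55831) (.S 54721)) (.m 23521 (.m 22540 (.e 21094 (.S
  57600) (.R 29317)) (.e 21094 (.S 56882) (.S 58301))) (.e 21094 (.S 56175) (.S 57520)))) (.e
  20578 (.S 54016) (.S 56091))) (.m 27410 (.m 24731 (.m 23392 (.R 29589) (.e 22846 (.S 58874)
  (.m 24062 (.R 29983) (.S 59616)))) (.e 22846 (.S 58002) (.S 59006))) (.S 57626))) (.m 28204
  (.e 25922 (.e 24781 (.m 25237 (.m 24439 (.R 29939) (.e 24230 (.S 60240) (.R 30377))) (.e
  24382 (.S 59687) (.S 60332))) (.m 26493 (.m 25637 (.R 30470) (.e 25373 (.S 60940) (.m 26065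
  (.R 30656) (.S 61421)))) (.e 25373 (.S 60470) (.S 61091)))) (.e 27063 (.e 26518 (.m 27063 (.m
  26493 (.R 30746) (.m 26778 (.R 31037) (.S 61716))) (.S 61519)) (.m 27361 (.e 26797 (.S 62143)
  (.S 62324)) (.S 62012))) (.e 27805 (.m 27634 (.R 31198) (.e 27447 (.S 62375) (.m 27919 (.R
  31310) (.S 62650)))) (.R 31364)))) (.e 26589 (.e 25258 (.S 59315) (.e 25956 (.S 60461) (.S
  61117))) (.m 30486 (.e 29122 (.e 28022 (.e 27091 (.S 61694) (.e 27577 (.S 62168) (.e 27804
  (.S 62481) (.S 62701)))) (.e 28608 (.m 29345 (.e 28325 (.m 28775 (.m 28490 (.R 31522) (.S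
  62948)) (.S 62830)) (.e 28469 (.S 63138) (.S 63225))) (.S 62809)) (.m 29547 (.e 28873 (.e
  28743 (.S 63300) (.S 63381)) (.m 29210 (.R 31716) (.S 63453))) (.m 30017 (.S 63254) (.S
  63144))))) (.e 29884 (.e 29525 (.m 29804 (.e 29263 (.S 63601) (.e 29397 (.S 63683) (.S
  63760))) (.S 63561)) (.e 29710 (.e 29619 (.S 63803) (.S 63857)) (.m 30098 (.S 63947) (.S
  63862)))) (.e 30203 (.e 29996 (.S 64017) (.e 30102 (.S 64080) (.S 64139))) (.e 30349 (.S
  64211) (.S 64291))))) (.e 30684 (.e 29180 (.e 27496 (.S 61523) (.e 28419 (.S 62321) (.S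
  63008))) (.e 29932 (.e 29578 (.S 63442) (.S 63737)) (.e 30337 (.e 30142 (.S 63945) (.S
  64110)) (.m 31627 (.m 31057 (.e 30517 (.e 30429 (.S 64234) (.S 64308)) (.e 30602 (.S 64357)
  (.S 64403))) (.S 64236)) (.S 64159))))) (.e 31558 (.e 30990 (.m 31413 (.e 30843 (.e 30765 (.S
  64443) (.S 64487)) (.e 30918 (.S 64530) (.S 64571))) (.S 64414)) (.e 31301 (.e 31099 (.e
  31045 (.S 64595) (.S 64625)) (.e 31203 (.e 31152 (.S 64655) (.S 64683)) (.e 31253 (.S 64711)
  (.S 64738)))) (.m 32035 (.e 31430 (.e 31367 (.S 64773) (.S 64808)) (.e 31496 (.S 64843) (.S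
  64878))) (.S 64757)))) (.e 31888 (.e 31736 (.e 31651 (.e 31605 (.S 64904) (.S 64930)) (.e
  31694 (.S 64954) (.S 64976))) (.e 31815 (.e 31776 (.S 64999) (.S 65020)) (.e 31852 (.S 65040)
  (.S 65060)))) (.e 31981 (.m 32328 (.e 31936 (.S 65084) (.S 65109)) (.S 65052)) (.m 32375 (.e
  32024 (.S 65132) (.S 65155)) (.S 65105))))))))))))))

theorem ok53311 : certOk c53311 103012106240 354376136446 537961431040 140882051932 t53311 = true := by decide +kernel

theorem closed53311 {ρ : ℝ} (h1 : (53311 : ℝ) / 65536 ≤ ρ) (h2 : ρ ≤ (55511 : ℝ) / 65536) :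
    Closed ρ (psi ρ) := by
  have e1 : rv c53311.rL = (53311 : ℝ) / 65536 := by unfold rv c53311; norm_num
  have e2 : rv c53311.rH = (55511 : ℝ) / 65536 := by unfold rv c53311; norm_num
  exact certOk_sound ok53311 (by linarith) (by rw [e1]; exact h1) (by rw [e2]; exact h2)

def c55511 : Cst :=
  ⟨931320037376, 961586135040, 310655020800, 81646970318, 258549266176, 78502312915, 258549266175, 840962361600⟩

def t55511 : T :=
  (.e 11091 (.m 15407 (.m 9661 (.R 23030) (.m 12200 (.e 5546 (.R 31447) (.R 25467)) (.m 13710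
  (.R 28775) (.R 31466)))) (.m 22469 (.m 18606 (.N 69042) (.N 78814)) (.m 27619 (.N 91366) (.N
  107679)))) (.e 21390 (.e 16241 (.m 19064 (.m 14541 (.R 26061) (.m 16650 (.e 13666 (.R 29148)
  (.R 27545)) (.e 13666 (.R 32543) (.m 17816 (.R 29098) (.R 30967))))) (.e 13666 (.m 24994 (.S
  44439) (.S 42172)) (.e 14954 (.S 48168) (.S 50761)))) (.e 18816 (.m 23069 (.m 19356 (.m 17730
  (.R 27687) (.e 17529 (.S 55949) (.R 28606))) (.e 17915 (.S 54314) (.S 56417))) (.S 52715))
  (.m 27885 (.m 22906 (.m 20761 (.R 29215) (.e 20103 (.S 57400) (.m 21834 (.R 29771) (.S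
  58690)))) (.e 20103 (.S 55834) (.S 57572))) (.S 55486)))) (.e 26539 (.m 27079 (.e 23965 (.e
  22678 (.m 24235 (.m 22813 (.R 29981) (.m 23524 (.S 59826) (.S 59371))) (.S 58788)) (.m 24879
  (.e 23322 (.S 60518) (.S 60967)) (.S 60043))) (.m 25522 (.e 24781 (.S 61374) (.S 61879)) (.e
  25363 (.e 24694 (.S 60845) (.S 61570)) (.e 25976 (.S 62068) (.S 62425))))) (.e 23965 (.e
  22678 (.S 57889) (.S 59268)) (.e 25363 (.S 60601) (.e 25976 (.S 61474) (.S 62004))))) (.m
  29654 (.m 28097 (.e 27084 (.S 62681) (.e 27615 (.S 62988) (.S 63269))) (.e 28364 (.e 27530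
  (.S 62533) (.m 28876 (.e 27965 (.S 63113) (.S 63398)) (.S 63088))) (.e 29065 (.e 28730 (.S
  63570) (.S 63754)) (.e 29372 (.S 63919) (.S 64068))))) (.e 30174 (.e 28357 (.e 27526 (.S
  62212) (.S 62893)) (.e 29385 (.e 28905 (.S 63377) (.S 63749)) (.m 31211 (.e 29806 (.e 29602
  (.S 63998) (.S 64124)) (.e 29996 (.S 64222) (.S 64312))) (.S 63990)))) (.e 30704 (.e 30454
  (.e 30318 (.S 64378) (.S 64446)) (.e 30583 (.S 64510) (.S 64569))) (.e 31275 (.e 31013 (.e
  30865 (.S 64638) (.S 64710)) (.e 31149 (.S 64777) (.S 64838))) (.e 31498 (.e 31391 (.S 64894)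
  (.S 64945)) (.e 31597 (.S 64992) (.S 65036))))))))))

theorem ok55511 : certOk c55511 101636374528 320640441248 531636420608 115894708563 t55511 = true := by decide +kernel

theorem closed55511 {ρ : ℝ} (h1 : (55511 : ℝ) / 65536 ≤ ρ) (h2 : ρ ≤ (57315 : ℝ) / 65536) :
    Closed ρ (psi ρ) := by
  have e1 : rv c55511.rL = (55511 : ℝ) / 65536 := by unfold rv c55511; norm_num
  have e2 : rv c55511.rH = (57315 : ℝ) / 65536 := by unfold rv c55511; norm_num
  exact certOk_sound ok55511 (by linarith) (by rw [e1]; exact h1) (by rw [e2]; exact h2)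

def c57315 : Cst :=
  ⟨961586135040, 996063313920, 258549266176, 78502312915, 197163621376, 71929676903, 197163621375, 902348006400⟩

def t57315 : T :=
  (.e 20720 (.m 13619 (.m 8780 (.R 24210) (.e 6810 (.R 31404) (.m 10935 (.R 25822) (.e 10215
  (.R 28999) (.R 27104))))) (.e 10360 (.m 21125 (.m 16962 (.m 15199 (.N 67688) (.N 72981)) (.N
  80635)) (.m 26947 (.N 95824) (.N 116054))) (.e 15540 (.m 21125 (.m 16246 (.m 14875 (.e 12618
  (.R 29767) (.R 27757)) (.e 12950 (.R 31641) (.R 28725))) (.e 12950 (.S 47137) (.e 14245 (.S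
  51591) (.S 54256)))) (.e 12950 (.S 43780) (.S 49478))) (.e 18130 (.m 22566 (.m 18726 (.e
  16835 (.S 57010) (.S 58238)) (.e 16835 (.S 54809) (.S 56905))) (.S 53596)) (.m 24374 (.e
  19425 (.m 21021 (.S 58828) (.S 57395)) (.m 21759 (.S 59712) (.S 58762))) (.S 56756)))))) (.m
  26744 (.e 22828 (.m 23732 (.e 21774 (.S 60285) (.S 60993)) (.e 21774 (.S 59196) (.S 60288)))
  (.e 24786 (.e 23807 (.m 24786 (.S 61513) (.S 60967)) (.m 25276 (.S 62039) (.S 61721))) (.e
  25834 (.e 25328 (.S 62359) (.S 62640)) (.S 62991)))) (.e 26299 (.e 23510 (.m 29756 (.S 59355)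
  (.S 58977)) (.e 25029 (.S 61179) (.e 25692 (.S 62004) (.S 62497)))) (.m 29756 (.m 28250 (.e
  27362 (.e 26854 (.S 63056) (.S 63317)) (.e 27826 (.S 63547) (.S 63751))) (.e 28354 (.e 27424
  (.S 62924) (.e 28029 (.S 63481) (.S 63765))) (.e 29122 (.e 28756 (.S 63926) (.S 64094)) (.e
  29454 (.S 64243) (.S 64375))))) (.e 30367 (.e 28827 (.e 27719 (.S 62803) (.e 28307 (.S 63393)
  (.S 63722))) (.e 29692 (.e 29286 (.S 64007) (.e 29495 (.S 64186) (.S 64311))) (.e 30050 (.e
  29877 (.S 64408) (.S 64482)) (.e 30213 (.S 64550) (.S 64613))))) (.e 31305 (.e 30894 (.e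
  30647 (.e 30511 (.S 64673) (.S 64728)) (.e 30774 (.S 64779) (.S 64827))) (.e 31112 (.e 31006
  (.S 64872) (.S 64914)) (.e 31211 (.S 64953) (.S 64989)))) (.e 31626 (.e 31475 (.e 31393 (.S
  65024) (.S 65056)) (.e 31553 (.S 65085) (.S 65113))) (.e 31759 (.e 31695 (.S 65140) (.S
  65164)) (.e 31820 (.S 65187) (.S 65209))))))))))

theorem ok57315 : certOk c57315 94959042560 280581159404 534807314432 93554138342 t57315 = true := by decide +kernel

theorem closed57315 {ρ : ℝ} (h1 : (57315 : ℝ) / 65536 ≤ ρ) (h2 : ρ ≤ (59370 : ℝ) / 65536) :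
    Closed ρ (psi ρ) := by
  have e1 : rv c57315.rL = (57315 : ℝ) / 65536 := by unfold rv c57315; norm_num
  have e2 : rv c57315.rH = (59370 : ℝ) / 65536 := by unfold rv c57315; norm_num
  exact certOk_sound ok57315 (by linarith) (by rw [e1]; exact h1) (by rw [e2]; exact h2)

def c59370 : Cst :=
  ⟨996063313920, 1021917003776, 197163621376, 71929676903, 149713248000, 64080061964, 149713247999, 949798379776⟩

def t59370 : T :=
  (.e 20372 (.m 13377 (.m 8547 (.R 26119) (.e 6689 (.N 66745) (.m 10693 (.R 27409) (.e 10033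
  (.R 30409) (.R 28458))))) (.m 20937 (.e 10186 (.m 16735 (.N 72669) (.N 86164)) (.e 15279 (.m
  16735 (.e 12733 (.S 52747) (.S 56816)) (.e 12733 (.S 49347) (.S 54588))) (.e 17826 (.e 16553
  (.S 57897) (.S 58979)) (.S 60253)))) (.e 10186 (.m 26853 (.N 103468) (.N 126584)) (.e 15279
  (.e 12733 (.S 46534) (.S 51785)) (.e 17826 (.S 55794) (.e 19099 (.S 58156) (.S 59587)))))))
  (.e 25857 (.m 26570 (.e 23115 (.e 21744 (.m 23471 (.S 61251) (.S 60413)) (.S 61741)) (.e
  24600 (.S 62465) (.S 63103))) (.e 23115 (.S 60307) (.e 24600 (.S 61855) (.S 62748)))) (.e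
  28600 (.e 27401 (.m 29313 (.e 26678 (.S 63429) (.S 63738)) (.S 63250)) (.e 28038 (.S 63947)
  (.S 64165))) (.e 30330 (.e 29580 (.e 29123 (.S 64356) (.S 64522)) (.e 29980 (.S 64662) (.S
  64782))) (.e 30903 (.e 30636 (.S 64884) (.S 64972)) (.e 31137 (.S 65047) (.S 65112)))))))

theorem ok59370 : certOk c59370 91620376576 248517710643 525831503872 70477511496 t59370 = true := by decide +kernel

theorem closed59370 {ρ : ℝ} (h1 : (59370 : ℝ) / 65536 ≤ ρ) (h2 : ρ ≤ (60911 : ℝ) / 65536) :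
    Closed ρ (psi ρ) := by
  have e1 : rv c59370.rL = (59370 : ℝ) / 65536 := by unfold rv c59370; norm_num
  have e2 : rv c59370.rH = (60911 : ℝ) / 65536 := by unfold rv c59370; norm_num
  exact certOk_sound ok59370 (by linarith) (by rw [e1]; exact h1) (by rw [e2]; exact h2)

def c60911 : Cst :=
  ⟨1021917003776, 1041311465472, 149713248000, 64080061964, 113319630592, 55852454648, 113319630591, 986191997184⟩

def t60911 : T :=
  (.e 20058 (.e 7020 (.m 13080 (.m 8264 (.R 27663) (.N 67112)) (.m 20703 (.N 94528) (.N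
  135637))) (.e 11583 (.m 15167 (.m 10319 (.R 28208) (.e 9302 (.S 49291) (.S 54917))) (.e 9302
  (.S 42388) (.S 49031))) (.m 19482 (.e 15533 (.e 13558 (.S 56426) (.S 58407)) (.S 60439)) (.e
  15821 (.S 54017) (.e 18575 (.S 58812) (.S 60776)))))) (.e 25458 (.e 22758 (.e 21408 (.S
  61565) (.S 62221)) (.e 24108 (.S 62806) (.S 63330))) (.e 29031 (.e 27541 (.e 26587 (.S 63769)
  (.S 64104)) (.e 28348 (.S 64368) (.S 64577))) (.e 30096 (.e 29608 (.S 64745) (.S 64881)) (.e
  30509 (.S 64992) (.S 65083))))))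

theorem ok60911 : certOk c60911 87593844736 222431538825 517711331328 53005257209 t60911 = true := by decide +kernel

theorem closed60911 {ρ : ℝ} (h1 : (60911 : ℝ) / 65536 ≤ ρ) (h2 : ρ ≤ (62067 : ℝ) / 65536) :
    Closed ρ (psi ρ) := by
  have e1 : rv c60911.rL = (60911 : ℝ) / 65536 := by unfold rv c60911; norm_num
  have e2 : rv c60911.rH = (62067 : ℝ) / 65536 := by unfold rv c60911; norm_num
  exact certOk_sound ok60911 (by linarith) (by rw [e1]; exact h1) (by rw [e2]; exact h2)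

def c62067 : Cst :=
  ⟨1041311465472, 1055857311744, 113319630592, 55852454648, 85575408640, 47843596876, 85575408639, 1013936219136⟩

def t62067 : T :=
  (.e 10651 (.m 14695 (.m 8541 (.R 29080) (.e 5326 (.N 85377) (.e 7989 (.S 48739) (.S 55316))))
  (.e 3728 (.N 153965) (.e 7190 (.S 34210) (.S 47921)))) (.e 20541 (.m 18682 (.e 14667 (.S
  57950) (.S 61137)) (.e 15596 (.S 55453) (.e 18069 (.S 60049) (.S 61704)))) (.e 25486 (.e
  23014 (.S 62781) (.m 27891 (.S 63714) (.S 63404))) (.e 28642 (.e 27287 (.S 64253) (.S 64637))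
  (.e 29662 (.S 64894) (.S 65072))))))

theorem ok62067 : certOk c62067 83282100224 200904558393 510530682880 39835352721 t62067 = true := by decide +kernel

theorem closed62067 {ρ : ℝ} (h1 : (62067 : ℝ) / 65536 ≤ ρ) (h2 : ρ ≤ (62934 : ℝ) / 65536) :
    Closed ρ (psi ρ) := by
  have e1 : rv c62067.rL = (62067 : ℝ) / 65536 := by unfold rv c62067; norm_num
  have e2 : rv c62067.rH = (62934 : ℝ) / 65536 := by unfold rv c62067; norm_num
  exact certOk_sound ok62067 (by linarith) (by rw [e1]; exact h1) (by rw [e2]; exact h2)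

def c62934 : Cst :=
  ⟨1055857311744, 1066762502144, 85575408640, 47843596876, 64522813440, 40414328556, 64522813439, 1034988814336⟩

def t62934 : T :=
  (.e 4705 (.m 14527 (.m 8267 (.R 30023) (.N 94688)) (.N 154137)) (.e 17374 (.e 11040 (.m 12417
  (.e 7873 (.S 52213) (.S 58019)) (.e 7873 (.S 42859) (.S 53271))) (.e 14207 (.S 58377) (.S
  60759))) (.e 23708 (.e 20541 (.S 62352) (.S 63474)) (.e 27798 (.e 26058 (.S 64218) (.S
  64654)) (.e 29087 (.S 64928) (.S 65108))))))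

theorem ok62934 : certOk c62934 78936801280 182915774145 504021123072 29938585436 t62934 = true := by decide +kernel

theorem closed62934 {ρ : ℝ} (h1 : (62934 : ℝ) / 65536 ≤ ρ) (h2 : ρ ≤ (63584 : ℝ) / 65536) :
    Closed ρ (psi ρ) := by
  have e1 : rv c62934.rL = (62934 : ℝ) / 65536 := by unfold rv c62934; norm_num
  have e2 : rv c62934.rH = (63584 : ℝ) / 65536 := by unfold rv c62934; norm_num
  exact certOk_sound ok62934 (by linarith) (by rw [e1]; exact h1) (by rw [e2]; exact h2)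

def c63584 : Cst :=
  ⟨1066762502144, 1074949783552, 64522813440, 40414328556, 48575004672, 33740065244, 48575004671, 1050936623104⟩

def t63584 : T :=
  (.e 19308 (.m 12077 (.m 7332 (.R 30598) (.e 6039 (.N 74728) (.S 58147))) (.e 9654 (.e 4827
  (.m 19893 (.N 131297) (.N 196724)) (.S 49195)) (.e 14481 (.m 19893 (.S 59922) (.S 57598)) (.S
  62158)))) (.e 26066 (.e 22687 (.S 63652) (.S 64415)) (.e 28237 (.S 64890) (.S 65138))))

theorem ok63584 : certOk c63584 74675388416 167686210027 498367201280 22502370914 t63584 = true := by decide +kernel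

theorem closed63584 {ρ : ℝ} (h1 : (63584 : ℝ) / 65536 ≤ ρ) (h2 : ρ ≤ (64072 : ℝ) / 65536) :
    Closed ρ (psi ρ) := by
  have e1 : rv c63584.rL = (63584 : ℝ) / 65536 := by unfold rv c63584; norm_num
  have e2 : rv c63584.rH = (64072 : ℝ) / 65536 := by unfold rv c63584; norm_num
  exact certOk_sound ok63584 (by linarith) (by rw [e1]; exact h1) (by rw [e2]; exact h2)

def c64072 : Cst :=
  ⟨1074949783552, 1077533474816, 48575004672, 33740065244, 43516984320, 31383005200, 43516984319, 1055994643456⟩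

def t64072 : T :=
  (.e 14385 (.e 7193 (.m 12040 (.e 3597 (.N 76104) (.S 53980)) (.e 3597 (.N 178921) (.S
  44749))) (.m 15353 (.S 60178) (.S 57968))) (.e 19419 (.S 62818) (.e 24094 (.S 64161) (.e
  26878 (.S 64807) (.S 65096)))))

theorem ok64072 : certOk c64072 74222403584 162420919922 482663727104 17515586188 t64072 = true := by decide +kernel

theorem closed64072 {ρ : ℝ} (h1 : (64072 : ℝ) / 65536 ≤ ρ) (h2 : ρ ≤ (64226 : ℝ) / 65536) :
    Closed ρ (psi ρ) := by
  have e1 : rv c64072.rL = (64072 : ℝ) / 65536 := by unfold rv c64072; norm_num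
  have e2 : rv c64072.rH = (64226 : ℝ) / 65536 := by unfold rv c64072; norm_num
  exact certOk_sound ok64072 (by linarith) (by rw [e1]; exact h1) (by rw [e2]; exact h2)

end P322.H19
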