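import Vale.Agent.Lib.P322.MidA
import Vale.Agent.Lib.P322.MidB
import Vale.Agent.Lib.P322.MidC
import Vale.Agent.Lib.P322.MidD
import Vale.Agent.Lib.P322.MidE

/-!
P322 (Courtade-Kumar): the middle range `3/5 ≤ ρ ≤ 49/50`.
-/

namespace P322

open Real

/-- **The two-point inequality for `psi` in the middle range.** -/
theorem closed_mid {ρ : ℝ} (h1 : 3 / 5 ≤ ρ) (h2 : ρ ≤ 49 / 50) : Closed ρ (psi ρ) := by
  rcases le_total ρ (41024 / 65536) with a1 | a1
  · exact H19.closed39321 (by linarith) a1
  rcases le_total ρ (42617 / 65536) with a2 | a2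
  · exact H19.closed41024 a1 a2
  rcases le_total ρ (44106 / 65536) with a3 | a3
  · exact H19.closed42617 a2 a3
  rcases le_total ρ (46034 / 65536) with a4 | a4
  · exact H19.closed44106 a3 a4
  rcases le_total ρ (47789 / 65536) with a5 | a5
  · exact H19.closed46034 a4 a5
  rcases le_total ρ (49386 / 65536) with a6 | a6
  · exact H19.closed47789 a5 a6
  rcases le_total ρ (51485 / 65536) with a7 | a7
  · exact H19.closed49386 a6 a7
  rcases le_total ρ (53311 / 65536) with a8 | a8
  · exact H19.closed51485 a7 a8
  rcases le_total ρ (55511 / 65536) with a9 | a9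
  · exact H19.closed53311 a8 a9
  rcases le_total ρ (57315 / 65536) with a10 | a10
  · exact H19.closed55511 a9 a10
  rcases le_total ρ (59370 / 65536) with a11 | a11
  · exact H19.closed57315 a10 a11
  rcases le_total ρ (60911 / 65536) with a12 | a12
  · exact H19.closed59370 a11 a12
  rcases le_total ρ (62067 / 65536) with a13 | a13
  · exact H19.closed60911 a12 a13
  rcases le_total ρ (62934 / 65536) with a14 | a14
  · exact H19.closed62067 a13 a14
  rcases le_total ρ (63584 / 65536) with a15 | a15
  · exact H19.closed62934 a14 a15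
  rcases le_total ρ (64072 / 65536) with a16 | a16
  · exact H19.closed63584 a15 a16
  · exact H19.closed64072 a16 (by linarith)

end P322
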