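import Vale.Agent.Lib.P322.KapB

/-!
P322 (Courtade-Kumar): the sign pattern lemma: if `0 ≤ (1-r) C0 + ∑ mu_k β_k (r - r^(k+1))` with
`C0 ≥ 0` and `β` antitone, then the same holds at every `0 ≤ r' ≤ r`.
-/

namespace P322

open Real Finset

/-- `1 - x^n = (1-x) S_n(x)`. -/
lemma one_sub_pow_eq (x : ℝ) (n : ℕ) : 1 - x ^ n = (1 - x) * ∑ i ∈ range n, x ^ i := by
  rw [mul_comm]; exact (geom_sum_mul_neg x n).symm

lemma geomS_mono {x y : ℝ} (h0 : 0 ≤ x) (hxy : x ≤ y) (n : ℕ) :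
    ∑ i ∈ range n, x ^ i ≤ ∑ i ∈ range n, y ^ i :=
  sum_le_sum (fun i _ => pow_le_pow_left₀ h0 hxy i)

lemma pow_geomS_le {x y : ℝ} (h0 : 0 ≤ x) (hxy : x ≤ y) (n : ℕ) :
    x ^ n * ∑ i ∈ range n, y ^ i ≤ y ^ n * ∑ i ∈ range n, x ^ i := by
  rw [mul_sum, mul_sum]
  apply sum_le_sum
  intro i hi
  have hi' : i ≤ n := (mem_range.mp hi).le
  obtain ⟨j, rfl⟩ := Nat.exists_eq_add_of_le hi'
  have h1 : x ^ j ≤ y ^ j := pow_le_pow_left₀ h0 hxy j
  have hy0 : 0 ≤ y := h0.trans hxy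
  have h2 : 0 ≤ x ^ i * y ^ i := by positivity
  calc x ^ (i + j) * y ^ i = (x ^ i * y ^ i) * x ^ j := by ring
    _ ≤ (x ^ i * y ^ i) * y ^ j := mul_le_mul_of_nonneg_left h1 h2
    _ = y ^ (i + j) * x ^ i := by ring

/-- for `k ≤ K` and `0 ≤ x ≤ y`: `S_K(x) S_k(y) ≤ S_k(x) S_K(y)`. -/
lemma geomS_cross {x y : ℝ} (h0 : 0 ≤ x) (hxy : x ≤ y) {k K : ℕ} (hk : k ≤ K) :
    (∑ i ∈ range K, x ^ i) * ∑ i ∈ range k, y ^ i ≤ (∑ i ∈ range k, x ^ i) * ∑ i ∈ range K, y ^ i := by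
  obtain ⟨j, rfl⟩ := Nat.exists_eq_add_of_le hk
  have e : ∀ z : ℝ, ∑ i ∈ range (k + j), z ^ i = ∑ i ∈ range k, z ^ i + z ^ k * ∑ i ∈ range j, z ^ i := by
    intro z
    rw [sum_range_add, mul_sum]
    congr 1
    apply sum_congr rfl
    intro i _; rw [pow_add]
  rw [e x, e y]
  have h1 := pow_geomS_le h0 hxy k
  have h2 := geomS_mono h0 hxy j
  have hy0 : 0 ≤ y := h0.trans hxy
  have p1 : 0 ≤ ∑ i ∈ range j, x ^ i := sum_nonneg (fun i _ => by positivity)
  have p2 : 0 ≤ ∑ i ∈ range k, x ^ i := sum_nonneg (fun i _ => by positivity)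
  have h3 : (x ^ k * ∑ i ∈ range k, y ^ i) * ∑ i ∈ range j, x ^ i ≤
      (y ^ k * ∑ i ∈ range k, x ^ i) * ∑ i ∈ range j, y ^ i :=
    mul_le_mul h1 h2 p1 (by positivity)
  nlinarith

/-- cross inequality for `r - r^(k+1)`. -/
lemma tau_cross {x y : ℝ} (h0 : 0 ≤ x) (hxy : x ≤ y) (hy1 : y ≤ 1) {k K : ℕ} (hk : k ≤ K) :
    (x - x ^ (K + 1)) * (y - y ^ (k + 1)) ≤ (x - x ^ (k + 1)) * (y - y ^ (K + 1)) := by
  have e : ∀ (z : ℝ) (n : ℕ), z - z ^ (n + 1) = z * ((1 - z) * ∑ i ∈ range n, z ^ i) := by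
    intro z n
    rw [← one_sub_pow_eq, pow_succ]; ring
  rw [e, e, e, e]
  have h := geomS_cross h0 hxy hk
  have hy0 : 0 ≤ y := h0.trans hxy
  have hc : 0 ≤ x * (1 - x) * (y * (1 - y)) :=
    mul_nonneg (mul_nonneg h0 (by linarith)) (mul_nonneg hy0 (by linarith))
  have := mul_le_mul_of_nonneg_left h hc
  nlinarith

lemma tau_cross_one {x y : ℝ} (h0 : 0 ≤ x) (hxy : x ≤ y) (hy1 : y ≤ 1) (K : ℕ) :
    (x - x ^ (K + 1)) * (1 - y) ≤ (y - y ^ (K + 1)) * (1 - x) := by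
  have e : ∀ (z : ℝ) (n : ℕ), z - z ^ (n + 1) = z * ((1 - z) * ∑ i ∈ range n, z ^ i) := by
    intro z n
    rw [← one_sub_pow_eq, pow_succ]; ring
  rw [e, e]
  have h := geomS_mono h0 hxy K
  have hy0 : 0 ≤ y := h0.trans hxy
  have p1 : 0 ≤ ∑ i ∈ range K, x ^ i := sum_nonneg (fun i _ => by positivity)
  have h2 : x * ∑ i ∈ range K, x ^ i ≤ y * ∑ i ∈ range K, y ^ i := mul_le_mul hxy h p1 hy0
  have hc : 0 ≤ (1 - x) * (1 - y) := mul_nonneg (by linarith) (by linarith)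
  have := mul_le_mul_of_nonneg_left h2 hc
  nlinarith

/-- **Sign pattern lemma.** -/
theorem mlemma {β : ℕ → ℝ} (hβ : Antitone β) {C0 r r' P P' : ℝ} (hr' : 0 ≤ r') (hrr : r' ≤ r)
    (hr : r < 1) (hC : 0 ≤ C0) (hs : HasSum (fun k => mu k * β k * (r - r ^ (k + 1))) P)
    (hs' : HasSum (fun k => mu k * β k * (r' - r' ^ (k + 1))) P')
    (h : 0 ≤ (1 - r) * C0 + P) : 0 ≤ (1 - r') * C0 + P' := by
  have hr0 : 0 ≤ r := hr'.trans hrr
  have tpos : ∀ x : ℝ, 0 ≤ x → x ≤ 1 → ∀ k : ℕ, 0 ≤ x - x ^ (k + 1) := by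
    intro x hx hx1 k
    have : x ^ (k + 1) ≤ x ^ 1 := pow_le_pow_of_le_one hx hx1 (by omega)
    rw [pow_one] at this; linarith
  by_cases hall : ∀ k : ℕ, 1 ≤ k → 0 ≤ β k
  · have hP' : 0 ≤ P' := by
      refine hasSum_le (f := fun _ => 0) (fun k => ?_) hasSum_zero hs'
      rcases Nat.eq_zero_or_pos k with hk | hk
      · subst hk; simp
      · exact mul_nonneg (mul_nonneg (mu_pos k).le (hall k hk)) (tpos r' hr' (by linarith) k)
    have : 0 ≤ (1 - r') * C0 := mul_nonneg (by linarith) hC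
    linarith
  · push Not at hall
    classical
    have hex : ∃ k : ℕ, 1 ≤ k ∧ β k < 0 := hall
    set K := Nat.find hex with hK
    have hK1 : 1 ≤ K := (Nat.find_spec hex).1
    have hKneg : β K < 0 := (Nat.find_spec hex).2
    have hlt : ∀ k : ℕ, 1 ≤ k → k < K → 0 ≤ β k := by
      intro k hk hkK
      by_contra hneg
      exact Nat.find_min hex hkK ⟨hk, not_le.mp hneg⟩
    rcases hr0.eq_or_lt with h0 | hrpos
    · -- r = 0, r' = 0
      have h1 : r' = r := by linarith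
      subst h1
      have : P' = P := hs'.unique hs
      rw [this]; exact h
    · have hden : 0 < r - r ^ (K + 1) := by
        have : r ^ (K + 1) < r ^ 1 := pow_lt_pow_right_of_lt_one₀ hrpos hr (by omega)
        rw [pow_one] at this; linarith
      set lam := (r' - r' ^ (K + 1)) / (r - r ^ (K + 1)) with hlam
      have hlam0 : 0 ≤ lam := div_nonneg (tpos r' hr' (by linarith) K) hden.le
      have hterm : ∀ k : ℕ, lam * (mu k * β k * (r - r ^ (k + 1))) ≤ mu k * β k * (r' - r' ^ (k + 1)) := by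
        intro k
        have hmu := mu_pos k
        rcases Nat.eq_zero_or_pos k with hk | hk
        · subst hk; simp
        rcases lt_or_ge k K with hkK | hkK
        · have hb := hlt k hk hkK
          have hc := tau_cross hr' hrr hr.le hkK.le
          have h1 : lam * (r - r ^ (k + 1)) ≤ r' - r' ^ (k + 1) := by
            rw [hlam, div_mul_eq_mul_div, div_le_iff₀ hden]
            exact hc
          have h2 := mul_le_mul_of_nonneg_left h1 (mul_nonneg hmu.le hb)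
          linarith
        · have hb : β k ≤ 0 := (hβ hkK).trans hKneg.le
          have hc := tau_cross hr' hrr hr.le hkK
          have h1 : r' - r' ^ (k + 1) ≤ lam * (r - r ^ (k + 1)) := by
            rw [hlam, div_mul_eq_mul_div, le_div_iff₀ hden]
            linarith
          have h2 := mul_le_mul_of_nonneg_left h1 (mul_nonneg hmu.le (by linarith : 0 ≤ - β k))
          linarith
      have hP : lam * P ≤ P' := hasSum_le hterm (hs.mul_left lam) hs'
      have h1 : lam * (1 - r) ≤ 1 - r' := by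
        rw [hlam, div_mul_eq_mul_div, div_le_iff₀ hden]
        have := tau_cross_one hr' hrr hr.le K
        linarith
      have h2 := mul_le_mul_of_nonneg_right h1 hC
      have h3 := mul_nonneg hlam0 h
      nlinarith

end P322
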