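import Vale.Agent.Lib.P322.Kap
import Vale.Agent.Lib.P322.Engine

/-!
P322 (Courtade-Kumar): noise parameter `a ≤ 1/100`.
-/

namespace P322

open Real Set

/-! Elementary numerical facts. -/

lemma log100_ge : (4.603 : ℝ) ≤ log 100 := by
  have h1 : log 100 = 6 * log 2 + 2 * log (5 / 4) := by
    have : (100 : ℝ) = 2 ^ 6 * (5 / 4) ^ 2 := by norm_num
    rw [this, log_mul (by norm_num) (by norm_num), log_pow, log_pow]
    push_cast; ring
  have h2 := Real.log_two_gt_d9
  have h3 : (0.2222 : ℝ) ≤ log (5 / 4) := by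
    have := Real.le_log_one_add_of_nonneg (x := 1 / 4) (by norm_num)
    norm_num at this ⊢
    linarith
  rw [h1]; linarith

lemma log100_le : log 100 ≤ (4.6089 : ℝ) := by
  have h1 : log 100 = 6 * log 2 + 2 * log (5 / 4) := by
    have : (100 : ℝ) = 2 ^ 6 * (5 / 4) ^ 2 := by norm_num
    rw [this, log_mul (by norm_num) (by norm_num), log_pow, log_pow]
    push_cast; ring
  have h2 := Real.log_two_lt_d9
  have h3 : log (5 / 4) ≤ (0.225 : ℝ) := by
    rw [Real.log_le_iff_le_exp (by norm_num)]
    have h4 := Real.quadratic_le_exp_of_nonneg (x := 0.225) (by norm_num)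
    have h5 : (0.225 : ℝ) ^ 3 / 6 + (1 + 0.225 + 0.225 ^ 2 / 2) ≤ exp 0.225 := by
      have := Real.sum_le_exp_of_nonneg (x := 0.225) (by norm_num) 4
      simp only [Finset.sum_range_succ, Finset.sum_range_zero, Nat.factorial] at this
      norm_num at this ⊢
      linarith
    norm_num at h5 ⊢
    linarith
  rw [h1]; linarith

/-- `L = 1 - log a`. -/
noncomputable def LA (a : ℝ) : ℝ := 1 - log a

lemma LA_ge {a : ℝ} (h0 : 0 < a) (h1 : a ≤ 1 / 100) : 5.603 ≤ LA a := by
  unfold LA
  have h2 : log a ≤ log (1 / 100) := Real.log_le_log h0 h1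
  have h3 : log (1 / 100 : ℝ) = - log 100 := by rw [one_div, log_inv]
  have := log100_ge
  linarith

/-- monotone bound: `a (L + p) (L + r) ≤ (L0 + p)(L0 + r)/100` with `L0 = 5.6089`. -/
lemma aLL_le {a p r : ℝ} (h0 : 0 < a) (h1 : a ≤ 1 / 100) (hp : -3 ≤ p) (hr : -3 ≤ r) :
    a * ((LA a + p) * (LA a + r)) ≤ (5.6089 + p) * (5.6089 + r) / 100 := by
  set x := - log (100 * a) with hx
  have hx0 : 0 ≤ x := by
    have := Real.log_nonpos (x := 100 * a) (by positivity) (by linarith)
    linarith
  have hL : LA a = 1 + log 100 + x := by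
    unfold LA
    rw [hx, log_mul (by norm_num) h0.ne']; ring
  have hle := log100_le
  have hge := log100_ge
  have hexp : 1 + x + x ^ 2 / 2 ≤ exp x := Real.quadratic_le_exp_of_nonneg hx0
  have hae : a * exp x = 1 / 100 := by
    rw [hx, Real.exp_neg, Real.exp_log (by positivity)]
    field_simp
  set P := 1 + log 100 + p with hP
  set Q := 1 + log 100 + r with hQ
  have hP1 : 2.6 ≤ P := by rw [hP]; linarith
  have hQ1 : 2.6 ≤ Q := by rw [hQ]; linarith
  have e1 : (LA a + p) * (LA a + r) = (P + x) * (Q + x) := by rw [hL, hP, hQ]; ring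
  have h2 : (P + x) * (Q + x) ≤ P * Q * (1 + x + x ^ 2 / 2) := by
    have h3 : P + Q ≤ P * Q := by nlinarith
    have h4 : 2 ≤ P * Q := by nlinarith
    nlinarith [mul_nonneg hx0 (sub_nonneg.mpr h3), mul_nonneg (sq_nonneg x) (sub_nonneg.mpr h4)]
  have hPQ : 0 ≤ P * Q := by positivity
  have h3 : P * Q * (1 + x + x ^ 2 / 2) ≤ P * Q * exp x := mul_le_mul_of_nonneg_left hexp hPQ
  rw [e1]
  calc a * ((P + x) * (Q + x)) ≤ a * (P * Q * exp x) := by
        apply mul_le_mul_of_nonneg_left (le_trans h2 h3) h0.le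
    _ = P * Q * (a * exp x) := by ring
    _ = P * Q / 100 := by rw [hae]; ring
    _ ≤ (5.6089 + p) * (5.6089 + r) / 100 := by
        apply div_le_div_of_nonneg_right _ (by norm_num)
        apply mul_le_mul _ _ (by linarith) (by linarith)
        · rw [hP]; linarith
        · rw [hQ]; linarith

/-- `a L ≤ 0.0561`. -/
lemma aL_le {a : ℝ} (h0 : 0 < a) (h1 : a ≤ 1 / 100) : a * LA a ≤ 0.0561 := by
  set x := - log (100 * a) with hx
  have hx0 : 0 ≤ x := by
    have := Real.log_nonpos (x := 100 * a) (by positivity) (by linarith)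
    linarith
  have hL : LA a = 1 + log 100 + x := by
    unfold LA
    rw [hx, log_mul (by norm_num) h0.ne']; ring
  have hle := log100_le
  have hge := log100_ge
  have hexp : 1 + x ≤ exp x := by linarith [Real.add_one_le_exp x]
  have hae : a * exp x = 1 / 100 := by
    rw [hx, Real.exp_neg, Real.exp_log (by positivity)]
    field_simp
  have h2 : LA a ≤ (1 + log 100) * exp x := by
    rw [hL]
    have : (1 + log 100) * (1 + x) ≤ (1 + log 100) * exp x :=
      mul_le_mul_of_nonneg_left hexp (by linarith)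
    nlinarith
  calc a * LA a ≤ a * ((1 + log 100) * exp x) := mul_le_mul_of_nonneg_left h2 h0.le
    _ = (1 + log 100) * (a * exp x) := by ring
    _ = (1 + log 100) / 100 := by rw [hae]; ring
    _ ≤ 0.0561 := by linarith

/-- `g z = -(1-z) log (1-z)`. -/
lemma g_le {z : ℝ} (h1 : z < 1) : - ((1 - z) * log (1 - z)) ≤ z := by
  have h2 := Real.one_sub_inv_le_log_of_pos (x := 1 - z) (by linarith)
  have h3 := mul_le_mul_of_nonneg_left h2 (by linarith : 0 ≤ 1 - z)
  have h4 : (1 - z) * (1 - (1 - z)⁻¹) = (1 - z) - 1 := by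
    have : 1 - z ≠ 0 := by linarith
    field_simp
  rw [h4] at h3
  linarith

lemma g_ge {z : ℝ} (h0 : 0 ≤ z) (h1 : z < 1) : z - z ^ 2 ≤ - ((1 - z) * log (1 - z)) := by
  have h2 := Real.log_le_sub_one_of_pos (x := 1 - z) (by linarith)
  have h3 := mul_le_mul_of_nonneg_left h2 (by linarith : 0 ≤ 1 - z)
  nlinarith

lemma H_le {a : ℝ} (h0 : 0 < a) (h1 : a ≤ 1 / 100) : binEntropy a ≤ a * LA a := by
  rw [binEntropy_eq']
  have := g_le (z := a) (by linarith)
  unfold LA
  linarith

lemma H_ge {a : ℝ} (h0 : 0 < a) (h1 : a ≤ 1 / 100) : a * 5.593 ≤ binEntropy a := by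
  rw [binEntropy_eq']
  have h2 := g_ge (z := a) h0.le (by linarith)
  have h3 := LA_ge h0 h1
  unfold LA at h3
  nlinarith

/-- superadditivity defect of `g`. -/
lemma g_defect {w x : ℝ} (hw : 0 ≤ w) (hx : 0 ≤ x) (hw1 : w ≤ 1 / 40) (hx1 : x ≤ 1 / 40) :
    - ((1 - x) * log (1 - x)) - 2.1 * (x * w) ≤
      - ((1 - (w + x)) * log (1 - (w + x))) + (1 - w) * log (1 - w) := by
  have hA : 0 < 1 - w := by linarith
  have hB : 0 < 1 - x := by linarith
  have hC : 0 < 1 - (w + x) := by linarith
  -- log A + log B ≥ log C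
  have h1 : log (1 - (w + x)) ≤ log (1 - w) + log (1 - x) := by
    rw [← log_mul hA.ne' hB.ne']
    apply Real.log_le_log hC
    nlinarith [mul_nonneg hw hx]
  have h2 : - log (1 - w) ≤ 1.05 * w := by
    have h3 := Real.one_sub_inv_le_log_of_pos hA
    have h4 : (1 - w)⁻¹ ≤ 1 + 1.05 * w := by
      rw [inv_le_iff_one_le_mul₀ hA]
      nlinarith
    linarith
  have h3 : - log (1 - x) ≤ 1.05 * x := by
    have h3 := Real.one_sub_inv_le_log_of_pos hB
    have h4 : (1 - x)⁻¹ ≤ 1 + 1.05 * x := by
      rw [inv_le_iff_one_le_mul₀ hB]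
      nlinarith
    linarith
  have h4 := mul_le_mul_of_nonneg_left h1 hC.le
  have h5 := mul_le_mul_of_nonneg_left h2 hx
  have h6 := mul_le_mul_of_nonneg_left h3 hw
  nlinarith

/-- `f(v + w) - f(v) ≤ w (f(1+v) - f(v))` for `f = x log x`, `0 ≤ w ≤ 1`. -/
lemma xlogx_chord {v w : ℝ} (hv : 0 ≤ v) (hw0 : 0 ≤ w) (hw1 : w ≤ 1) :
    (v + w) * log (v + w) - v * log v ≤ w * ((1 + v) * log (1 + v) - v * log v) := by
  have h := Real.convexOn_mul_log.2 (x := v) (y := 1 + v) hv (by simp only [mem_Ici]; linarith)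
    (by linarith : 0 ≤ 1 - w) hw0 (by ring)
  simp only [smul_eq_mul] at h
  have e : (1 - w) * v + w * (1 + v) = v + w := by ring
  rw [e] at h
  linarith

/-- `g(a w) ≥ w g(a)`. -/
lemma g_scale {a w : ℝ} (ha : a ≤ 1) (hw0 : 0 ≤ w) (hw1 : w ≤ 1) :
    w * (- ((1 - a) * log (1 - a))) ≤ - ((1 - a * w) * log (1 - a * w)) := by
  have h := Real.convexOn_mul_log.2 (x := 1) (y := 1 - a) (by simp) (by simp only [mem_Ici]; linarith)
    (by linarith : 0 ≤ 1 - w) hw0 (by ring)
  simp only [smul_eq_mul, log_one] at h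
  have e : (1 - w) * 1 + w * (1 - a) = 1 - a * w := by ring
  rw [e] at h
  linarith

/-- `K_1(m,e) ≤ K_1(e,e)`. -/
lemma K1_le_edge {m e : ℝ} (he : 0 < e) (hem : e ≤ m) (hm : m ≤ 1 / 2) (he2 : e < 1 / 2) :
    binEntropy m - kk 1 m e ≤ binEntropy e - binEntropy (2 * e) / 2 := by
  have hanti : AntitoneOn (fun m : ℝ => binEntropy m - (binEntropy (m - e) + binEntropy (m + e)) / 2)
      (Icc e (1 / 2)) := by
    apply antitoneOn_of_deriv_nonpos (convex_Icc _ _)
    · have := binEntropy_continuous
      fun_prop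
    · intro x hx
      rw [interior_Icc] at hx
      have h1 := (hasDerivAt_binEntropy' (z := x) (by linarith [hx.1]) (by linarith [hx.2])).differentiableAt
      have h2 : DifferentiableAt ℝ (fun m : ℝ => binEntropy (m - e)) x :=
        (HasDerivAt.comp (h₂ := binEntropy) (h := fun m => m - e) x
          (hasDerivAt_binEntropy' (z := x - e) (by linarith [hx.1]) (by linarith [hx.2]))
          ((hasDerivAt_id x).sub_const e)).differentiableAt
      have h3 : DifferentiableAt ℝ (fun m : ℝ => binEntropy (m + e)) x :=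
        (HasDerivAt.comp (h₂ := binEntropy) (h := fun m => m + e) x
          (hasDerivAt_binEntropy' (z := x + e) (by linarith [hx.1]) (by linarith [hx.2]))
          ((hasDerivAt_id x).add_const e)).differentiableAt
      exact ((h1.sub ((h2.add h3).div_const 2))).differentiableWithinAt
    · intro x hx
      rw [interior_Icc] at hx
      have hx1 := hx.1
      have hx2 := hx.2
      have h1 := (hasDerivAt_binEntropy' (z := x) (by linarith) (by linarith))
      have h2 : HasDerivAt (fun m : ℝ => binEntropy (m - e)) (dh (x - e) * 1) x :=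
        HasDerivAt.comp (h₂ := binEntropy) (h := fun m => m - e) x
          (hasDerivAt_binEntropy' (z := x - e) (by linarith) (by linarith)) ((hasDerivAt_id x).sub_const e)
      have h3 : HasDerivAt (fun m : ℝ => binEntropy (m + e)) (dh (x + e) * 1) x :=
        HasDerivAt.comp (h₂ := binEntropy) (h := fun m => m + e) x
          (hasDerivAt_binEntropy' (z := x + e) (by linarith) (by linarith)) ((hasDerivAt_id x).add_const e)
      have hd : HasDerivAt (fun m : ℝ => binEntropy m - (binEntropy (m - e) + binEntropy (m + e)) / 2)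
          (dh x - (dh (x - e) * 1 + dh (x + e) * 1) / 2) x := h1.sub ((h2.add h3).div_const 2)
      rw [hd.deriv]
      unfold dh
      have p1 : 0 < 1 - (x - e) := by linarith
      have p2 : 0 < 1 - (x + e) := by linarith
      have p3 : 0 < x - e := by linarith
      have p4 : 0 < x + e := by linarith
      have p5 : 0 < 1 - x := by linarith
      have p6 : 0 < x := by linarith
      have key : 2 * log (1 - x) + (log (x - e) + log (x + e)) ≤
          2 * log x + (log (1 - (x - e)) + log (1 - (x + e))) := by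
        have e1 : 2 * log (1 - x) + (log (x - e) + log (x + e)) = log ((1 - x) ^ 2 * ((x - e) * (x + e))) := by
          rw [log_mul (by positivity) (by positivity), log_pow, log_mul p3.ne' p4.ne']; push_cast; ring
        have e2 : 2 * log x + (log (1 - (x - e)) + log (1 - (x + e))) =
            log (x ^ 2 * ((1 - (x - e)) * (1 - (x + e)))) := by
          rw [log_mul (by positivity) (by positivity), log_pow, log_mul p1.ne' p2.ne']; push_cast; ring
        rw [e1, e2]
        apply Real.log_le_log (by positivity)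
        have : x ^ 2 * e ^ 2 ≤ (1 - x) ^ 2 * e ^ 2 := by
          apply mul_le_mul_of_nonneg_right _ (sq_nonneg e)
          nlinarith
        nlinarith
      linarith
  have := hanti ⟨le_rfl, by linarith⟩ ⟨hem, hm⟩ hem
  simp only at this
  have e0 : e - e = 0 := by ring
  have e2 : e + e = 2 * e := by ring
  rw [e0, e2, binEntropy_zero] at this
  have hk1 : kk 1 m e = (binEntropy (m - e) + binEntropy (m + e)) / 2 := by unfold kk; simp
  rw [hk1]
  linarith

/-- `K_1(e,e) = log 2 - ((1+ε) log (1+ε) - ε log ε)/2`, `ε = 1 - 2e`. -/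
lemma K1_edge_eq (e : ℝ) : binEntropy e - binEntropy (2 * e) / 2 =
    log 2 - ((1 + (1 - 2 * e)) * log (1 + (1 - 2 * e)) - (1 - 2 * e) * log (1 - 2 * e)) / 2 := by
  have h := kap_eq (1 - 2 * e)
  unfold kap at h
  have e1 : (1 - (1 - 2 * e)) / 2 = e := by ring
  have e2 : 1 - (1 - 2 * e) = 2 * e := by ring
  rw [e1, e2] at h
  have h2 := binEntropy_eq' (2 * e)
  rw [h2]
  linarith

end P322
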