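import Vale.Agent.Lib.P322.Small

/-!
P322 (Courtade-Kumar): noise parameter `a ≤ 1/100`, the potential and its closedness.
-/

namespace P322

open Real Set

/-- `s' = 3.2 a (1-a)`. -/
noncomputable def s2 (a : ℝ) : ℝ := 3.2 * (a * (1 - a))

/-- `b' = h(a) - s' log 2`. -/
noncomputable def b2 (a : ℝ) : ℝ := binEntropy a - s2 a * log 2

/-- the second potential. -/
noncomputable def P2 (a p : ℝ) : ℝ := s2 a * binEntropy p + b2 a * (4 * p * (1 - p))

lemma s_eq (a : ℝ) : 1 - (1 - 2 * a) ^ 2 = 4 * (a * (1 - a)) := by ring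

lemma b2_le {a : ℝ} (h0 : 0 < a) (h1 : a ≤ 1 / 100) : b2 a ≤ a * (LA a - 2.19) := by
  have := H_le h0 h1
  have h2 := Real.log_two_gt_d9
  unfold b2 s2
  have h3 : a * 2.19 ≤ 3.2 * (a * (1 - a)) * log 2 := by
    have h4 : 0.99 * 0.6931 ≤ (1 - a) * log 2 := by
      apply mul_le_mul _ _ (by norm_num) (by linarith)
      · linarith
      · linarith
    nlinarith
  linarith

lemma b2_ge {a : ℝ} (h0 : 0 < a) (h1 : a ≤ 1 / 100) : a * 3.37 ≤ b2 a := by
  have := H_ge h0 h1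
  have h2 := Real.log_two_lt_d9
  have h2' := Real.log_two_gt_d9
  unfold b2 s2
  have h3 : 3.2 * (a * (1 - a)) * log 2 ≤ a * 2.219 := by
    have h4 : (1 - a) * log 2 ≤ 0.6932 := by nlinarith
    nlinarith
  linarith

/-- `J` splitting. -/
lemma P2_J (a m e : ℝ) : P2 a m - (P2 a (m - e) + P2 a (m + e)) / 2 =
    s2 a * (binEntropy m - kk 1 m e) + b2 a * (2 * e) ^ 2 := by
  unfold P2 kk
  simp only [one_mul]
  ring

lemma P2_le {a m : ℝ} (h0 : 0 < a) (h1 : a ≤ 1 / 100) : P2 a m ≤ binEntropy a := by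
  unfold P2
  have hb := b2_ge h0 h1
  have hs : 0 ≤ s2 a := by unfold s2; nlinarith
  have h2 : s2 a * binEntropy m ≤ s2 a * log 2 := mul_le_mul_of_nonneg_left binEntropy_le_log_two hs
  have h3 : b2 a * (4 * m * (1 - m)) ≤ b2 a * 1 := by
    apply mul_le_mul_of_nonneg_left _ (by linarith [mul_pos h0 (by norm_num : (0:ℝ) < 3.37)])
    nlinarith [sq_nonneg (1 - 2 * m)]
  have h4 : b2 a = binEntropy a - s2 a * log 2 := rfl
  linarith

/-- `1 - h((1-x)/2) ...` rewriting. -/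
lemma h_kap (x : ℝ) : binEntropy ((1 - x) / 2) = log 2 - kap x := by unfold kap; ring

lemma kap79 : kap 0.79 ≤ log 2 - 0.32 := by
  -- `h(0.105) ≥ 0.32`
  have h : (0.32 : ℝ) ≤ binEntropy 0.105 := by
    rw [binEntropy_eq']
    have h1 : log (0.105 : ℝ) ≤ -2.2 := by
      have e : (0.105 : ℝ) = 21 / 200 := by norm_num
      have h2 : log (0.105 : ℝ) = log (0.84) - 3 * log 2 := by
        have : (0.105 : ℝ) = 0.84 / 2 ^ 3 := by norm_num
        rw [this, log_div (by norm_num) (by norm_num), log_pow]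
        push_cast; ring
      have h3 : log (0.84 : ℝ) ≤ 0.84 - 1 := Real.log_le_sub_one_of_pos (by norm_num)
      have := Real.log_two_gt_d9
      rw [h2]; linarith
    have h4 := g_ge (z := 0.105) (by norm_num) (by norm_num)
    nlinarith
  have e : (1 - (0.79 : ℝ)) / 2 = 0.105 := by norm_num
  unfold kap
  rw [e]; linarith

/-- A1 of regime III, abstract. -/
lemma reg3_A1 {a s b q δ L ll h : ℝ} (hs0 : 0 < s) (hb0 : 0 < b) (hq0 : 0 < q) (hq1 : q ≤ 1)
    (hδ0 : 0 < δ) (hl0 : 0 < ll) (hl1 : 4.8 * ll ≤ 3.3273) (hh : h ≤ ll)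
    (hb : b ≤ a * (L - 2.19)) (hbs : b / s ≤ (L - 2.19) / 3.96)
    (hmax : s * h ≤ 5 * (b * q))
    (hLL : a * ((L + -2.19) * (L + 10.987)) ≤ 0.5675) (_hL : 5 ≤ L) :
    (1.6 * ll * (δ / q) + 2 * (b / s) * δ) * (0.8 * (s * h) + b * q) ≤ δ * 0.32 := by
  have hbs0 : 0 < b / s := by positivity
  set P := 0.8 * (s * h) + b * q with hP
  have hP1 : P ≤ 5 * (b * q) := by rw [hP]; linarith
  have hP2 : P ≤ 0.8 * (s * ll) + b := by
    rw [hP]
    have : s * h ≤ s * ll := mul_le_mul_of_nonneg_left hh hs0.le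
    have : b * q ≤ b * 1 := mul_le_mul_of_nonneg_left hq1 hb0.le
    linarith
  have e1 : (1.6 * ll * (δ / q) + 2 * (b / s) * δ) * P = δ * (1.6 * ll * (P / q) + 2 * (b / s) * P) := by
    ring
  rw [e1]
  apply mul_le_mul_of_nonneg_left _ hδ0.le
  have e2 : P / q ≤ 5 * b := by
    rw [div_le_iff₀ hq0]; linarith
  have e3 : 2 * (b / s) * P ≤ 2 * (b / s) * (0.8 * (s * ll) + b) :=
    mul_le_mul_of_nonneg_left hP2 (by positivity)
  have e4 : 2 * (b / s) * (0.8 * (s * ll) + b) = 1.6 * b * ll + 2 * b * (b / s) := by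
    have : b / s * s = b := by field_simp
    calc 2 * (b / s) * (0.8 * (s * ll) + b) = 1.6 * (b / s * s) * ll + 2 * b * (b / s) := by ring
      _ = _ := by rw [this]
  have e5 : 1.6 * ll * (P / q) ≤ 1.6 * ll * (5 * b) :=
    mul_le_mul_of_nonneg_left e2 (by positivity)
  have e6 : 1.6 * ll * (5 * b) + (1.6 * b * ll + 2 * b * (b / s)) =
    2 * b * (4.8 * ll + b / s) := by ring
  have e7 : 4.8 * ll + b / s ≤ (L + 10.987) / 3.96 := by
    have e8 : (L + 10.987) / 3.96 = 13.177 / 3.96 + (L - 2.19) / 3.96 := by ring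
    have : (3.3273 : ℝ) ≤ 13.177 / 3.96 := by norm_num
    linarith
  have e8 : 2 * b * (4.8 * ll + b / s) ≤ 2 * (a * (L - 2.19)) * ((L + 10.987) / 3.96) := by
    apply mul_le_mul _ e7 (by positivity) (by linarith)
    linarith
  have e10 : 2 * (a * (L - 2.19)) * ((L + 10.987) / 3.96) =
    (2 / 3.96) * (a * ((L + -2.19) * (L + 10.987))) := by ring
  rw [e10] at e8
  have e11 : (2 / 3.96 : ℝ) * (a * ((L + -2.19) * (L + 10.987))) ≤ (2 / 3.96) * 0.5675 :=
    mul_le_mul_of_nonneg_left hLL (by norm_num)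
  have e12 : (2 / 3.96 : ℝ) * 0.5675 ≤ 0.32 := by norm_num
  linarith

/-- Regime III: `δ = 2e ≤ 1.8 a L`. -/
lemma reg3 {a m e : ℝ} (h0 : 0 < a) (h1 : a ≤ 1 / 100) (he : 0 < e) (hem : e ≤ m)
    (hm2 : m ≤ 1 / 2) (hd : 2 * e ≤ 1.8 * (a * LA a))
    (hmax : (1 - (1 - 2 * a) ^ 2) * binEntropy m ≤ P2 a m) :
    VGE (1 - 2 * a) m e ((P2 a (m - e) + P2 a (m + e)) / 2) (P2 a m) := by
  have hm0 : 0 < m := by linarith
  have hn : 0 < 1 - m := by linarith
  have ha1 : 0 < 1 - a := by linarith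
  obtain ⟨s, hs⟩ : ∃ s, s = 4 * (a * (1 - a)) := ⟨_, rfl⟩
  have hs0 : 0 < s := by rw [hs]; positivity
  have hs2 : s2 a = 0.8 * s := by rw [hs]; unfold s2; ring
  have hl2 := Real.log_two_gt_d9
  have hl2' := Real.log_two_lt_d9
  have hb := b2_le h0 h1
  have hb' := b2_ge h0 h1
  have hb0 : 0 < b2 a := by linarith [mul_pos h0 (by norm_num : (0:ℝ) < 3.37)]
  have hL := LA_ge h0 h1
  obtain ⟨b, hbdef⟩ : ∃ b, b = b2 a := ⟨_, rfl⟩
  rw [← hbdef] at hb hb' hb0
  obtain ⟨q, hq⟩ : ∃ q, q = 4 * m * (1 - m) := ⟨_, rfl⟩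
  have hq0 : 0 < q := by rw [hq]; positivity
  have hq1 : q ≤ 1 := by rw [hq]; nlinarith [sq_nonneg (1 - 2 * m)]
  obtain ⟨δ, hδ⟩ : ∃ δ, δ = 2 * e := ⟨_, rfl⟩
  rw [← hδ] at hd
  have hδ0 : 0 < δ := by linarith
  have haL := aL_le h0 h1
  have hδ1 : δ ≤ 0.101 := by linarith
  -- `b/s`
  have hbs : b / s ≤ (LA a - 2.19) / 3.96 := by
    rw [div_le_div_iff₀ hs0 (by norm_num)]
    rw [hs]
    have h3 : 0 ≤ a * (LA a - 2.19) := by nlinarith
    nlinarith
  have hbs0 : 0 < b / s := by positivity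
  -- the slope
  obtain ⟨w, hw⟩ : ∃ w, w = 1.6 * log 2 * (δ / q) + 2 * (b / s) * δ := ⟨_, rfl⟩
  have hw0 : 0 < w := by rw [hw]; positivity
  have hδq : δ / q ≤ (1 + δ) / 2 := by
    rw [div_le_div_iff₀ hq0 (by norm_num)]
    have h2 : δ * (2 - δ) ≤ q := by
      have e1 : 4 * m * (1 - m) - 2 * e * (2 - 2 * e) = 4 * ((m - e) * (1 - m - e)) := by ring
      have e2 : 0 ≤ (m - e) * (1 - m - e) := mul_nonneg (by linarith) (by linarith)
      rw [hq, hδ]; linarith
    have h3 := mul_le_mul_of_nonneg_left h2 (by linarith : 0 ≤ 1 + δ)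
    have h4 : 0 ≤ δ * (δ * (1 - δ)) := mul_nonneg hδ0.le (mul_nonneg hδ0.le (by linarith))
    have h5 : (1 + δ) * (δ * (2 - δ)) = δ * 2 + δ * (δ * (1 - δ)) := by ring
    linarith
  have hw79 : w ≤ 0.79 := by
    have e1 : 1.6 * log 2 * (δ / q) ≤ 1.6 * 0.6931472 * ((1 + 0.101) / 2) := by
      apply mul_le_mul _ _ (by positivity) (by norm_num)
      · linarith
      · linarith
    have e2 : 2 * (b / s) * δ ≤ 2 * ((LA a - 2.19) / 3.96) * (1.8 * (a * LA a)) := by
      apply mul_le_mul _ hd hδ0.le _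
      · linarith
      · linarith
    have e3 := aLL_le (a := a) (p := 0) (r := -2.19) h0 h1 (by norm_num) (by norm_num)
    rw [add_zero] at e3
    have e4 : 2 * ((LA a - 2.19) / 3.96) * (1.8 * (a * LA a)) =
        (3.6 / 3.96) * (a * (LA a * (LA a + -2.19))) := by ring
    rw [e4] at e2
    rw [hw]
    norm_num at e1 e2 e3 ⊢
    linarith
  -- J
  have hJ : P2 a m - (P2 a (m - e) + P2 a (m + e)) / 2 ≤ δ * w * s / 2 := by
    rw [P2_J]
    have hK := K1_le (m := m) (e := e) he.le hem hm0 hm2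
    have e1 : e ^ 2 / m + e ^ 2 / (1 - m) = δ ^ 2 / q := by
      rw [hδ, hq]; field_simp; ring
    rw [e1] at hK
    have e2 : δ * w * s / 2 = s2 a * (log 2 * (δ ^ 2 / q)) + b * δ ^ 2 := by
      have : b / s * s = b := by field_simp
      rw [hw, hs2]
      calc δ * (1.6 * log 2 * (δ / q) + 2 * (b / s) * δ) * s / 2 =
          0.8 * s * (log 2 * (δ ^ 2 / q)) + (b / s * s) * δ ^ 2 := by ring
        _ = _ := by rw [this]
    rw [e2, ← hbdef, ← hδ]
    have : s2 a * (binEntropy m - kk 1 m e) ≤ s2 a * (log 2 * (δ ^ 2 / q)) :=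
      mul_le_mul_of_nonneg_left hK (by rw [hs2]; positivity)
    linarith
  apply VGE_S2 (w := w) (by linarith) (by linarith) hw0 (by linarith)
  · -- A1
    have hk : kap ((1 - 2 * a) * w) ≤ kap 0.79 := by
      apply kap_mono _ _ (by norm_num)
      · apply mul_nonneg (by linarith) hw0.le
      · nlinarith
    rw [h_kap, ← hδ]
    have h79 := kap79
    have hge : (0.32 : ℝ) ≤ log 2 - kap ((1 - 2 * a) * w) := by linarith
    have hfin : w * P2 a m ≤ δ * 0.32 := by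
      rw [s_eq, ← hs] at hmax
      have hP : P2 a m = 0.8 * (s * binEntropy m) + b * q := by
        rw [hbdef]; unfold P2; rw [hs2, hq]; ring
      rw [hP] at hmax ⊢
      rw [hw]
      have e9 := aLL_le (a := a) (p := -2.19) (r := 10.987) h0 h1 (by norm_num) (by norm_num)
      refine reg3_A1 (a := a) (L := LA a) hs0 hb0 hq0 hq1 hδ0 (by linarith) (by linarith)
        binEntropy_le_log_two hb hbs (by linarith) ?_ (by linarith)
      refine le_trans e9 ?_
      norm_num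
    rw [div_mul_eq_mul_div, le_div_iff₀ hw0, mul_comm (P2 a m) w]
    refine le_trans hfin ?_
    exact mul_le_mul_of_nonneg_left hge hδ0.le
  · -- A2
    rw [h_kap, h_kap, ← hδ]
    refine le_trans hJ ?_
    have hk := kap_sub_ge (v := (1 - 2 * a) * w) (w := w) (mul_nonneg (by linarith) hw0.le)
      (by nlinarith) (by linarith)
    have e1 : δ * w * s / 2 = δ / w * ((w ^ 2 - ((1 - 2 * a) * w) ^ 2) / 2) := by
      rw [hs]; field_simp; ring
    rw [e1]
    apply mul_le_mul_of_nonneg_left _ (by positivity)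
    linarith

end P322
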