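import Vale.Agent.Lib.P322.SmallA

/-!
P322 (Courtade-Kumar): noise parameter `a ≤ 1/100`, middle range of `δ`.
-/

namespace P322

open Real Set

lemma s2_le (a : ℝ) : s2 a ≤ 3.2 * a := by
  unfold s2; nlinarith [sq_nonneg a]

/-- Gibbs / tangent line. -/
lemma binEntropy_tangent {t x : ℝ} (ht0 : 0 < t) (ht1 : t < 1) (hx0 : 0 ≤ x) (hx1 : x ≤ 1) :
    (t - x) * (log (1 - t) - log t) ≤ binEntropy t - binEntropy x := by
  have h1 : x * log t - x * log x ≤ t - x := by
    rcases hx0.eq_or_lt with h | h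
    · rw [← h]; simp; exact ht0.le
    · have := Real.log_le_sub_one_of_pos (x := t / x) (by positivity)
      rw [log_div ht0.ne' h.ne'] at this
      have h2 := mul_le_mul_of_nonneg_left this h.le
      have e : x * (t / x - 1) = t - x := by field_simp
      rw [e] at h2
      linarith
  have h2 : (1 - x) * log (1 - t) - (1 - x) * log (1 - x) ≤ x - t := by
    rcases hx1.eq_or_lt with h | h
    · rw [h]; simp; exact ht1.le
    · have hx' : 0 < 1 - x := by linarith
      have ht' : 0 < 1 - t := by linarith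
      have := Real.log_le_sub_one_of_pos (x := (1 - t) / (1 - x)) (by positivity)
      rw [log_div ht'.ne' hx'.ne'] at this
      have h2 := mul_le_mul_of_nonneg_left this hx'.le
      have e : (1 - x) * ((1 - t) / (1 - x) - 1) = x - t := by field_simp; ring
      rw [e] at h2
      linarith
  rw [binEntropy_eq', binEntropy_eq']
  nlinarith

lemma G_convex : ConvexOn ℝ (Ici (1 : ℝ)) (fun y => (exp y - 1) / (1 + y)) := by
  apply convexOn_of_hasDerivWithinAt2_nonneg (convex_Ici 1)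
    (f' := fun y => (y * exp y + 1) / (1 + y) ^ 2)
    (f'' := fun y => (exp y * (1 + y ^ 2) - 2) / (1 + y) ^ 3)
  · apply ContinuousOn.div
    · fun_prop
    · fun_prop
    · intro x hx; simp only [mem_Ici] at hx; linarith
  · intro x hx
    rw [interior_Ici] at hx
    simp only [mem_Ioi] at hx
    have hx1 : 1 + x ≠ 0 := by linarith
    have h1 : HasDerivAt (fun y => exp y - 1) (exp x) x := (Real.hasDerivAt_exp x).sub_const 1
    have h2 : HasDerivAt (fun y : ℝ => 1 + y) 1 x := (hasDerivAt_id x).const_add 1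
    refine HasDerivWithinAt.congr_deriv (h1.div h2 hx1).hasDerivWithinAt ?_
    field_simp
    ring
  · intro x hx
    rw [interior_Ici] at hx
    simp only [mem_Ioi] at hx
    have hx1 : 1 + x ≠ 0 := by linarith
    have h1 : HasDerivAt (fun y => y * exp y + 1) (1 * exp x + x * exp x) x :=
      ((hasDerivAt_id x).mul (Real.hasDerivAt_exp x)).add_const 1
    have h2 : HasDerivAt (fun y : ℝ => (1 + y) ^ 2) (2 * (1 + x) ^ 1 * 1) x :=
      ((hasDerivAt_id x).const_add 1).pow 2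
    refine HasDerivWithinAt.congr_deriv (h1.div h2 (pow_ne_zero 2 hx1)).hasDerivWithinAt ?_
    field_simp
    ring
  · intro x hx
    rw [interior_Ici] at hx
    simp only [mem_Ioi] at hx
    apply div_nonneg _ (by positivity)
    have : 1 + x ≤ exp x := by linarith [Real.add_one_le_exp x]
    nlinarith

lemma exp157 : exp (1.57 : ℝ) ≤ 4.82 := by
  have h1 : exp (1.57 : ℝ) = exp 1 * exp 0.57 := by rw [← Real.exp_add]; norm_num
  have h2 : exp (0.57 : ℝ) ≤ 1.77 := by
    have := Real.exp_bound' (x := 0.57) (by norm_num) (by norm_num) (n := 4) (by norm_num)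
    simp only [Finset.sum_range_succ, Finset.sum_range_zero, Nat.factorial] at this
    norm_num at this ⊢
    linarith
  have h3 := Real.exp_one_lt_d9
  rw [h1]
  calc exp 1 * exp 0.57 ≤ 2.7182818286 * 1.77 := by
        apply mul_le_mul h3.le h2 (exp_pos _).le (by norm_num)
    _ ≤ 4.82 := by norm_num

lemma exp13 : exp (1.3 : ℝ) ≤ 3.7 := by
  have h1 : exp (1.3 : ℝ) = exp 1 * exp 0.3 := by rw [← Real.exp_add]; norm_num
  have h2 : exp (0.3 : ℝ) ≤ 1.351 := by
    have := Real.exp_bound' (x := 0.3) (by norm_num) (by norm_num) (n := 4) (by norm_num)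
    simp only [Finset.sum_range_succ, Finset.sum_range_zero, Nat.factorial] at this
    norm_num at this ⊢
    linarith
  have h3 := Real.exp_one_lt_d9
  rw [h1]
  calc exp 1 * exp 0.3 ≤ 2.7182818286 * 1.351 := by
        apply mul_le_mul h3.le h2 (exp_pos _).le (by norm_num)
    _ ≤ 3.7 := by norm_num

/-- lower end point. -/
lemma G_low {y : ℝ} (h0 : 1.109 ≤ y) (h1 : y ≤ 1.57) : (exp y - 1) / (1 + y) ≤ 1.764 := by
  rw [div_le_iff₀ (by linarith)]
  rcases le_total y 1.3 with h | h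
  · have := Real.exp_le_exp.mpr h
    have := exp13
    nlinarith
  · have := Real.exp_le_exp.mpr h1
    have := exp157
    nlinarith

lemma expneg : exp (-1.2469 : ℝ) ≤ 0.2885 := by
  rw [Real.exp_neg, inv_le_comm₀ (exp_pos _) (by norm_num)]
  have h1 : exp (1.2469 : ℝ) = exp 1 * exp 0.2469 := by rw [← Real.exp_add]; norm_num
  have h2 : (1.2769 : ℝ) ≤ exp 0.2469 := by
    have := Real.quadratic_le_exp_of_nonneg (x := 0.2469) (by norm_num)
    norm_num at this ⊢
    linarith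
  have h3 := Real.exp_one_gt_d9
  rw [h1]
  calc (0.2885 : ℝ)⁻¹ ≤ 2.7182818283 * 1.2769 := by norm_num
    _ ≤ _ := mul_le_mul h3.le h2 (by norm_num) (exp_pos _).le

/-- `a L exp((c0 + L)/2) ≤ 1.62`. -/
lemma aLexp_le {a : ℝ} (h0 : 0 < a) (h1 : a ≤ 1 / 100) :
    a * LA a * exp ((1.6 * log 2 + LA a) / 2) ≤ 1.62 := by
  have hL := LA_ge h0 h1
  have ha : a = exp (1 - LA a) := by unfold LA; rw [sub_sub_cancel, Real.exp_log h0]
  set L := LA a with hLdef
  have hl := Real.log_two_lt_d9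
  have e1 : a * L * exp ((1.6 * log 2 + L) / 2) = L * exp (1 - L + (1.6 * log 2 + L) / 2) := by
    rw [Real.exp_add, ← ha]; ring
  rw [e1]
  have e2 : 1 - L + (1.6 * log 2 + L) / 2 ≤ -1.2469 + (5.603 - L) / 2 := by
    linarith
  have e3 : exp (1 - L + (1.6 * log 2 + L) / 2) ≤ exp (-1.2469) * exp ((5.603 - L) / 2) := by
    rw [← Real.exp_add]; exact Real.exp_le_exp.mpr e2
  have e4 : L * exp ((5.603 - L) / 2) ≤ 5.603 := by
    have : exp ((5.603 - L) / 2) = (exp ((L - 5.603) / 2))⁻¹ := by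
      rw [← Real.exp_neg]; congr 1; ring
    rw [this, ← div_eq_mul_inv, div_le_iff₀ (exp_pos _)]
    have := Real.add_one_le_exp ((L - 5.603) / 2)
    nlinarith
  calc L * exp (1 - L + (1.6 * log 2 + L) / 2) ≤ L * (exp (-1.2469) * exp ((5.603 - L) / 2)) :=
        mul_le_mul_of_nonneg_left e3 (by linarith)
    _ = exp (-1.2469) * (L * exp ((5.603 - L) / 2)) := by ring
    _ ≤ 0.2885 * 5.603 := mul_le_mul expneg e4 (by positivity) (by norm_num)
    _ ≤ 1.62 := by norm_num

/-- (II*) -/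
lemma reg2_star {a δ : ℝ} (h0 : 0 < a) (h1 : a ≤ 1 / 100) (hd : 1.8 * (a * LA a) ≤ δ)
    (hd2 : δ ≤ 1 / 2) :
    a * LA a * (exp (1.6 * log 2 + (LA a - 1.6 * log 2) * δ) - 1) ≤
      (1 - 2 * a) * δ * (1 + (1.6 * log 2 + (LA a - 1.6 * log 2) * δ)) := by
  have hL := LA_ge h0 h1
  have hexp := aLexp_le h0 h1
  have haLL := aLL_le (a := a) (p := 0) (r := -1.109) h0 h1 (by norm_num) (by norm_num)
  rw [add_zero] at haLL
  have hl := Real.log_two_lt_d9
  have hl' := Real.log_two_gt_d9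
  set L := LA a with hLdef
  set c0 := 1.6 * log 2 with hc0
  have hc1 : c0 ≤ 1.10904 := by rw [hc0]; linarith
  have hc2 : 1.109 ≤ c0 := by rw [hc0]; linarith
  set k := L - c0 with hk
  have hk0 : 0 < k := by rw [hk]; linarith
  have haL0 : 0 < a * L := by positivity
  set κ := a * L * k with hκ
  have hκ0 : 0 < κ := by positivity
  have hκ1 : κ ≤ 0.2525 := by
    have : κ ≤ a * (L * (L + -1.109)) := by
      rw [hκ, hk, mul_assoc]
      apply mul_le_mul_of_nonneg_left _ h0.le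
      apply mul_le_mul_of_nonneg_left _ (by linarith)
      linarith
    norm_num at haLL ⊢
    linarith
  -- convex function
  have hconv : ConvexOn ℝ (Ici (1 : ℝ)) (fun y => κ * ((exp y - 1) / (1 + y)) + (-(1 - 2 * a)) * (y - c0)) := by
    have h1 := G_convex.smul hκ0.le
    have h2 : ConvexOn ℝ (Ici (1 : ℝ)) (fun y => (-(1 - 2 * a)) * (y - c0)) := by
      refine ⟨convex_Ici 1, ?_⟩
      intro x _ y _ p q _ _ hpq
      apply le_of_eq
      simp only [smul_eq_mul]
      have : q = 1 - p := by linarith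
      rw [this]; ring
    exact h1.add h2
  set y0 := c0 + k * (1.8 * (a * L)) with hy0
  set y1 := (c0 + L) / 2 with hy1
  set y := c0 + k * δ with hy
  have hy0a : 1.109 ≤ y0 := by
    have : 0 ≤ k * (1.8 * (a * L)) := by positivity
    rw [hy0]; linarith
  have hy0b : y0 ≤ 1.57 := by
    have : k * (1.8 * (a * L)) = 1.8 * κ := by rw [hκ]; ring
    rw [hy0, this]; linarith
  have hy01 : y0 ≤ y := by
    rw [hy0, hy]
    have := mul_le_mul_of_nonneg_left hd hk0.le
    linarith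
  have hyy1 : y ≤ y1 := by
    have : k * δ ≤ k * (1 / 2) := mul_le_mul_of_nonneg_left hd2 hk0.le
    have e : y1 = c0 + k * (1 / 2) := by rw [hy1, hk]; ring
    rw [e, hy]; linarith
  have hmax := hconv.le_max_of_mem_Icc (x := y0) (y := y1) (z := y) (by simp only [mem_Ici]; linarith)
    (by simp only [mem_Ici]; linarith) ⟨hy01, hyy1⟩
  have hE0 : κ * ((exp y0 - 1) / (1 + y0)) + (-(1 - 2 * a)) * (y0 - c0) ≤ 0 := by
    have e : y0 - c0 = 1.8 * κ := by rw [hy0, hκ]; ring
    rw [e]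
    have := mul_le_mul_of_nonneg_left (G_low hy0a hy0b) hκ0.le
    nlinarith
  have hE1 : κ * ((exp y1 - 1) / (1 + y1)) + (-(1 - 2 * a)) * (y1 - c0) ≤ 0 := by
    have e : y1 - c0 = k / 2 := by rw [hy1, hk]; ring
    have hy1p : 3.35 ≤ y1 := by rw [hy1]; linarith
    rw [e]
    have e2 : a * L * ((exp y1 - 1) / (1 + y1)) ≤ 0.49 := by
      rw [mul_div_assoc', div_le_iff₀ (by linarith)]
      nlinarith
    have e3 : κ * ((exp y1 - 1) / (1 + y1)) = k * (a * L * ((exp y1 - 1) / (1 + y1))) := by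
      rw [hκ]; ring
    rw [e3]
    have := mul_le_mul_of_nonneg_left e2 hk0.le
    nlinarith
  have hE : κ * ((exp y - 1) / (1 + y)) + (-(1 - 2 * a)) * (y - c0) ≤ 0 :=
    le_trans hmax (max_le hE0 hE1)
  have hy2 : 0 < 1 + y := by linarith
  have e1 : y - c0 = k * δ := by rw [hy]; ring
  rw [e1] at hE
  have e2 : k * (a * L * (exp y - 1)) ≤ k * ((1 - 2 * a) * δ * (1 + y)) := by
    have e3 : κ * ((exp y - 1) / (1 + y)) ≤ (1 - 2 * a) * (k * δ) := by linarith
    rw [mul_div_assoc', div_le_iff₀ hy2] at e3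
    have : k * (a * L * (exp y - 1)) = κ * (exp y - 1) := by rw [hκ]; ring
    rw [this]
    refine le_trans e3 (le_of_eq ?_)
    ring
  exact le_of_mul_le_mul_left e2 hk0

/-- `J ≤ a δ y`. -/
lemma reg2_J {a m e : ℝ} (h0 : 0 < a) (h1 : a ≤ 1 / 100) (he : 0 < e) (hem : e ≤ m)
    (hm2 : m ≤ 1 / 2) :
    s2 a * (binEntropy m - kk 1 m e) + b2 a * (2 * e) ^ 2 ≤
      a * (2 * e) * (1.6 * log 2 + (LA a - 1.6 * log 2) * (2 * e)) := by
  have hm0 : 0 < m := by linarith
  have hn : 0 < 1 - m := by linarith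
  have ha1 : 0 < 1 - a := by linarith
  have hl2 := Real.log_two_gt_d9
  have hHle := H_le h0 h1
  obtain ⟨δ, hδ⟩ : ∃ δ, δ = 2 * e := ⟨_, rfl⟩
  have hδ0 : 0 < δ := by linarith
  have hδ1 : δ ≤ 1 := by linarith
  obtain ⟨L, hLdef⟩ : ∃ L, L = LA a := ⟨_, rfl⟩
  rw [← hLdef, ← hδ]
  rw [← hLdef] at hHle
  obtain ⟨q, hq⟩ : ∃ q, q = 4 * m * (1 - m) := ⟨_, rfl⟩
  have hq0 : 0 < q := by rw [hq]; positivity
  have hδq : δ / q ≤ (1 + δ) / 2 := by
    rw [div_le_div_iff₀ hq0 (by norm_num)]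
    have h2 : δ * (2 - δ) ≤ q := by
      have e1 : 4 * m * (1 - m) - 2 * e * (2 - 2 * e) = 4 * ((m - e) * (1 - m - e)) := by ring
      have e2 : 0 ≤ (m - e) * (1 - m - e) := mul_nonneg (by linarith) (by linarith)
      rw [hq, hδ]; linarith
    have h3 := mul_le_mul_of_nonneg_left h2 (by linarith : 0 ≤ 1 + δ)
    have h4 : 0 ≤ δ * (δ * (1 - δ)) := mul_nonneg hδ0.le (mul_nonneg hδ0.le (by linarith))
    have h5 : (1 + δ) * (δ * (2 - δ)) = δ * 2 + δ * (δ * (1 - δ)) := by ring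
    linarith
  have hK := K1_le (m := m) (e := e) he.le hem hm0 hm2
  have e2 : e ^ 2 / m + e ^ 2 / (1 - m) = δ * (δ / q) := by
    rw [hδ, hq]; field_simp; ring
  rw [e2] at hK
  have hK2 : binEntropy m - kk 1 m e ≤ log 2 * (δ * ((1 + δ) / 2)) := by
    refine le_trans hK ?_
    apply mul_le_mul_of_nonneg_left _ (by linarith)
    exact mul_le_mul_of_nonneg_left hδq hδ0.le
  have hs0 : 0 ≤ s2 a := by unfold s2; positivity
  have hs1 : s2 a ≤ 3.2 * a := s2_le a
  have e3 : s2 a * (binEntropy m - kk 1 m e) ≤ s2 a * (log 2 * (δ * ((1 + δ) / 2))) :=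
    mul_le_mul_of_nonneg_left hK2 hs0
  have e4 : s2 a * (log 2 * (δ * ((1 + δ) / 2))) + b2 a * δ ^ 2 =
      s2 a * (log 2 * (δ * (1 - δ) / 2)) + binEntropy a * δ ^ 2 := by unfold b2; ring
  have e5 : s2 a * (log 2 * (δ * (1 - δ) / 2)) ≤ 3.2 * a * (log 2 * (δ * (1 - δ) / 2)) := by
    apply mul_le_mul_of_nonneg_right hs1
    have : 0 ≤ δ * (1 - δ) := mul_nonneg hδ0.le (by linarith)
    have : 0 ≤ log 2 := by linarith
    positivity
  have e6 : binEntropy a * δ ^ 2 ≤ a * L * δ ^ 2 := mul_le_mul_of_nonneg_right hHle (sq_nonneg δ)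
  have e7 : 3.2 * a * (log 2 * (δ * (1 - δ) / 2)) + a * L * δ ^ 2 =
      a * δ * (1.6 * log 2 + (L - 1.6 * log 2) * δ) := by
    ring
  linarith

/-- Regime II. -/
lemma reg2 {a m e : ℝ} (h0 : 0 < a) (h1 : a ≤ 1 / 100) (he : 0 < e) (hem : e ≤ m)
    (hm2 : m ≤ 1 / 2) (hd : 1.8 * (a * LA a) ≤ 2 * e) (hd2 : 2 * e ≤ 1 / 2) :
    VGE (1 - 2 * a) m e ((P2 a (m - e) + P2 a (m + e)) / 2) (P2 a m) := by
  have hm0 : 0 < m := by linarith
  have hn : 0 < 1 - m := by linarith
  have ha1 : 0 < 1 - a := by linarith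
  have hstar := reg2_star h0 h1 hd hd2
  have haLexp := aLexp_le h0 h1
  have hL := LA_ge h0 h1
  have hHle := H_le h0 h1
  have hl2 := Real.log_two_gt_d9
  have hl2' := Real.log_two_lt_d9
  have hP2le := P2_le (m := m) h0 h1
  obtain ⟨δ, hδ⟩ : ∃ δ, δ = 2 * e := ⟨_, rfl⟩
  rw [← hδ] at hd hd2 hstar
  have hδ0 : 0 < δ := by linarith
  obtain ⟨L, hLdef⟩ : ∃ L, L = LA a := ⟨_, rfl⟩
  rw [← hLdef] at hstar haLexp hL hHle hd
  obtain ⟨y, hy⟩ : ∃ y, y = 1.6 * log 2 + (L - 1.6 * log 2) * δ := ⟨_, rfl⟩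
  rw [← hy] at hstar
  have hy0 : 1 < y := by
    have : 0 < (L - 1.6 * log 2) * δ := mul_pos (by linarith) hδ0
    rw [hy]; linarith
  obtain ⟨E, hE⟩ : ∃ E, E = exp y := ⟨_, rfl⟩
  rw [← hE] at hstar
  have hE0 : 0 < E := by rw [hE]; exact exp_pos y
  have hE1 : 1 < E := by rw [hE]; exact Real.one_lt_exp_iff.mpr (by linarith)
  -- a E small
  have haE : a * E ≤ 0.3 := by
    have e1 : y ≤ (1.6 * log 2 + L) / 2 := by
      have : (L - 1.6 * log 2) * δ ≤ (L - 1.6 * log 2) * (1 / 2) :=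
        mul_le_mul_of_nonneg_left hd2 (by linarith)
      rw [hy]; linarith
    have e2 : E ≤ exp ((1.6 * log 2 + L) / 2) := by rw [hE]; exact Real.exp_le_exp.mpr e1
    have e3 : L * (a * E) ≤ 1.62 := by
      have : a * L * E ≤ a * L * exp ((1.6 * log 2 + L) / 2) :=
        mul_le_mul_of_nonneg_left e2 (by positivity)
      linarith
    nlinarith [mul_pos h0 hE0]
  obtain ⟨t, ht⟩ : ∃ t, t = 1 / (1 + E) := ⟨_, rfl⟩
  have ht0 : 0 < t := by rw [ht]; positivity
  have htE : t * (1 + E) = 1 := by rw [ht]; field_simp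
  have hta : a < t := by
    rw [ht, lt_div_iff₀ (by positivity)]; nlinarith
  have ht1 : t < 1 / 2 := by nlinarith
  have ht1' : 0 < 1 - t := by linarith
  have h1t : 1 - t = t * E := by linarith
  have hlogt : log (1 - t) - log t = y := by
    rw [h1t, log_mul ht0.ne' hE0.ne', hE, Real.log_exp]; ring
  have hρ : 0 < 1 - 2 * a := by linarith
  obtain ⟨w, hw⟩ : ∃ w, w = (1 - 2 * t) / (1 - 2 * a) := ⟨_, rfl⟩
  have hw0 : 0 < w := by rw [hw]; apply div_pos <;> linarith
  have hw1 : w < 1 := by rw [hw, div_lt_one hρ]; linarith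
  have hρw : (1 - 2 * a) * w = 1 - 2 * t := by rw [hw]; field_simp
  have et : (1 - (1 - 2 * a) * w) / 2 = t := by rw [hρw]; ring
  have hcon := binEntropy_tangent (t := t) (x := (1 - w) / 2) ht0 (by linarith) (by linarith) (by linarith)
  rw [hlogt] at hcon
  have etw : t - (1 - w) / 2 = a * w := by linarith
  rw [etw] at hcon
  apply VGE_S2 (w := w) (by linarith) (by linarith) hw0 hw1
  · rw [et, ← hδ, div_mul_eq_mul_div, le_div_iff₀ hw0]
    have hht : t * (1 + y) ≤ binEntropy t := by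
      rw [binEntropy_eq']
      have e1 : log t = log (1 - t) - y := by linarith
      have e2 := Real.log_le_sub_one_of_pos ht1'
      rw [e1]
      nlinarith
    have e1 : P2 a m * w ≤ a * L * w := mul_le_mul_of_nonneg_right (by linarith) hw0.le
    have e2 : a * L * w ≤ δ * (t * (1 + y)) := by
      have e3 : (1 - 2 * a) * (a * L * w) = t * (a * L * (E - 1)) := by
        have : (1 - 2 * a) * (a * L * w) = a * L * ((1 - 2 * a) * w) := by ring
        rw [this, hρw]
        have : 1 - 2 * t = t * (E - 1) := by linarith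
        rw [this]; ring
      have e4 : t * (a * L * (E - 1)) ≤ t * ((1 - 2 * a) * δ * (1 + y)) :=
        mul_le_mul_of_nonneg_left hstar ht0.le
      have e5 : (1 - 2 * a) * (a * L * w) ≤ (1 - 2 * a) * (δ * (t * (1 + y))) := by
        rw [e3]; refine le_trans e4 (le_of_eq (by ring))
      exact le_of_mul_le_mul_left e5 hρ
    have e6 : δ * (t * (1 + y)) ≤ δ * binEntropy t := mul_le_mul_of_nonneg_left hht hδ0.le
    linarith
  · rw [et, ← hδ, P2_J, ← hδ]
    have e1 : a * δ * y ≤ δ / w * (binEntropy t - binEntropy ((1 - w) / 2)) := by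
      have : a * δ * y = δ / w * (a * w * y) := by field_simp
      rw [this]
      exact mul_le_mul_of_nonneg_left hcon (by positivity)
    refine le_trans ?_ e1
    rw [hy, hLdef, hδ]
    exact reg2_J h0 h1 he hem hm2

end P322
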