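import Vale.Agent.Lib.P322.Leaf
import Vale.Agent.Lib.P322.Small

/-!
P322 (Courtade-Kumar): the region of small mean, contact `(c m, ξ c m)`.
-/

namespace P322

open Real Finset

/-- `h(x)/x + log x = g(x)/x`. -/
lemma binEntropy_div_eq {x : ℝ} (hx : 0 < x) :
    binEntropy x / x = - log x + (- ((1 - x) * log (1 - x))) / x := by
  rw [binEntropy_eq_neg]
  field_simp
  ring

lemma g_div_anti {x y : ℝ} (hx : 0 < x) (hxy : x ≤ y) (hy : y ≤ 1) :
    (- ((1 - y) * log (1 - y))) / y ≤ (- ((1 - x) * log (1 - x))) / x := by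
  have hy0 : 0 < y := by linarith
  have h := g_scale (a := y) (w := x / y) hy (by positivity) (by rw [div_le_one hy0]; exact hxy)
  have e : y * (x / y) = x := by field_simp
  rw [e] at h
  rw [div_le_div_iff₀ hy0 hx]
  have h2 := mul_le_mul_of_nonneg_left h hy0.le
  have e2 : y * (x / y * (- ((1 - y) * log (1 - y)))) = x * (- ((1 - y) * log (1 - y))) := by
    field_simp
  rw [e2] at h2
  linarith

lemma g_div_sub {x y : ℝ} (hx : 0 < x) (hxy : x ≤ y) (hy : y < 1) :
    (- ((1 - x) * log (1 - x))) / x - (- ((1 - y) * log (1 - y))) / y ≤ y / (1 - y) * log (y / x) := by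
  have hy0 : 0 < y := by linarith
  have h1a : 0 < 1 - x := by linarith
  have h1t : 0 < 1 - y := by linarith
  have h1 : - ((1 - x) * log (1 - x)) + (y - x) * (1 + log (1 - y)) ≤ - ((1 - y) * log (1 - y)) := by
    have h2 := Real.one_sub_inv_le_log_of_pos (x := (1 - x) / (1 - y)) (by positivity)
    rw [log_div h1a.ne' h1t.ne'] at h2
    have h3 := mul_le_mul_of_nonneg_left h2 h1a.le
    have e : (1 - x) * (1 - ((1 - x) / (1 - y))⁻¹) = y - x := by field_simp; ring
    rw [e] at h3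
    nlinarith
  have h3 := g_le (z := x) (by linarith)
  -- - log (1-y) ≤ y/(1-y)
  have h4 : - log (1 - y) ≤ y / (1 - y) := by
    have h5 := Real.one_sub_inv_le_log_of_pos h1t
    have e : (1 - y)⁻¹ = 1 + y / (1 - y) := by field_simp; ring
    linarith
  have h5 : 1 - x / y ≤ log (y / x) := by
    have := Real.one_sub_inv_le_log_of_pos (x := y / x) (by positivity)
    rw [inv_div] at this
    exact this
  -- combine : y g(x) - x g(y) ≤ (y - x) x (- log (1-y))
  have h6 : y * (- ((1 - x) * log (1 - x))) - x * (- ((1 - y) * log (1 - y))) ≤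
      (y - x) * x * (- log (1 - y)) := by
    have h7 := mul_le_mul_of_nonneg_left h1 hx.le
    have h8 : (y - x) * (- ((1 - x) * log (1 - x))) ≤ (y - x) * x :=
      mul_le_mul_of_nonneg_left h3 (by linarith)
    nlinarith
  have h9 : (- ((1 - x) * log (1 - x))) / x - (- ((1 - y) * log (1 - y))) / y =
      (y * (- ((1 - x) * log (1 - x))) - x * (- ((1 - y) * log (1 - y)))) / (x * y) := by
    field_simp
  rw [h9]
  have h10 : (y * (- ((1 - x) * log (1 - x))) - x * (- ((1 - y) * log (1 - y)))) / (x * y) ≤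
      ((y - x) * x * (- log (1 - y))) / (x * y) := div_le_div_of_nonneg_right h6 (by positivity)
  refine h10.trans ?_
  have e3 : ((y - x) * x * (- log (1 - y))) / (x * y) = (1 - x / y) * (- log (1 - y)) := by
    field_simp
  rw [e3, mul_comm]
  have hl : 0 ≤ - log (1 - y) := by
    have := Real.log_nonpos h1t.le (by linarith)
    linarith
  have hxy' : 0 ≤ 1 - x / y := by rw [sub_nonneg, div_le_one hy0]; exact hxy
  exact mul_le_mul h4 h5 hxy' (by positivity)

lemma Phi_lower {x y : ℝ} (hx : 0 < x) (hxy : x ≤ y) (hy : y ≤ 1) :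
    binEntropy y / y + log (y / x) ≤ binEntropy x / x := by
  have hy0 : 0 < y := by linarith
  rw [binEntropy_div_eq hx, binEntropy_div_eq hy0, log_div hy0.ne' hx.ne']
  have := g_div_anti hx hxy hy
  linarith

lemma Phi_upper {x y : ℝ} (hx : 0 < x) (hxy : x ≤ y) (hy : y < 1) :
    binEntropy x / x ≤ binEntropy y / y + 1 / (1 - y) * log (y / x) := by
  have hy0 : 0 < y := by linarith
  have h := g_div_sub hx hxy hy
  have h1 : 0 < 1 - y := by linarith
  have e : 1 / (1 - y) * log (y / x) = log (y / x) + y / (1 - y) * log (y / x) := by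
    field_simp; ring
  rw [e, binEntropy_div_eq hx, binEntropy_div_eq hy0]
  have e2 : log (y / x) = log y - log x := log_div hy0.ne' hx.ne'
  linarith

/-- kk on the edge. -/
lemma kk_edge {ρ x : ℝ} (h0 : 0 ≤ ρ) (h1 : ρ < 1) (hx : 0 < x) :
    kk ρ x x / x = ((1 - ρ) * (binEntropy ((1 - ρ) * x) / ((1 - ρ) * x)) +
      (1 + ρ) * (binEntropy ((1 + ρ) * x) / ((1 + ρ) * x))) / 2 := by
  have a1 : 0 < 1 - ρ := by linarith
  have a2 : 0 < 1 + ρ := by linarith
  unfold kk
  have e1 : x - ρ * x = (1 - ρ) * x := by ring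
  have e2 : x + ρ * x = (1 + ρ) * x := by ring
  rw [e1, e2]
  field_simp

/-- first condition, `m → 0`. -/
lemma A1_small {ρ m m1 c : ℝ} (h0 : 0 ≤ ρ) (h1 : ρ < 1) (hm : 0 < m) (hmm : m ≤ m1)
    (hc : 0 < c) (hcm : c * m1 ≤ 1 / 2) (hm1 : m1 < 1)
    (A1 : psi ρ m1 ≤ 1 / c * kk ρ (c * m1) (c * m1))
    (hs : (1 - ρ ^ 2) / (1 - m1) + 4 * bb ρ * m1 ≤ 1) :
    psi ρ m ≤ 1 / c * kk ρ (c * m) (c * m) := by
  have hm10 : 0 < m1 := by linarith
  have hb := bb_nonneg h0 h1.le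
  have hs0 : 0 ≤ 1 - ρ ^ 2 := by nlinarith
  set ℓ := log (m1 / m) with hℓ
  have hℓ0 : 0 ≤ ℓ := Real.log_nonneg (by rw [le_div_iff₀ hm]; linarith)
  have hcm0 : 0 < c * m := by positivity
  have hcm10 : 0 < c * m1 := by positivity
  have hcmm : c * m ≤ c * m1 := mul_le_mul_of_nonneg_left hmm hc.le
  -- psi side
  have p1 : psi ρ m / m ≤ psi ρ m1 / m1 + ((1 - ρ ^ 2) / (1 - m1) + 4 * bb ρ * m1) * ℓ := by
    rw [psi_eq_bb, psi_eq_bb]
    have e1 : ((1 - ρ ^ 2) * binEntropy m + bb ρ * (4 * m * (1 - m))) / m =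
      (1 - ρ ^ 2) * (binEntropy m / m) + bb ρ * (4 * (1 - m)) := by field_simp
    have e2 : ((1 - ρ ^ 2) * binEntropy m1 + bb ρ * (4 * m1 * (1 - m1))) / m1 =
      (1 - ρ ^ 2) * (binEntropy m1 / m1) + bb ρ * (4 * (1 - m1)) := by field_simp
    rw [e1, e2]
    have h2 := mul_le_mul_of_nonneg_left (Phi_upper hm hmm hm1) hs0
    have h3 : m1 - m ≤ m1 * ℓ := by
      have := Real.one_sub_inv_le_log_of_pos (x := m1 / m) (by positivity)
      rw [inv_div] at this
      have h4 := mul_le_mul_of_nonneg_left this hm10.le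
      have e3 : m1 * (1 - m / m1) = m1 - m := by field_simp
      rw [e3] at h4
      exact h4
    have h4 := mul_le_mul_of_nonneg_left h3 (by positivity : 0 ≤ 4 * bb ρ)
    have e4 : (1 - ρ ^ 2) * (binEntropy m1 / m1 + 1 / (1 - m1) * ℓ) =
      (1 - ρ ^ 2) * (binEntropy m1 / m1) + (1 - ρ ^ 2) / (1 - m1) * ℓ := by ring
    rw [← hℓ, e4] at h2
    linarith
  -- kk side
  have p2 : kk ρ (c * m1) (c * m1) / (c * m1) + ℓ ≤ kk ρ (c * m) (c * m) / (c * m) := by
    rw [kk_edge h0 h1 hcm0, kk_edge h0 h1 hcm10]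
    have a1 : 0 < 1 - ρ := by linarith
    have a2 : 0 < 1 + ρ := by linarith
    have l1 := Phi_lower (x := (1 - ρ) * (c * m)) (y := (1 - ρ) * (c * m1)) (by positivity)
      (mul_le_mul_of_nonneg_left hcmm a1.le) (by nlinarith)
    have l2 := Phi_lower (x := (1 + ρ) * (c * m)) (y := (1 + ρ) * (c * m1)) (by positivity)
      (mul_le_mul_of_nonneg_left hcmm a2.le) (by nlinarith)
    have q1 : (1 - ρ) * (c * m1) / ((1 - ρ) * (c * m)) = m1 / m := by field_simp
    have q2 : (1 + ρ) * (c * m1) / ((1 + ρ) * (c * m)) = m1 / m := by field_simp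
    rw [q1, ← hℓ] at l1
    rw [q2, ← hℓ] at l2
    have u1 := mul_le_mul_of_nonneg_left l1 a1.le
    have u2 := mul_le_mul_of_nonneg_left l2 a2.le
    linarith
  have p3 : psi ρ m1 / m1 ≤ kk ρ (c * m1) (c * m1) / (c * m1) := by
    rw [div_le_div_iff₀ hm10 hcm10]
    have := mul_le_mul_of_nonneg_right A1 (by positivity : 0 ≤ c * m1)
    have e : 1 / c * kk ρ (c * m1) (c * m1) * (c * m1) = kk ρ (c * m1) (c * m1) * m1 := by field_simp
    rw [e] at this
    exact this
  have p4 : ((1 - ρ ^ 2) / (1 - m1) + 4 * bb ρ * m1) * ℓ ≤ 1 * ℓ := mul_le_mul_of_nonneg_right hs hℓ0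
  have p5 : psi ρ m / m ≤ kk ρ (c * m) (c * m) / (c * m) := by linarith
  rw [div_le_div_iff₀ hm hcm0] at p5
  have e : 1 / c * kk ρ (c * m) (c * m) = (kk ρ (c * m) (c * m) * m) / (c * m) := by field_simp
  rw [e, le_div_iff₀ hcm0]
  exact p5

/-- **Small mean.** -/
theorem small_m {ρL ρH m1 c : ℝ} (hL : 0 ≤ ρL) (hH : ρH < 1) (hc : 1 ≤ c)
    (hcm : c * m1 ≤ 1 / 2)
    (A2 : 8 * bb ρH ≤ (1 - ρH ^ 2) * (c - 1))
    (A1 : psi ρL m1 ≤ 1 / c * kk ρL (c * m1) (c * m1))
    (hs : (1 - ρL ^ 2) / (1 - m1) + 4 * bb ρL * m1 ≤ 1)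
    {ρ m ξ : ℝ} (hρ0 : 0 < ρ) (hρL : ρL ≤ ρ) (hρH : ρ ≤ ρH) (hm : 0 < m) (hmm1 : m ≤ m1)
    (hξ0 : 0 < ξ) (hξ1 : ξ ≤ 1) : Good ρ m (ξ * m) := by
  have hc0 : 0 < c := by linarith
  have hm10 : 0 < m1 := by linarith
  have hm1h : m1 ≤ 1 / 2 := by nlinarith
  have hmc0 : 0 < c * m := by positivity
  have hmcm : m ≤ c * m := by nlinarith
  have hmc2 : c * m ≤ 1 / 2 := le_trans (mul_le_mul_of_nonneg_left hmm1 hc0.le) hcm
  have hdiv : m / (c * m) = 1 / c := by field_simp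
  have hρH0 : 0 ≤ ρH := by linarith
  have hL1 : ρL < 1 := by linarith
  apply good_of_R hρ0 (by linarith) hm.le hξ0 hξ1 hmc0 hmc2
  · apply A1R_mono hL hρL (by linarith) hm hmcm hmc2 hξ0.le hξ1
    rw [hdiv]
    have h1 := A1_small hL hL1 hm hmm1 hc0 hcm (by linarith) A1 hs
    refine h1.trans ?_
    apply mul_le_mul_of_nonneg_left _ (by positivity)
    have := kk_antitone_xi (ρ := ρL) (mc := c * m) (ξ := ξ) (ξ2 := 1) hL hL1.le hmc0 hmc2 hξ0.le hξ1 le_rfl
    rwa [one_mul] at this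
  · apply A2R_down hρ0.le hρH hH hm hmcm hmc2 hξ0.le hξ1
    rw [hdiv]
    have e2 : 1 / c * (kk ρH (c * m) (ξ * (c * m)) - kk 1 (c * m) (ξ * (c * m))) =
      m * ((kk ρH (c * m) (ξ * (c * m)) - kk 1 (c * m) (ξ * (c * m))) / (c * m)) := by
      field_simp
    rw [e2, div_form hm]
    have hη2 : 0 ≤ m / (1 - m) := div_nonneg hm.le (by linarith)
    refine ray_box0 (x := fun k => 1 + (c * m / (1 - c * m)) ^ (2 * k + 1)) hρH0 hH.le hm le_rfl (by linarith)
      (fun k => ?_) hξ0.le hξ1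
      (hs_congr (hasSum_gain_ray hmc0 hmc2 hξ0.le hξ1 hρH0 hH.le) (fun k => by ring) rfl) ?_
    · have := pow_le_pow_left₀ hη2 (eta_mono hmcm (by linarith : c * m < 1)) (2 * k + 1)
      linarith
    · simp only [mul_zero, zero_add, pow_one]
      have h1m : 0 < 1 - m := by linarith
      have h1c : 0 < 1 - c * m := by linarith
      have e3 : 1 + c * m / (1 - c * m) - (1 + m / (1 - m)) = (c - 1) * m / ((1 - c * m) * (1 - m)) := by
        field_simp; ring
      rw [e3]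
      have h5 : (c - 1) * m ≤ (c - 1) * m / ((1 - c * m) * (1 - m)) := by
        rw [le_div_iff₀ (by positivity)]
        have h6 : (1 - c * m) * (1 - m) ≤ 1 := by nlinarith
        have h7 : 0 ≤ (c - 1) * m := mul_nonneg (by linarith) hm.le
        nlinarith
      have hs0 : 0 ≤ (1 - ρH ^ 2) / 2 := by nlinarith
      have h8 := mul_le_mul_of_nonneg_left h5 hs0
      have h9 := mul_le_mul_of_nonneg_right A2 hm.le
      linarith

end P322
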