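import Vale.Agent.Lib.P322.Average

/-!
P322 (Courtade-Kumar): the inductive step, given the two point inequality `KeyB`.
-/

namespace P322

open Real Set

/-- the potential -/
noncomputable def psi (ρ p : ℝ) : ℝ :=
  (1 - ρ ^ 2) * binEntropy p +
    (binEntropy ((1 - ρ) / 2) - (1 - ρ ^ 2) * log 2) * (4 * p * (1 - p))

/-- left side of (L). -/
noncomputable def Lval (ρ m η K : ℝ) : ℝ :=
  (binEntropy (m - ρ * η) + binEntropy (m + ρ * η)) / 2
      - LL m η ρ / LL m η 1 * ((binEntropy (m - η) + binEntropy (m + η)) / 2 - K)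

/-- left side of (S). -/
noncomputable def Sval (ρ t η K : ℝ) : ℝ :=
  (log 4 - log (1 - ρ ^ 2 * t ^ 2)) / (log 4 - log (1 - t ^ 2)) * K
      + 2 * η / t * (binEntropy ((1 - ρ * t) / 2) -
        (log 4 - log (1 - ρ ^ 2 * t ^ 2)) / (log 4 - log (1 - t ^ 2)) * binEntropy ((1 - t) / 2))

/-- the two-point inequality. -/
def KeyB (ρ : ℝ) : Prop := ∀ m η : ℝ, 0 < η → η ≤ m → m ≤ 1 / 2 → m + η < 1 →
  psi ρ m ≤ Lval ρ m η ((psi ρ (m - η) + psi ρ (m + η)) / 2) ∨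
  ∃ t : ℝ, 0 < t ∧ t < 1 ∧ psi ρ m ≤ Sval ρ t η ((psi ρ (m - η) + psi ρ (m + η)) / 2)

variable {ι : Type*} [Fintype ι]

lemma psi_symm (ρ p : ℝ) : psi ρ (1 - p) = psi ρ p := by
  unfold psi
  rw [binEntropy_one_sub]
  ring

lemma psi_half (ρ : ℝ) : psi ρ (1 / 2) = binEntropy ((1 - ρ) / 2) := by
  unfold psi
  have : binEntropy (1 / 2 : ℝ) = log 2 := by
    rw [one_div]; exact binEntropy_two_inv
  rw [this]; ring

/-- the averaged `G`. -/
noncomputable def EG (ρ : ℝ) (w u v : ι → ℝ) : ℝ :=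
  ∑ i, w i * ((binEntropy ((u i + v i) / 2 - ρ * ((v i - u i) / 2)) +
      binEntropy ((u i + v i) / 2 + ρ * ((v i - u i) / 2))) / 2)

noncomputable def EH (w u v : ι → ℝ) : ℝ :=
  ∑ i, w i * ((binEntropy (u i) + binEntropy (v i)) / 2)

lemma EG_ge_EH {ρ : ℝ} (hρ0 : 0 ≤ ρ) (hρ1 : ρ ≤ 1) (w u v : ι → ℝ) (hw : ∀ i, 0 ≤ w i)
    (hu : ∀ i, u i ∈ Icc (0 : ℝ) 1) (hv : ∀ i, v i ∈ Icc (0 : ℝ) 1) :
    EH w u v ≤ EG ρ w u v := by
  unfold EH EG
  apply Finset.sum_le_sum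
  intro i _
  apply mul_le_mul_of_nonneg_left _ (hw i)
  have hconc := strictConcave_binEntropy.concaveOn
  have hcc := hconc.2 (hu i) (hv i)
  have h1 := hcc (by linarith : 0 ≤ (1 + ρ) / 2) (by linarith : 0 ≤ (1 - ρ) / 2) (by ring)
  have h2 := hcc (by linarith : 0 ≤ (1 - ρ) / 2) (by linarith : 0 ≤ (1 + ρ) / 2) (by ring)
  simp only [smul_eq_mul] at h1 h2
  have e1 : (1 + ρ) / 2 * u i + (1 - ρ) / 2 * v i = (u i + v i) / 2 - ρ * ((v i - u i) / 2) := by ring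
  have e2 : (1 - ρ) / 2 * u i + (1 + ρ) / 2 * v i = (u i + v i) / 2 + ρ * ((v i - u i) / 2) := by ring
  rw [e1] at h1
  rw [e2] at h2
  linarith

/-- step with `p0 < p1`, `p0 + p1 ≤ 1`. -/
lemma step_aux {ρ : ℝ} (hρ0 : 0 < ρ) (hρ1 : ρ ≤ 1) (hB : KeyB ρ) (w u v : ι → ℝ)
    (hw : ∀ i, 0 ≤ w i) (hw1 : ∑ i, w i = 1)
    (hu : ∀ i, u i ∈ Icc (0 : ℝ) 1) (hv : ∀ i, v i ∈ Icc (0 : ℝ) 1) {p0 p1 : ℝ}
    (h0 : ∑ i, w i * u i = p0) (h1 : ∑ i, w i * v i = p1)
    (hK : (psi ρ p0 + psi ρ p1) / 2 ≤ EH w u v) (hlt : p0 < p1) (hle : p0 + p1 ≤ 1) :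
    psi ρ ((p0 + p1) / 2) ≤ EG ρ w u v := by
  have hp0 : 0 ≤ p0 := by
    rw [← h0]; exact Finset.sum_nonneg (fun i _ => mul_nonneg (hw i) (hu i).1)
  have hm : ∑ i, w i * ((u i + v i) / 2) = (p0 + p1) / 2 := by
    rw [← h0, ← h1, ← Finset.sum_add_distrib, Finset.sum_div]
    apply Finset.sum_congr rfl
    intro i _; ring
  have hη : ∑ i, w i * ((v i - u i) / 2) = (p1 - p0) / 2 := by
    rw [← h0, ← h1, ← Finset.sum_sub_distrib, Finset.sum_div]
    apply Finset.sum_congr rfl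
    intro i _; ring
  by_cases hp1 : p1 = 1
  · -- then p0 = 0
    have hp00 : p0 = 0 := by linarith
    rw [hp00, hp1]
    have e : ((0 : ℝ) + 1) / 2 = 1 / 2 := by norm_num
    rw [e, psi_half]
    have hu0 : ∀ i, w i * u i = 0 := by
      have := (Finset.sum_eq_zero_iff_of_nonneg (fun i _ => mul_nonneg (hw i) (hu i).1)).mp
        (by rw [h0, hp00] : ∑ i, w i * u i = 0)
      intro i; exact this i (Finset.mem_univ i)
    have hv0 : ∀ i, w i * (1 - v i) = 0 := by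
      have hs : ∑ i, w i * (1 - v i) = 0 := by
        have : ∀ i, w i * (1 - v i) = w i - w i * v i := fun i => by ring
        rw [Finset.sum_congr rfl (fun i _ => this i), Finset.sum_sub_distrib, hw1, h1, hp1]
        ring
      have := (Finset.sum_eq_zero_iff_of_nonneg (fun i _ => mul_nonneg (hw i)
        (by linarith [(hv i).2]))).mp hs
      intro i; exact this i (Finset.mem_univ i)
    have hEG : EG ρ w u v = ∑ i, w i * binEntropy ((1 - ρ) / 2) := by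
      unfold EG
      apply Finset.sum_congr rfl
      intro i _
      rcases (hw i).eq_or_lt with h | h
      · rw [← h]; simp
      · have a1 : u i = 0 := by
          rcases mul_eq_zero.mp (hu0 i) with h' | h'
          · linarith
          · exact h'
        have a2 : v i = 1 := by
          rcases mul_eq_zero.mp (hv0 i) with h' | h'
          · linarith
          · linarith
        rw [a1, a2]
        have e1 : ((0 : ℝ) + 1) / 2 - ρ * ((1 - 0) / 2) = (1 - ρ) / 2 := by ring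
        have e2 : ((0 : ℝ) + 1) / 2 + ρ * ((1 - 0) / 2) = 1 - (1 - ρ) / 2 := by ring
        rw [e1, e2, binEntropy_one_sub]
        ring
    rw [hEG, ← Finset.sum_mul, hw1, one_mul]
  · have hp1' : p1 < 1 := by
      have : p1 ≤ 1 := by
        rw [← h1, ← hw1]
        apply Finset.sum_le_sum
        intro i _
        have := mul_le_mul_of_nonneg_left (hv i).2 (hw i)
        linarith
      exact lt_of_le_of_ne this hp1
    have e0 : (p0 + p1) / 2 - (p1 - p0) / 2 = p0 := by ring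
    have e1 : (p0 + p1) / 2 + (p1 - p0) / 2 = p1 := by ring
    have hB' := hB ((p0 + p1) / 2) ((p1 - p0) / 2) (by linarith) (by linarith) (by linarith)
      (by linarith)
    rw [e0, e1] at hB'
    rcases hB' with hL | ⟨t, ht0, ht1, hS⟩
    · refine le_trans hL ?_
      exact L_form' w u v hw hw1 hu hv hρ0 hρ1 (by linarith) (by linarith) (by linarith)
        (by linarith) hm hη hK
    · refine le_trans hS ?_
      exact S_form w u v hw hu hv hρ0 hρ1 ht0 ht1 hη hK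

lemma EG_swap (ρ : ℝ) (w u v : ι → ℝ) : EG ρ w v u = EG ρ w u v := by
  unfold EG
  apply Finset.sum_congr rfl
  intro i _
  have e1 : (v i + u i) / 2 - ρ * ((u i - v i) / 2) = (u i + v i) / 2 + ρ * ((v i - u i) / 2) := by ring
  have e2 : (v i + u i) / 2 + ρ * ((u i - v i) / 2) = (u i + v i) / 2 - ρ * ((v i - u i) / 2) := by ring
  rw [e1, e2]; ring

lemma EH_swap (w u v : ι → ℝ) : EH w v u = EH w u v := by
  unfold EH
  apply Finset.sum_congr rfl
  intro i _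
  ring

lemma EG_compl (ρ : ℝ) (w u v : ι → ℝ) :
    EG ρ w (fun i => 1 - u i) (fun i => 1 - v i) = EG ρ w u v := by
  unfold EG
  apply Finset.sum_congr rfl
  intro i _
  have e1 : (1 - u i + (1 - v i)) / 2 - ρ * ((1 - v i - (1 - u i)) / 2) =
    1 - ((u i + v i) / 2 - ρ * ((v i - u i) / 2)) := by ring
  have e2 : (1 - u i + (1 - v i)) / 2 + ρ * ((1 - v i - (1 - u i)) / 2) =
    1 - ((u i + v i) / 2 + ρ * ((v i - u i) / 2)) := by ring
  rw [e1, e2, binEntropy_one_sub, binEntropy_one_sub]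

lemma EH_compl (w u v : ι → ℝ) :
    EH w (fun i => 1 - u i) (fun i => 1 - v i) = EH w u v := by
  unfold EH
  apply Finset.sum_congr rfl
  intro i _
  simp only [binEntropy_one_sub]

/-- step with `p0 + p1 ≤ 1`. -/
lemma step_aux2 {ρ : ℝ} (hρ0 : 0 < ρ) (hρ1 : ρ ≤ 1) (hB : KeyB ρ) (w u v : ι → ℝ)
    (hw : ∀ i, 0 ≤ w i) (hw1 : ∑ i, w i = 1)
    (hu : ∀ i, u i ∈ Icc (0 : ℝ) 1) (hv : ∀ i, v i ∈ Icc (0 : ℝ) 1) {p0 p1 : ℝ}
    (h0 : ∑ i, w i * u i = p0) (h1 : ∑ i, w i * v i = p1)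
    (hK : (psi ρ p0 + psi ρ p1) / 2 ≤ EH w u v) (hle : p0 + p1 ≤ 1) :
    psi ρ ((p0 + p1) / 2) ≤ EG ρ w u v := by
  rcases lt_trichotomy p0 p1 with h | h | h
  · exact step_aux hρ0 hρ1 hB w u v hw hw1 hu hv h0 h1 hK h hle
  · refine le_trans ?_ (EG_ge_EH hρ0.le hρ1 w u v hw hu hv)
    refine le_trans ?_ hK
    rw [h]
    apply le_of_eq
    have : (p1 + p1) / 2 = p1 := by ring
    rw [this]; ring
  · have := step_aux hρ0 hρ1 hB w v u hw hw1 hv hu h1 h0 (by rw [EH_swap]; linarith) h (by linarith)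
    rw [EG_swap, add_comm] at this
    exact this

/-- **The inductive step.** -/
theorem step {ρ : ℝ} (hρ0 : 0 < ρ) (hρ1 : ρ ≤ 1) (hB : KeyB ρ) (w u v : ι → ℝ)
    (hw : ∀ i, 0 ≤ w i) (hw1 : ∑ i, w i = 1)
    (hu : ∀ i, u i ∈ Icc (0 : ℝ) 1) (hv : ∀ i, v i ∈ Icc (0 : ℝ) 1) {p0 p1 : ℝ}
    (h0 : ∑ i, w i * u i = p0) (h1 : ∑ i, w i * v i = p1)
    (hK : (psi ρ p0 + psi ρ p1) / 2 ≤ EH w u v) :
    psi ρ ((p0 + p1) / 2) ≤ EG ρ w u v := by
  rcases le_total (p0 + p1) 1 with h | h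
  · exact step_aux2 hρ0 hρ1 hB w u v hw hw1 hu hv h0 h1 hK h
  · have hs : ∀ z : ι → ℝ, ∀ q, ∑ i, w i * z i = q → ∑ i, w i * (1 - z i) = 1 - q := by
      intro z q hz
      have : ∀ i, w i * (1 - z i) = w i - w i * z i := fun i => by ring
      rw [Finset.sum_congr rfl (fun i _ => this i), Finset.sum_sub_distrib, hw1, hz]
    have hc : ∀ z : ι → ℝ, (∀ i, z i ∈ Icc (0 : ℝ) 1) → ∀ i, 1 - z i ∈ Icc (0 : ℝ) 1 := by
      intro z hz i
      exact ⟨by linarith [(hz i).2], by linarith [(hz i).1]⟩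
    have := step_aux2 hρ0 hρ1 hB w (fun i => 1 - u i) (fun i => 1 - v i) hw hw1 (hc u hu) (hc v hv)
      (hs u p0 h0) (hs v p1 h1) (by rw [EH_compl, psi_symm, psi_symm]; exact hK) (by linarith)
    rw [EG_compl] at this
    have e : (1 - p0 + (1 - p1)) / 2 = 1 - (p0 + p1) / 2 := by ring
    rw [e, psi_symm] at this
    exact this

end P322
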