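import Vale.Agent.Lib.P322.Kap

/-!
P322 (Courtade-Kumar): the tiny-mean lemma for `psi`.
-/

namespace P322

open Real Set

/-- `B = b / ρ^2`. -/
noncomputable def BB (ρ : ℝ) : ℝ := log 2 - kap ρ / ρ ^ 2

lemma BB_nonneg {ρ : ℝ} (h0 : 0 < ρ) (h1 : ρ ≤ 1) : 0 ≤ BB ρ := by
  unfold BB
  have h := kap_le h0.le h1
  have hr : 0 < ρ ^ 2 := by positivity
  rw [sub_nonneg, div_le_iff₀ hr]
  linarith

lemma BB_le {ρ : ℝ} (h0 : 0 < ρ) (h1 : ρ ≤ 1) : BB ρ ≤ log 2 - 1 / 2 := by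
  unfold BB
  have h := kap_ge h0.le h1
  have hr : 0 < ρ ^ 2 := by positivity
  have : 1 / 2 ≤ kap ρ / ρ ^ 2 := by
    rw [le_div_iff₀ hr]; linarith
  linarith

lemma b_eq {ρ : ℝ} (h0 : 0 < ρ) :
    binEntropy ((1 - ρ) / 2) - (1 - ρ ^ 2) * log 2 = ρ ^ 2 * BB ρ := by
  unfold BB kap
  have hr : ρ ^ 2 ≠ 0 := by positivity
  field_simp
  ring

/-- `φ = h - B q`. -/
noncomputable def phi (B p : ℝ) : ℝ := binEntropy p - B * (4 * p * (1 - p))

lemma psi_eq_phi {ρ : ℝ} (h0 : 0 < ρ) (p : ℝ) : psi ρ p = binEntropy p - ρ ^ 2 * phi (BB ρ) p := by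
  unfold psi phi
  rw [b_eq h0]
  ring

/-- reduction of (L) for `psi` to `(1-c) φbar ≥ 4 B e^2`. -/
lemma L_of_phi {ρ m e : ℝ} (hρ0 : 0 < ρ) (hρ1 : ρ < 1) (he : 0 < e) (hem : e ≤ m)
    (hm : m ≤ 1 / 2)
    (h : 4 * BB ρ * e ^ 2 ≤ (1 - LL m e ρ / LL m e 1) * ((phi (BB ρ) (m - e) + phi (BB ρ) (m + e)) / 2)) :
    psi ρ m ≤ Lval ρ m e ((psi ρ (m - e) + psi ρ (m + e)) / 2) := by
  have hm0 : 0 < m := by linarith
  have hK := Krho_le hρ0.le hρ1.le he.le hem hm0 hm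
  unfold Lval
  set c := LL m e ρ / LL m e 1 with hc
  have hk : kk ρ m e = (binEntropy (m - ρ * e) + binEntropy (m + ρ * e)) / 2 := rfl
  have hk1 : kk 1 m e = (binEntropy (m - e) + binEntropy (m + e)) / 2 := by unfold kk; simp
  rw [← hk, psi_eq_phi hρ0, psi_eq_phi hρ0, psi_eq_phi hρ0]
  set B := BB ρ
  have hphi : phi B m - (phi B (m - e) + phi B (m + e)) / 2 = binEntropy m - kk 1 m e - 4 * B * e ^ 2 := by
    rw [hk1]; unfold phi; ring
  have hr : 0 ≤ ρ ^ 2 := by positivity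
  have h2 := mul_le_mul_of_nonneg_left h hr
  have e1 : (binEntropy (m - e) + binEntropy (m + e)) / 2 -
      (binEntropy (m - e) - ρ ^ 2 * phi B (m - e) + (binEntropy (m + e) - ρ ^ 2 * phi B (m + e))) / 2 =
      ρ ^ 2 * ((phi B (m - e) + phi B (m + e)) / 2) := by ring
  rw [e1]
  set P := (phi B (m - e) + phi B (m + e)) / 2
  nlinarith

/-- `φ(p) ≥ (p/x) φ(x)` for `0 ≤ p ≤ x ≤ 1/2`. -/
lemma phi_ratio {B p x : ℝ} (hB : B ≤ log 2 - 1 / 2) (hp : 0 ≤ p) (hpx : p ≤ x) (hx0 : 0 < x)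
    (hx : x ≤ 1 / 2) : p / x * phi B x ≤ phi B p := by
  rcases hp.eq_or_lt with h | h
  · rw [← h]; unfold phi; simp
  · -- h(p)/p + 4 B p is antitone
    have hlog2 : log 2 < 0.6931471808 := Real.log_two_lt_d9
    have hanti : AntitoneOn (fun z : ℝ => binEntropy z / z + 4 * B * z) (Icc p x) := by
      have hder : ∀ z ∈ Icc p x, HasDerivAt (fun z : ℝ => binEntropy z / z + 4 * B * z)
          ((dh z * z - binEntropy z * 1) / z ^ 2 + 4 * B) z := by
        intro z hz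
        have hz0 : 0 < z := lt_of_lt_of_le h hz.1
        have hz1 : z < 1 := by linarith [hz.2]
        have d1 := (hasDerivAt_binEntropy' hz0 hz1).div (hasDerivAt_id z) hz0.ne'
        have d2 := (hasDerivAt_id z).const_mul (4 * B)
        exact (d1.add d2).congr_deriv (by simp)
      apply antitoneOn_of_deriv_nonpos (convex_Icc _ _)
      · intro z hz; exact (hder z hz).continuousAt.continuousWithinAt
      · intro z hz; exact (hder z (interior_subset hz)).differentiableAt.differentiableWithinAt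
      · intro z hz
        have hz' := interior_subset hz
        have hz0 : 0 < z := lt_of_lt_of_le h hz'.1
        have hz1 : z < 1 := by linarith [hz'.2]
        rw [(hder z hz').deriv]
        have s1 := sub_mul_dh (z := z)
        have e1 : dh z * z - binEntropy z * 1 = log (1 - z) := by linarith
        rw [e1]
        have h3 : log (1 - z) ≤ - z := by
          have := Real.log_le_sub_one_of_pos (x := 1 - z) (by linarith)
          linarith
        have h4 : log (1 - z) / z ^ 2 ≤ - 1 := by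
          rw [div_le_iff₀ (by positivity)]
          nlinarith
        linarith
    have h1 := hanti (left_mem_Icc.mpr hpx) (right_mem_Icc.mpr hpx) hpx
    simp only at h1
    have h2 := mul_le_mul_of_nonneg_left h1 h.le
    unfold phi
    have e1 : p * (binEntropy p / p + 4 * B * p) = binEntropy p + 4 * B * p ^ 2 := by
      field_simp
    rw [e1] at h2
    have e2 : p * (binEntropy x / x + 4 * B * x) = p / x * binEntropy x + 4 * B * p * x := by
      field_simp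
    rw [e2] at h2
    have e3 : p / x * (binEntropy x - B * (4 * x * (1 - x))) = p / x * binEntropy x - 4 * B * p * (1 - x) := by
      field_simp
    rw [e3]
    nlinarith

lemma phi_avg_ge {B m e : ℝ} (hB : B ≤ log 2 - 1 / 2) (he : 0 ≤ e) (hem : e ≤ m) (hm0 : 0 < m)
    (hm : m ≤ 1 / 4) : phi B (2 * m) ≤ phi B (m - e) + phi B (m + e) := by
  have h1 := phi_ratio hB (p := m - e) (x := 2 * m) (by linarith) (by linarith) (by linarith) (by linarith)
  have h2 := phi_ratio hB (p := m + e) (x := 2 * m) (by linarith) (by linarith) (by linarith) (by linarith)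
  have e1 : (m - e) / (2 * m) * phi B (2 * m) + (m + e) / (2 * m) * phi B (2 * m) = phi B (2 * m) := by
    field_simp; ring
  linarith

lemma one_sub_c_ge {ρ m e : ℝ} (hρ0 : 0 < ρ) (hρ1 : ρ < 1) (he : 0 < e) (hem : e ≤ m)
    (hm : m ≤ 1 / 4) :
    (1 - ρ ^ 2) * e ^ 2 ≤ (1 - LL m e ρ / LL m e 1) * (2 * m * (1 + m ^ 2)) := by
  have hm0 : 0 < m := by linarith
  have hs : 0 < 1 - ρ ^ 2 := by nlinarith
  have hs1 : 1 - ρ ^ 2 ≤ 1 := by nlinarith [sq_nonneg ρ]
  have hL1 : 0 < LL m e 1 := LL_pos he hem (by linarith) one_pos le_rfl (by linarith)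
  set z1 : ℝ := (1 - m) ^ 2 - e ^ 2 with hz1
  set zr : ℝ := (1 - m) ^ 2 - ρ ^ 2 * e ^ 2 with hzr
  have hz1' : 1 - 2 * m ≤ z1 := by rw [hz1]; nlinarith
  have hz1pos : 0 < z1 := by linarith
  have hz1le : z1 < 1 := by rw [hz1]; nlinarith [sq_nonneg e]
  have hzrz : zr = z1 + (1 - ρ ^ 2) * e ^ 2 := by rw [hzr, hz1]; ring
  have hzrpos : 0 < zr := by rw [hzrz]; positivity
  have hLL1 : LL m e 1 = - log z1 := by
    unfold LL
    have p3 : 0 < 1 - (m - 1 * e) := by nlinarith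
    have p4 : 0 < 1 - (m + 1 * e) := by nlinarith
    have e2 : z1 = (1 - (m - 1 * e)) * (1 - (m + 1 * e)) := by rw [hz1]; ring
    rw [e2, log_mul p3.ne' p4.ne']; ring
  have hLLr : LL m e ρ = - log zr := by
    unfold LL
    have p3 : 0 < 1 - (m - ρ * e) := by nlinarith
    have p4 : 0 < 1 - (m + ρ * e) := by nlinarith
    have e2 : zr = (1 - (m - ρ * e)) * (1 - (m + ρ * e)) := by rw [hzr]; ring
    rw [e2, log_mul p3.ne' p4.ne']; ring
  set t : ℝ := (1 - ρ ^ 2) * e ^ 2 / z1 with ht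
  have ht0 : 0 < t := by positivity
  have hlog : log zr - log z1 = log (1 + t) := by
    rw [← log_div hzrpos.ne' hz1pos.ne', hzrz, ht]
    congr 1
    field_simp
  -- log (1+t) ≥ 2t/(2+t)
  have hlt : 2 * t / (2 + t) ≤ log (1 + t) := by
    have := Real.le_log_one_add_of_nonneg ht0.le
    have e3 : t + 2 = 2 + t := by ring
    rw [e3] at this
    exact this
  have h1c : (1 - LL m e ρ / LL m e 1) * LL m e 1 = log (1 + t) := by
    rw [sub_mul, div_mul_cancel₀ _ hL1.ne', hLL1, hLLr, ← hlog]; ring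
  set N1 := LL m e 1 with hN1
  -- bounds on N1
  have hN1a : z1 * N1 ≤ 2 * m := by
    have h3 : 1 - z1⁻¹ ≤ log z1 := Real.one_sub_inv_le_log_of_pos hz1pos
    have h4 : z1 * (1 - z1⁻¹) ≤ z1 * log z1 := mul_le_mul_of_nonneg_left h3 hz1pos.le
    have h5 : z1 * (1 - z1⁻¹) = z1 - 1 := by field_simp
    rw [h5] at h4
    rw [hLL1]
    nlinarith
  have hN1b : N1 * (1 - 2 * m) ≤ 2 * m := by
    have : N1 * (1 - 2 * m) ≤ N1 * z1 := mul_le_mul_of_nonneg_left hz1' hL1.le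
    linarith
  have hc : 0 ≤ 1 - LL m e ρ / N1 := by
    by_contra hcon
    push Not at hcon
    have h8 : (1 - LL m e ρ / N1) * N1 < 0 := mul_neg_of_neg_of_pos hcon hL1
    have h9 : 0 ≤ log (1 + t) := Real.log_nonneg (by linarith)
    linarith
  set C := 1 - LL m e ρ / N1 with hC
  -- C N1 ≥ 2t/(2+t), t = s e²/z1
  have h6 : 2 * t ≤ C * N1 * (2 + t) := by
    rw [h1c]
    rwa [div_le_iff₀ (by linarith)] at hlt
  have h7 : t * z1 = (1 - ρ ^ 2) * e ^ 2 := by rw [ht]; field_simp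
  have h8 : 2 * ((1 - ρ ^ 2) * e ^ 2) ≤ C * (2 * (z1 * N1) + (1 - ρ ^ 2) * e ^ 2 * N1) := by
    have := mul_le_mul_of_nonneg_right h6 hz1pos.le
    calc 2 * ((1 - ρ ^ 2) * e ^ 2) = 2 * t * z1 := by rw [← h7]; ring
      _ ≤ C * N1 * (2 + t) * z1 := this
      _ = C * (2 * (z1 * N1) + (t * z1) * N1) := by ring
      _ = _ := by rw [h7]
  have h9 : (1 - ρ ^ 2) * e ^ 2 * N1 ≤ 4 * m ^ 3 := by
    -- N1 ≤ 2m/(1-2m) ≤ 4m
    have hN : N1 ≤ 4 * m := by
      have : N1 * (1 / 2) ≤ N1 * (1 - 2 * m) := mul_le_mul_of_nonneg_left (by linarith) hL1.le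
      linarith
    have h10 : (1 - ρ ^ 2) * e ^ 2 ≤ m ^ 2 := by nlinarith [sq_nonneg e]
    calc (1 - ρ ^ 2) * e ^ 2 * N1 ≤ m ^ 2 * (4 * m) :=
          mul_le_mul h10 hN hL1.le (by positivity)
      _ = 4 * m ^ 3 := by ring
  have h10 : C * (2 * (z1 * N1) + (1 - ρ ^ 2) * e ^ 2 * N1) ≤ C * (4 * m + 4 * m ^ 3) := by
    apply mul_le_mul_of_nonneg_left _ hc
    linarith
  nlinarith

/-- **Tiny-mean lemma.** -/
theorem tiny_m {ρ m e : ℝ} (hρ0 : 0 < ρ) (hρ1 : ρ < 1) (he : 0 < e) (hem : e ≤ m)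
    (hm : m ≤ 1 / 4)
    (h : 8 * BB ρ * (1 + m ^ 2) ≤ (1 - ρ ^ 2) * (- log (2 * m) + (1 - 2 * m) * (1 - 4 * BB ρ))) :
    psi ρ m ≤ Lval ρ m e ((psi ρ (m - e) + psi ρ (m + e)) / 2) := by
  have hm0 : 0 < m := by linarith
  have hs : 0 < 1 - ρ ^ 2 := by nlinarith
  apply L_of_phi hρ0 hρ1 he hem (by linarith)
  have hB := BB_le hρ0 hρ1.le
  have hB0 := BB_nonneg hρ0 hρ1.le
  have h1 := phi_avg_ge hB he.le hem hm0 hm
  have h2 := one_sub_c_ge hρ0 hρ1 he hem hm
  set B := BB ρ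
  set C := 1 - LL m e ρ / LL m e 1
  -- φ(2m) ≥ 2m (−log(2m) + (1−2m)(1−4B))
  have h3 : 2 * m * (- log (2 * m) + (1 - 2 * m) * (1 - 4 * B)) ≤ phi B (2 * m) := by
    unfold phi
    rw [binEntropy_eq']
    have h4 : log (1 - 2 * m) ≤ - (2 * m) := by
      have := Real.log_le_sub_one_of_pos (x := 1 - 2 * m) (by linarith)
      linarith
    have h5 : (1 - 2 * m) * log (1 - 2 * m) ≤ (1 - 2 * m) * (- (2 * m)) :=
      mul_le_mul_of_nonneg_left h4 (by linarith)
    nlinarith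
  set X := - log (2 * m) + (1 - 2 * m) * (1 - 4 * B)
  have hX : 0 ≤ X := by
    by_contra hcon
    push Not at hcon
    have : (1 - ρ ^ 2) * X < 0 := mul_neg_of_pos_of_neg hs hcon
    have : 0 ≤ 8 * B * (1 + m ^ 2) := by positivity
    linarith
  have hC : 0 ≤ C := by
    by_contra hcon
    push Not at hcon
    have : C * (2 * m * (1 + m ^ 2)) < 0 := mul_neg_of_neg_of_pos hcon (by positivity)
    have : 0 ≤ (1 - ρ ^ 2) * e ^ 2 := by positivity
    linarith
  -- C * avg ≥ C * m X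
  have h6 : C * (m * X) ≤ C * ((phi B (m - e) + phi B (m + e)) / 2) := by
    apply mul_le_mul_of_nonneg_left _ hC
    linarith
  refine le_trans ?_ h6
  -- 4 B e² ≤ C m X
  have h7 : (1 - ρ ^ 2) * e ^ 2 * X ≤ C * (2 * m * (1 + m ^ 2)) * X :=
    mul_le_mul_of_nonneg_right h2 hX
  have h8 : 8 * B * (1 + m ^ 2) * e ^ 2 ≤ (1 - ρ ^ 2) * X * e ^ 2 :=
    mul_le_mul_of_nonneg_right h (sq_nonneg e)
  have h9 : 8 * B * e ^ 2 * (1 + m ^ 2) ≤ 2 * (C * (m * X)) * (1 + m ^ 2) := by nlinarith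
  have h10 : 0 < 1 + m ^ 2 := by positivity
  have h11 := le_of_mul_le_mul_right h9 h10
  linarith

/-- the version for `ρ ≤ 17/25`, `m ≤ 3/100`. -/
theorem tiny_m_range {ρ m e : ℝ} (hρ0 : 0 < ρ) (hρ1 : ρ ≤ 17 / 25) (he : 0 < e) (hem : e ≤ m)
    (hm : m ≤ 3 / 100) :
    psi ρ m ≤ Lval ρ m e ((psi ρ (m - e) + psi ρ (m + e)) / 2) := by
  have hm0 : 0 < m := by linarith
  apply tiny_m hρ0 (by linarith) he hem (by linarith)
  have hB := BB_le hρ0 (by linarith)
  have hB0 := BB_nonneg hρ0 (by linarith)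
  have hlog2 : log 2 < 0.6931471808 := Real.log_two_lt_d9
  set B := BB ρ
  have hs : 0.5376 ≤ 1 - ρ ^ 2 := by nlinarith
  -- -log(2m) ≥ 2.8
  have hl : 2.79 ≤ - log (2 * m) := by
    have h1 : log (2 * m) ≤ log (1 / 16.4) := Real.log_le_log (by positivity) (by linarith)
    have h2 : log (1 / 16.4 : ℝ) = - log 16.4 := by rw [one_div, log_inv]
    have h3 : (2.79 : ℝ) ≤ log 16.4 := by
      rw [Real.le_log_iff_exp_le (by norm_num)]
      have h4 : exp (2.79 : ℝ) = exp 1 ^ 2 * exp 0.79 := by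
        rw [← Real.exp_nat_mul, ← Real.exp_add]; norm_num
      have h5 := Real.exp_one_lt_d9
      have h6 : exp (0.79 : ℝ) ≤ 2.2035 := by
        have := Real.exp_bound' (x := 0.79) (by norm_num) (by norm_num) (n := 6) (by norm_num)
        refine le_trans this ?_
        simp only [Finset.sum_range_succ, Finset.sum_range_zero, Nat.factorial]
        norm_num
      rw [h4]
      have h7 : exp 1 ^ 2 ≤ 2.7182818286 ^ 2 := pow_le_pow_left₀ (exp_pos 1).le h5.le 2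
      calc exp 1 ^ 2 * exp 0.79 ≤ 2.7182818286 ^ 2 * 2.2035 :=
            mul_le_mul h7 h6 (exp_pos _).le (by norm_num)
        _ ≤ 16.4 := by norm_num
    linarith
  have h1 : 0.2 ≤ (1 - 2 * m) * (1 - 4 * B) := by nlinarith
  have h2 : 2.99 ≤ - log (2 * m) + (1 - 2 * m) * (1 - 4 * B) := by linarith
  have h3 : 0.5376 * 2.99 ≤ (1 - ρ ^ 2) * (- log (2 * m) + (1 - 2 * m) * (1 - 4 * B)) :=
    mul_le_mul hs h2 (by norm_num) (by linarith)
  have h4 : 8 * B * (1 + m ^ 2) ≤ 8 * 0.1932 * (1 + 0.0009) := by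
    apply mul_le_mul _ _ (by positivity) (by norm_num)
    · linarith
    · nlinarith
  norm_num at h3 h4 ⊢
  linarith

end P322
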