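import Vale.Agent.Lib.P322.Fx

/-!
P322 (Courtade-Kumar): kernel-checkable kd-tree certificates.
-/

namespace P322.H19

open Real

/-- constants of a `ρ`-interval at scale `2^40`. -/
structure Cst where
  rL : ℕ
  rH : ℕ
  sL : ℕ
  bL : ℕ
  sH : ℕ
  bH : ℕ
  sl : ℕ
  q : ℕ

structure CstOk (c : Cst) : Prop where
  h1 : c.rL ≤ c.rH
  h2 : c.rH < 1099511627776
  sL : Ub c.sL (1 - rv c.rL ^ 2)
  bL : Ub c.bL (bb (rv c.rL))
  sH : Ub c.sH (1 - rv c.rH ^ 2)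
  bH : Ub c.bH (bb (rv c.rH))
  sl : Lb c.sl (1 - rv c.rH ^ 2)
  q : Lb c.q (rv c.rH ^ 2)

/-- check of the constants. -/
def cstOk (c : Cst) : Bool :=
  Nat.ble c.rL c.rH && (Nat.blt c.rH (nat_lit 1099511627776) &&
  (Nat.ble (nat_lit 1099511627776) (Nat.add c.sL (mLo c.rL c.rL)) &&
  (Nat.ble (mHi (mHi c.rL c.rL) (nat_lit 762123384788)) (Nat.add c.bL (kapLo c.rL)) &&
  (Nat.ble (nat_lit 1099511627776) (Nat.add c.sH (mLo c.rH c.rH)) &&
  (Nat.ble (mHi (mHi c.rH c.rH) (nat_lit 762123384788)) (Nat.add c.bH (kapLo c.rH)) &&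
  (Nat.ble (Nat.add c.sl (mHi c.rH c.rH)) (nat_lit 1099511627776) &&
  Nat.ble c.q (mLo c.rH c.rH)))))))

lemma Lb.mono {a b : ℕ} {x : ℝ} (h : Lb b x) (hab : a ≤ b) : Lb a x := (rv_le hab).trans h

lemma rv_lt_one {a : ℕ} (h : a < 1099511627776) : rv a < 1 := by rw [← rv_one]; exact rv_lt h

lemma rv_le_half {a : ℕ} (h : a ≤ 549755813888) : rv a ≤ 1 / 2 := by rw [← rv_half]; exact rv_le h

theorem cstOk_sound {c : Cst} (h : cstOk c = true) : CstOk c := by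
  unfold cstOk at h
  simp only [Bool.and_eq_true] at h
  obtain ⟨h1, h2, h3, h4, h5, h6, h7, h8⟩ := h
  have k1 : c.rL ≤ c.rH := Nat.le_of_ble_eq_true h1
  have k2 : c.rH < 1099511627776 := Nat.le_of_ble_eq_true h2
  have k3 : 1099511627776 ≤ c.sL + mLo c.rL c.rL := Nat.le_of_ble_eq_true h3
  have k4 : mHi (mHi c.rL c.rL) 762123384788 ≤ c.bL + kapLo c.rL := Nat.le_of_ble_eq_true h4
  have k5 : 1099511627776 ≤ c.sH + mLo c.rH c.rH := Nat.le_of_ble_eq_true h5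
  have k6 : mHi (mHi c.rH c.rH) 762123384788 ≤ c.bH + kapLo c.rH := Nat.le_of_ble_eq_true h6
  have k7 : c.sl + mHi c.rH c.rH ≤ 1099511627776 := Nat.le_of_ble_eq_true h7
  have k8 : c.q ≤ mLo c.rH c.rH := Nat.le_of_ble_eq_true h8
  have qL := (lb_rv c.rL).mul (lb_rv c.rL)
  have qH := (lb_rv c.rH).mul (lb_rv c.rH)
  have uL := (ub_rv c.rL).mul (ub_rv c.rL) (rv_nonneg _) (rv_nonneg _)
  have uH := (ub_rv c.rH).mul (ub_rv c.rH) (rv_nonneg _) (rv_nonneg _)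
  have hH1 : rv c.rH < 1 := rv_lt_one k2
  have hL1 : rv c.rL < 1 := lt_of_le_of_lt (rv_le k1) hH1
  have kL := (lb_rv c.rL).kap hL1.le
  have kH := (lb_rv c.rH).kap hH1.le
  have l2 : (0 : ℝ) ≤ log 2 := log_nonneg (by norm_num)
  have wL := uL.mul ub_log2 (mul_nonneg (rv_nonneg _) (rv_nonneg _)) l2
  have wH := uH.mul ub_log2 (mul_nonneg (rv_nonneg _) (rv_nonneg _)) l2
  have r3 := rv_le k3
  have r4 := rv_le k4
  have r5 := rv_le k5
  have r6 := rv_le k6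
  have r7 := rv_le k7
  rw [rv_one, rv_add] at r3 r5
  rw [rv_add] at r4 r6 r7
  rw [rv_one] at r7
  refine ⟨k1, k2, ?_, ?_, ?_, ?_, ?_, ?_⟩
  · unfold Ub Lb rv at *; nlinarith
  · unfold Ub Lb bb rv at *; nlinarith
  · unfold Ub Lb rv at *; nlinarith
  · unfold Ub Lb bb rv at *; nlinarith
  · unfold Ub Lb rv at *; nlinarith
  · have := qH.mono k8
    rwa [← sq] at this

/-- upper bound of `psi`. -/
def psiHi (s b m : ℕ) : ℕ :=
  Nat.add (mHi s (Nat.sub (nat_lit 762123384788) (kapLo (Nat.sub (nat_lit 1099511627776) (Nat.mul (nat_lit 2) m)))))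
    (mHi (mHi b (Nat.mul (nat_lit 4) m)) (Nat.sub (nat_lit 1099511627776) m))

lemma lb_one_sub {m : ℕ} (hm : m ≤ 1099511627776) : Lb (1099511627776 - m) (1 - rv m) := by
  rw [← rv_sub_one hm]; exact lb_rv _

lemma ub_one_sub {m : ℕ} (hm : m ≤ 1099511627776) : Ub (1099511627776 - m) (1 - rv m) := by
  rw [← rv_sub_one hm]; exact ub_rv _

lemma lb_nat_mul (a m : ℕ) : Lb (a * m) (a * rv m) := by rw [← rv_mul_nat]; exact lb_rv _

lemma ub_nat_mul (a m : ℕ) : Ub (a * m) (a * rv m) := by rw [← rv_mul_nat]; exact ub_rv _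

lemma lb_one_sub2 {m : ℕ} (hm : m ≤ 549755813888) : Lb (1099511627776 - 2 * m) (1 - 2 * rv m) := by
  have := lb_one_sub (m := 2 * m) (by omega)
  rw [rv_mul_nat] at this
  exact_mod_cast this

lemma ub_one_sub2 {m : ℕ} (hm : m ≤ 549755813888) : Ub (1099511627776 - 2 * m) (1 - 2 * rv m) := by
  have := ub_one_sub (m := 2 * m) (by omega)
  rw [rv_mul_nat] at this
  exact_mod_cast this

lemma ub_four (m : ℕ) : Ub (4 * m) (4 * rv m) := by
  have := ub_nat_mul 4 m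
  exact_mod_cast this

lemma ub_two (m : ℕ) : Ub (2 * m) (2 * rv m) := by
  have := ub_nat_mul 2 m
  exact_mod_cast this

lemma lb_two (m : ℕ) : Lb (2 * m) (2 * rv m) := by
  have := lb_nat_mul 2 m
  exact_mod_cast this

lemma ub_eight (m : ℕ) : Ub (8 * m) (8 * rv m) := by
  have := ub_nat_mul 8 m
  exact_mod_cast this

lemma psiHi_ub {s b m : ℕ} {ρ : ℝ} (h0 : 0 ≤ ρ) (h1 : ρ ≤ 1) (hs : Ub s (1 - ρ ^ 2)) (hb : Ub b (bb ρ))
    (hm : m ≤ 549755813888) : Ub (psiHi s b m) (psi ρ (rv m)) := by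
  rw [psi_eq_kap]
  have hm2 := rv_le_half hm
  have hm0 := rv_nonneg m
  have k1 := (lb_one_sub2 hm).kap (by linarith)
  have k2 := ub_log2.sub k1
  have k3 : 0 ≤ log 2 - kap (1 - 2 * rv m) := by
    have := kap_le_log_two (t := 1 - 2 * rv m) (by linarith) (by linarith)
    linarith
  have k4 := hs.mul k2 (by nlinarith) k3
  have k5 := (hb.mul (ub_four m) (bb_nonneg h0 h1) (by positivity)).mul (ub_one_sub (m := m) (by omega))
    (mul_nonneg (bb_nonneg h0 h1) (by positivity)) (by linarith)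
  exact k4.add k5

/-- (R), first condition; `x2` upper bound of `ξ2`. -/
def okRa (c : Cst) (m1 x2 k : ℕ) : Bool :=
  Nat.ble
    (Nat.add (mHi (psiHi c.sL c.bL m1) k)
      (mHi m1 (Nat.add (Nat.add (mHi k (kapHi (mHi c.rL x2)))
        (mHi (Nat.sub (nat_lit 1099511627776) k)
          (kapHi (mHi (mHi c.rL x2) (dHi k (Nat.sub (nat_lit 1099511627776) k))))))
        (kapHi (Nat.sub (nat_lit 1099511627776) (Nat.mul (nat_lit 2) k))))))
    (mLo m1 (nat_lit 762123384784))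

lemma eta_bounds {x : ℝ} (h0 : 0 ≤ x) (h1 : x ≤ 1 / 2) : 0 ≤ x / (1 - x) ∧ x / (1 - x) ≤ 1 :=
  ⟨div_nonneg h0 (by linarith), by rw [div_le_one (by linarith)]; linarith⟩

lemma okRa_sound {c : Cst} (hc : CstOk c) {m1 x2 k : ℕ} {ξ2 : ℝ} (hm1 : m1 ≤ 549755813888) (hk0 : 1 ≤ k)
    (hk : k ≤ 549755813888) (hξ0 : 0 ≤ ξ2) (hξ1 : ξ2 ≤ 1) (hx : Ub x2 ξ2) (h : okRa c m1 x2 k = true) :
    psi (rv c.rL) (rv m1) ≤ rv m1 / rv k * kk (rv c.rL) (rv k) (ξ2 * rv k) := by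
  have hH1 : rv c.rH < 1 := rv_lt_one hc.h2
  have hL1 : rv c.rL < 1 := lt_of_le_of_lt (rv_le hc.h1) hH1
  have hL0 := rv_nonneg c.rL
  have hk1 := rv_le_half hk
  have hk00 := rv_pos hk0
  have hm0 := rv_nonneg m1
  obtain ⟨he0, he1⟩ := eta_bounds hk00.le hk1
  have h' : (mHi (psiHi c.sL c.bL m1) k) + (mHi m1 ((mHi k (kapHi (mHi c.rL x2)) +
      mHi (1099511627776 - k) (kapHi (mHi (mHi c.rL x2) (dHi k (1099511627776 - k))))) +
      (kapHi (1099511627776 - 2 * k)))) ≤ mLo m1 762123384784 := Nat.le_of_ble_eq_true h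
  apply R_A1 hk00 hk1 hL0 hξ0
  have hv0 : 0 ≤ rv c.rL * ξ2 := by positivity
  have hv1 : rv c.rL * ξ2 ≤ 1 := by nlinarith
  have hv := (ub_rv c.rL).mul hx hL0 hξ0
  have hη := (ub_rv k).div (lb_one_sub (m := k) (by omega)) (rv_nonneg _) (by omega)
  have hw := hv.mul hη hv0 he0
  have hw0 : 0 ≤ rv c.rL * ξ2 * (rv k / (1 - rv k)) := mul_nonneg hv0 he0
  have hw1 : rv c.rL * ξ2 * (rv k / (1 - rv k)) ≤ 1 := by nlinarith
  have a1 := (psiHi_ub hL0 hL1.le hc.sL hc.bL hm1).mul (ub_rv k)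
    (by
      rw [psi_eq_bb]
      have := bb_nonneg hL0 hL1.le
      have := binEntropy_nonneg hm0 (by linarith [rv_le_half hm1])
      have := rv_le_half hm1
      have : 0 ≤ 1 - rv c.rL ^ 2 := by nlinarith
      have : 0 ≤ 1 - rv m1 := by linarith
      positivity) hk00.le
  have a2 := (ub_rv k).mul (hv.kap hv0 hv1) hk00.le (kap_nonneg' hv0 hv1)
  have a3 := (ub_one_sub (m := k) (by omega)).mul (hw.kap hw0 hw1) (by linarith) (kap_nonneg' hw0 hw1)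
  have a4 := (ub_one_sub2 hk).kap (by linarith) (by linarith)
  have a5 := (ub_rv m1).mul ((a2.add a3).add a4) hm0 (by
    have := kap_nonneg' hv0 hv1
    have := kap_nonneg' hw0 hw1
    have := kap_nonneg' (v := 1 - 2 * rv k) (by linarith) (by linarith)
    have : 0 ≤ 1 - rv k := by linarith
    positivity)
  exact Lb.le_of_le (a1.add a5) ((lb_rv m1).mul lb_log2) h'

/-- (R), second condition. -/
def okRb (c : Cst) (m2 e1 k : ℕ) : Bool :=
  Nat.ble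
    (Nat.add (mHi k (Nat.add
        (mHi c.sH (mHi (Nat.sub (nat_lit 1099511627776) m2) (kapHi (dHi e1 (Nat.sub (nat_lit 1099511627776) m2)))))
        (mHi c.bH (mHi (Nat.mul (nat_lit 4) e1) e1))))
      (mHi m2 (Nat.add (mHi k (kapHi (mHi c.rH (dHi e1 m2))))
        (mHi (Nat.sub (nat_lit 1099511627776) k)
          (kapHi (mHi c.rH (mHi (dHi e1 m2) (dHi k (Nat.sub (nat_lit 1099511627776) k)))))))))
    (mLo m2 (Nat.add (mLo k (mLo c.q (kapLo (dLo e1 m2))))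
      (mLo (Nat.sub (nat_lit 1099511627776) k)
        (kapLo (mLo (dLo e1 m2) (dLo k (Nat.sub (nat_lit 1099511627776) k)))))))

lemma okRb_sound {c : Cst} (hc : CstOk c) {m2 e1 k : ℕ} (hm20 : 1 ≤ m2) (hm2 : m2 ≤ 549755813888)
    (hk0 : 1 ≤ k) (hk : k ≤ 549755813888) (he : e1 ≤ m2) (h : okRb c m2 e1 k = true) :
    GapJ (rv c.rH) (rv m2) (rv e1 / rv m2 * rv m2) ≤
      rv m2 / rv k * (kk (rv c.rH) (rv k) (rv e1 / rv m2 * rv k) - kk 1 (rv k) (rv e1 / rv m2 * rv k)) := by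
  have hH1 : rv c.rH < 1 := rv_lt_one hc.h2
  have hH0 := rv_nonneg c.rH
  have hk1 := rv_le_half hk
  have hk00 := rv_pos hk0
  have hm1 := rv_le_half hm2
  have hm00 := rv_pos hm20
  have he0 := rv_nonneg e1
  have hem : rv e1 ≤ rv m2 := rv_le he
  obtain ⟨hη0, hη1⟩ := eta_bounds hk00.le hk1
  have hξ0 : 0 ≤ rv e1 / rv m2 := by positivity
  have hξ1 : rv e1 / rv m2 ≤ 1 := by rw [div_le_one hm00]; exact hem
  have hy0 : 0 ≤ rv e1 / (1 - rv m2) := div_nonneg he0 (by linarith)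
  have hy1 : rv e1 / (1 - rv m2) ≤ 1 := by rw [div_le_one (by linarith)]; linarith
  have hz0 : 0 ≤ rv e1 / rv m2 * (rv k / (1 - rv k)) := by positivity
  have hz1 : rv e1 / rv m2 * (rv k / (1 - rv k)) ≤ 1 := by nlinarith
  have hρz0 : 0 ≤ rv c.rH * (rv e1 / rv m2 * (rv k / (1 - rv k))) := by positivity
  have hρz1 : rv c.rH * (rv e1 / rv m2 * (rv k / (1 - rv k))) ≤ 1 := by nlinarith
  have hρx0 : 0 ≤ rv c.rH * (rv e1 / rv m2) := by positivity
  have hρx1 : rv c.rH * (rv e1 / rv m2) ≤ 1 := by nlinarith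
  have xU := (ub_rv e1).div (lb_rv m2) he0 hm20
  have xL := (lb_rv e1).div (ub_rv m2) hm00
  have yU := (ub_rv e1).div (lb_one_sub (m := m2) (by omega)) he0 (by omega)
  have ηU := (ub_rv k).div (lb_one_sub (m := k) (by omega)) hk00.le (by omega)
  have ηL := (lb_rv k).div (ub_one_sub (m := k) (by omega)) (by linarith)
  have zU := xU.mul ηU hξ0 hη0
  have zL := xL.mul ηL
  have s0 : 0 ≤ 1 - rv c.rH ^ 2 := by nlinarith
  have m0 : 0 ≤ 1 - rv m2 := by linarith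
  have k0 : 0 ≤ 1 - rv k := by linarith
  have b0 := bb_nonneg hH0 hH1.le
  have ky := kap_nonneg' hy0 hy1
  have a1 := hc.sH.mul ((ub_one_sub (m := m2) (by omega)).mul (yU.kap hy0 hy1) m0 ky) s0 (mul_nonneg m0 ky)
  have a2 := hc.bH.mul ((ub_four e1).mul (ub_rv e1) (by positivity) he0) b0 (by positivity)
  have a3 := (ub_rv k).mul (a1.add a2) hk00.le (by positivity)
  have kx := kap_nonneg' hρx0 hρx1
  have kz := kap_nonneg' hρz0 hρz1
  have a4 := (ub_rv k).mul (((ub_rv c.rH).mul xU hH0 hξ0).kap hρx0 hρx1) hk00.le kx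
  have a5 := (ub_one_sub (m := k) (by omega)).mul (((ub_rv c.rH).mul zU hH0 hz0).kap hρz0 hρz1) k0 kz
  have a6 := (ub_rv m2).mul (a4.add a5) hm00.le (by positivity)
  have b1 := (lb_rv k).mul (hc.q.mul (xL.kap hξ1))
  have b2 := (lb_one_sub (m := k) (by omega)).mul (zL.kap hz1)
  have b3 := (lb_rv m2).mul (b1.add b2)
  apply R_A2 (e1 := rv e1) hm00 hm1 hk00 hk1 hH0 hξ0 (by field_simp)
  exact Lb.le_of_le (a3.add a6) b3 (Nat.le_of_ble_eq_true h)

/-- (R), second condition in the limit `ξ → 0`. -/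
def okRc (c : Cst) (m2 k : ℕ) : Bool :=
  Nat.ble
    (Nat.add (mHi (Nat.mul (nat_lit 8) m2) c.bH) (mHi c.sH (dHi m2 (Nat.sub (nat_lit 1099511627776) m2))))
    (mLo c.sl (dLo k (Nat.sub (nat_lit 1099511627776) k)))

lemma okRc_sound {c : Cst} (hc : CstOk c) {m2 k : ℕ} (hm2 : m2 ≤ 549755813888)
    (hk : k ≤ 549755813888) (h : okRc c m2 k = true) :
    4 * rv m2 * bb (rv c.rH) ≤ (1 - rv c.rH ^ 2) / 2 * (rv k / (1 - rv k) - rv m2 / (1 - rv m2)) := by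
  have hH1 : rv c.rH < 1 := rv_lt_one hc.h2
  have hH0 := rv_nonneg c.rH
  have hk1 := rv_le_half hk
  have hm1 := rv_le_half hm2
  have hm0 := rv_nonneg m2
  have s0 : 0 ≤ 1 - rv c.rH ^ 2 := by nlinarith
  have b0 := bb_nonneg hH0 hH1.le
  have ηU := (ub_rv m2).div (lb_one_sub (m := m2) (by omega)) hm0 (by omega)
  have ηL := (lb_rv k).div (ub_one_sub (m := k) (by omega)) (by linarith)
  have a1 := (ub_eight m2).mul hc.bH (by positivity) b0
  have a2 := hc.sH.mul ηU s0 (div_nonneg hm0 (by linarith))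
  have b1 := hc.sl.mul ηL
  have := Lb.le_of_le (a1.add a2) b1 (Nat.le_of_ble_eq_true h)
  linarith

/-- (N), first condition. -/
def okNa (c : Cst) (m1 e2 k : ℕ) : Bool :=
  Nat.ble
    (Nat.add (mHi (psiHi c.sL c.bL m1) k)
      (mHi (Nat.mul (nat_lit 2) m1) (kapHi (mHi c.rL (mHi k (dHi e2 m1))))))
    (mLo (Nat.mul (nat_lit 2) m1) (nat_lit 762123384784))

lemma psi_nonneg' {ρ m : ℝ} (h0 : 0 ≤ ρ) (h1 : ρ ≤ 1) (hm0 : 0 ≤ m) (hm : m ≤ 1) : 0 ≤ psi ρ m := by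
  rw [psi_eq_bb]
  have := bb_nonneg h0 h1
  have := binEntropy_nonneg hm0 hm
  have : 0 ≤ 1 - ρ ^ 2 := by nlinarith
  have : 0 ≤ 1 - m := by linarith
  positivity

lemma okNa_sound {c : Cst} (hc : CstOk c) {m1 e2 k : ℕ} (hm10 : 1 ≤ m1) (hm1 : m1 ≤ 549755813888)
    (hk0 : 1 ≤ k) (hlt : rv k * (rv e2 / rv m1) ≤ 1) (h : okNa c m1 e2 k = true) :
    psi (rv c.rL) (rv m1) ≤ 2 * rv m1 / rv k * binEntropy ((1 - rv c.rL * (rv k * (rv e2 / rv m1))) / 2) := by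
  have hH1 : rv c.rH < 1 := rv_lt_one hc.h2
  have hL1 : rv c.rL < 1 := lt_of_le_of_lt (rv_le hc.h1) hH1
  have hL0 := rv_nonneg c.rL
  have hk00 := rv_pos hk0
  have hm00 := rv_pos hm10
  have hm2 := rv_le_half hm1
  have he0 := rv_nonneg e2
  have hx0 : 0 ≤ rv e2 / rv m1 := by positivity
  have hw0 : 0 ≤ rv k * (rv e2 / rv m1) := by positivity
  have hv0 : 0 ≤ rv c.rL * (rv k * (rv e2 / rv m1)) := by positivity
  have hv1 : rv c.rL * (rv k * (rv e2 / rv m1)) ≤ 1 := by nlinarith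
  have xU := (ub_rv e2).div (lb_rv m1) he0 hm10
  have wU := (ub_rv k).mul xU hk00.le hx0
  have vU := (ub_rv c.rL).mul wU hL0 hw0
  have a1 := (psiHi_ub hL0 hL1.le hc.sL hc.bL hm1).mul (ub_rv k)
    (psi_nonneg' hL0 hL1.le hm00.le (by linarith)) hk00.le
  have a2 := (ub_two m1).mul (vU.kap hv0 hv1) (by positivity) (kap_nonneg' hv0 hv1)
  apply N_A1 hk00
  exact Lb.le_of_le (a1.add a2) ((lb_two m1).mul lb_log2) (Nat.le_of_ble_eq_true h)

/-- (N), second condition. -/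
def okNb (c : Cst) (m2 e1 k : ℕ) : Bool :=
  Nat.ble
    (Nat.add (mHi k (Nat.add
        (mHi c.sH (Nat.add (mHi m2 (kapHi (dHi e1 m2)))
          (mHi (Nat.sub (nat_lit 1099511627776) m2) (kapHi (dHi e1 (Nat.sub (nat_lit 1099511627776) m2))))))
        (mHi c.bH (mHi (Nat.mul (nat_lit 4) e1) e1))))
      (mHi (Nat.mul (nat_lit 2) m2) (kapHi (mHi c.rH (mHi k (dHi e1 m2))))))
    (mLo (Nat.mul (nat_lit 2) m2) (kapLo (mLo k (dLo e1 m2))))

lemma okNb_sound {c : Cst} (hc : CstOk c) {m2 e1 k : ℕ} (hm20 : 1 ≤ m2) (hm2 : m2 ≤ 549755813888)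
    (hk0 : 1 ≤ k) (he : e1 ≤ m2) (hlt : rv k * (rv e1 / rv m2) ≤ 1) (h : okNb c m2 e1 k = true) :
    GapJ (rv c.rH) (rv m2) (rv e1 / rv m2 * rv m2) ≤ 2 * rv m2 / rv k *
      (binEntropy ((1 - rv c.rH * (rv k * (rv e1 / rv m2))) / 2) -
        binEntropy ((1 - rv k * (rv e1 / rv m2)) / 2)) := by
  have hH1 : rv c.rH < 1 := rv_lt_one hc.h2
  have hH0 := rv_nonneg c.rH
  have hk00 := rv_pos hk0
  have hm1 := rv_le_half hm2
  have hm00 := rv_pos hm20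
  have he0 := rv_nonneg e1
  have hem : rv e1 ≤ rv m2 := rv_le he
  have hξ0 : 0 ≤ rv e1 / rv m2 := by positivity
  have hξ1 : rv e1 / rv m2 ≤ 1 := by rw [div_le_one hm00]; exact hem
  have hy0 : 0 ≤ rv e1 / (1 - rv m2) := div_nonneg he0 (by linarith)
  have hy1 : rv e1 / (1 - rv m2) ≤ 1 := by rw [div_le_one (by linarith)]; linarith
  have hw0 : 0 ≤ rv k * (rv e1 / rv m2) := by positivity
  have hρw0 : 0 ≤ rv c.rH * (rv k * (rv e1 / rv m2)) := by positivity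
  have hρw1 : rv c.rH * (rv k * (rv e1 / rv m2)) ≤ 1 := by nlinarith
  have xU := (ub_rv e1).div (lb_rv m2) he0 hm20
  have xL := (lb_rv e1).div (ub_rv m2) hm00
  have yU := (ub_rv e1).div (lb_one_sub (m := m2) (by omega)) he0 (by omega)
  have wU := (ub_rv k).mul xU hk00.le hξ0
  have wL := (lb_rv k).mul xL
  have s0 : 0 ≤ 1 - rv c.rH ^ 2 := by nlinarith
  have m0 : 0 ≤ 1 - rv m2 := by linarith
  have b0 := bb_nonneg hH0 hH1.le
  have kx := kap_nonneg' hξ0 hξ1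
  have ky := kap_nonneg' hy0 hy1
  have a0 := ((ub_rv m2).mul (xU.kap hξ0 hξ1) hm00.le kx).add
    ((ub_one_sub (m := m2) (by omega)).mul (yU.kap hy0 hy1) m0 ky)
  have a1 := hc.sH.mul a0 s0 (by positivity)
  have a2 := hc.bH.mul ((ub_four e1).mul (ub_rv e1) (by positivity) he0) b0 (by positivity)
  have a3 := (ub_rv k).mul (a1.add a2) hk00.le (by positivity)
  have kw := kap_nonneg' hρw0 hρw1
  have a4 := (ub_two m2).mul (((ub_rv c.rH).mul wU hH0 hw0).kap hρw0 hρw1) (by positivity) kw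
  have b1 := (lb_two m2).mul (wL.kap hlt)
  apply N_A2 (e1 := rv e1) hm00 hm1 hk00 hξ0 (by field_simp)
  exact Lb.le_of_le (a3.add a4) b1 (Nat.le_of_ble_eq_true h)

/-- (N), second condition in the limit `ξ → 0`. -/
def okNc (c : Cst) (m2 k : ℕ) : Bool :=
  Nat.ble
    (Nat.add (mHi (Nat.mul (nat_lit 8) m2) c.bH)
      (mHi c.sH (Nat.add (nat_lit 1099511627776) (dHi m2 (Nat.sub (nat_lit 1099511627776) m2)))))
    (mLo c.sl (Nat.mul (nat_lit 2) k))

lemma okNc_sound {c : Cst} (hc : CstOk c) {m2 k : ℕ} (hm2 : m2 ≤ 549755813888)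
    (h : okNc c m2 k = true) :
    4 * rv m2 * bb (rv c.rH) ≤ (1 - rv c.rH ^ 2) / 2 * (2 * rv k - (1 + rv m2 / (1 - rv m2))) := by
  have hH1 : rv c.rH < 1 := rv_lt_one hc.h2
  have hH0 := rv_nonneg c.rH
  have hm1 := rv_le_half hm2
  have hm0 := rv_nonneg m2
  have s0 : 0 ≤ 1 - rv c.rH ^ 2 := by nlinarith
  have b0 := bb_nonneg hH0 hH1.le
  have ηU := (ub_rv m2).div (lb_one_sub (m := m2) (by omega)) hm0 (by omega)
  have one : Ub 1099511627776 1 := by have := ub_rv 1099511627776; rwa [rv_one] at this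
  have a1 := (ub_eight m2).mul hc.bH (by positivity) b0
  have a2 := hc.sH.mul (one.add ηU) s0 (by
    have := div_nonneg hm0 (by linarith : 0 ≤ 1 - rv m2)
    linarith)
  have b1 := hc.sl.mul (lb_two k)
  have := Lb.le_of_le (a1.add a2) b1 (Nat.le_of_ble_eq_true h)
  linarith

/-- upper bound of `J1 M e`. -/
def jHi (M e : ℕ) : ℕ :=
  Nat.add (mHi M (kapHi (dHi e M)))
    (mHi (Nat.sub (nat_lit 1099511627776) M) (kapHi (dHi e (Nat.sub (nat_lit 1099511627776) M))))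

lemma jHi_ub {M e : ℕ} (hM0 : 1 ≤ M) (hM : M ≤ 549755813888) (he : e ≤ M) :
    Ub (jHi M e) (rv M * kap (rv e / rv M) + (1 - rv M) * kap (rv e / (1 - rv M))) := by
  have hm1 := rv_le_half hM
  have hm00 := rv_pos hM0
  have he0 := rv_nonneg e
  have hem : rv e ≤ rv M := rv_le he
  have hξ0 : 0 ≤ rv e / rv M := by positivity
  have hξ1 : rv e / rv M ≤ 1 := by rw [div_le_one hm00]; exact hem
  have hy0 : 0 ≤ rv e / (1 - rv M) := div_nonneg he0 (by linarith)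
  have hy1 : rv e / (1 - rv M) ≤ 1 := by rw [div_le_one (by linarith)]; linarith
  have xU := (ub_rv e).div (lb_rv M) he0 hM0
  have yU := (ub_rv e).div (lb_one_sub (m := M) (by omega)) he0 (by omega)
  exact ((ub_rv M).mul (xU.kap hξ0 hξ1) hm00.le (kap_nonneg' hξ0 hξ1)).add
    ((ub_one_sub (m := M) (by omega)).mul (yU.kap hy0 hy1) (by linarith) (kap_nonneg' hy0 hy1))

lemma J_nonneg {m e : ℝ} (hm : 0 < m) (hm2 : m ≤ 1 / 2) (he : 0 ≤ e) (hem : e ≤ m) :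
    0 ≤ m * kap (e / m) + (1 - m) * kap (e / (1 - m)) := by
  have hξ0 : 0 ≤ e / m := by positivity
  have hξ1 : e / m ≤ 1 := by rw [div_le_one hm]; exact hem
  have hy0 : 0 ≤ e / (1 - m) := div_nonneg he (by linarith)
  have hy1 : e / (1 - m) ≤ 1 := by rw [div_le_one (by linarith)]; linarith
  have := kap_nonneg' hξ0 hξ1
  have := kap_nonneg' hy0 hy1
  have : 0 ≤ 1 - m := by linarith
  positivity

/-- (S), the three conditions; `M = max m1 e2`. -/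
def okS3 (c : Cst) (m2 M e1 e2 k : ℕ) : Bool :=
  Nat.ble
    (Nat.add (mHi (psiHi c.sL c.bL m2) k) (mHi (Nat.mul (nat_lit 2) e1) (kapHi (mHi c.rL k))))
    (mLo (Nat.mul (nat_lit 2) e1) (nat_lit 762123384784)) &&
  (Nat.ble
    (Nat.add (mHi k (Nat.add (mHi c.sH (jHi M e2)) (mHi c.bH (mHi (Nat.mul (nat_lit 4) e2) e2))))
      (mHi (Nat.mul (nat_lit 2) e2) (kapHi (mHi c.rH k))))
    (mLo (Nat.mul (nat_lit 2) e2) (kapLo k)) &&
  Nat.ble (mHi k (jHi M e2)) (mLo (Nat.mul (nat_lit 2) e2) (kapLo k)))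

lemma okS3_sound {c : Cst} (hc : CstOk c) {m2 M e1 e2 k : ℕ} (hm2 : m2 ≤ 549755813888)
    (hM0 : 1 ≤ M) (hM : M ≤ 549755813888) (heM : e2 ≤ M) (hk0 : 1 ≤ k) (hk : k < 1099511627776)
    (h : okS3 c m2 M e1 e2 k = true) :
    psi (rv c.rL) (rv m2) ≤ 2 * rv e1 / rv k * binEntropy ((1 - rv c.rL * rv k) / 2) ∧
    GapJ (rv c.rH) (rv M) (rv e2) ≤ 2 * rv e2 / rv k *
      (binEntropy ((1 - rv c.rH * rv k) / 2) - binEntropy ((1 - rv k) / 2)) ∧
    J1 (rv M) (rv e2) ≤ 2 * rv e2 / rv k * kap (rv k) := by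
  unfold okS3 at h
  simp only [Bool.and_eq_true] at h
  obtain ⟨h1, h2, h3⟩ := h
  have hH1 : rv c.rH < 1 := rv_lt_one hc.h2
  have hH0 := rv_nonneg c.rH
  have hL1 : rv c.rL < 1 := lt_of_le_of_lt (rv_le hc.h1) hH1
  have hL0 := rv_nonneg c.rL
  have hk00 := rv_pos hk0
  have hk1 := rv_lt_one hk
  have hm1 := rv_le_half hm2
  have hM1 := rv_le_half hM
  have hM00 := rv_pos hM0
  have he10 := rv_nonneg e1
  have he20 := rv_nonneg e2
  have hρL0 : 0 ≤ rv c.rL * rv k := by positivity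
  have hρL1 : rv c.rL * rv k ≤ 1 := by nlinarith
  have hρH0 : 0 ≤ rv c.rH * rv k := by positivity
  have hρH1 : rv c.rH * rv k ≤ 1 := by nlinarith
  have s0 : 0 ≤ 1 - rv c.rH ^ 2 := by nlinarith
  have b0 := bb_nonneg hH0 hH1.le
  have hJ := jHi_ub hM0 hM heM
  have hJ0 := J_nonneg hM00 hM1 he20 (rv_le heM)
  have hkap := (lb_two e2).mul ((lb_rv k).kap hk1.le)
  refine ⟨?_, ?_, ?_⟩
  · have a1 := (psiHi_ub hL0 hL1.le hc.sL hc.bL hm2).mul (ub_rv k)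
      (psi_nonneg' hL0 hL1.le (rv_nonneg _) (by linarith)) hk00.le
    have a2 := (ub_two e1).mul (((ub_rv c.rL).mul (ub_rv k) hL0 hk00.le).kap hρL0 hρL1) (by positivity)
      (kap_nonneg' hρL0 hρL1)
    apply S_A1 hk00
    exact Lb.le_of_le (a1.add a2) ((lb_two e1).mul lb_log2) (Nat.le_of_ble_eq_true h1)
  · have a1 := hc.sH.mul hJ s0 hJ0
    have a2 := hc.bH.mul ((ub_four e2).mul (ub_rv e2) (by positivity) he20) b0 (by positivity)
    have a3 := (ub_rv k).mul (a1.add a2) hk00.le (by positivity)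
    have a4 := (ub_two e2).mul (((ub_rv c.rH).mul (ub_rv k) hH0 hk00.le).kap hρH0 hρH1) (by positivity)
      (kap_nonneg' hρH0 hρH1)
    apply S_A2 hM00 hM1 he20 hk00
    exact Lb.le_of_le (a3.add a4) hkap (Nat.le_of_ble_eq_true h2)
  · apply S_G0 hM00 hM1 he20 hk00
    exact Lb.le_of_le ((ub_rv k).mul hJ hk00.le hJ0) hkap (Nat.le_of_ble_eq_true h3)

end P322.H19
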